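import Vale.Agent.Lib.P012.Defs

/-! Basic facts on `e`, `avgE`, `pA`, `fS`. -/

namespace Vale.Agent.P012

open Finset

theorem e_add (x y : ℝ) : e (x + y) = e x * e y := by
  unfold e
  rw [← Complex.exp_add]
  congr 1
  push_cast
  ring

theorem e_zero : e 0 = 1 := by
  unfold e
  simp

theorem e_int (n : ℤ) : e (n : ℝ) = 1 := by
  unfold e
  rw [Complex.exp_eq_one_iff]
  exact ⟨n, by push_cast; ring⟩

theorem norm_e (x : ℝ) : ‖e x‖ = 1 := by
  unfold e
  rw [Complex.norm_exp]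
  simp

theorem e_add_int (x : ℝ) (n : ℤ) : e (x + n) = e x := by
  rw [e_add, e_int, mul_one]

theorem pA_nil (θ : ℝ) : pA [] θ = 1 := by simp [pA]

theorem pA_cons (T : Multiset ℕ) (L : List (Multiset ℕ)) (θ : ℝ) :
    pA (T :: L) θ = ‖avgE T θ‖ * pA L θ := by simp [pA]

theorem pA_append (L₁ L₂ : List (Multiset ℕ)) (θ : ℝ) :
    pA (L₁ ++ L₂) θ = pA L₁ θ * pA L₂ θ := by simp [pA]

theorem pA_nonneg (L : List (Multiset ℕ)) (θ : ℝ) : 0 ≤ pA L θ := by
  unfold pA
  apply List.prod_nonneg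
  intro a ha
  rw [List.mem_map] at ha
  obtain ⟨T, _, rfl⟩ := ha
  exact norm_nonneg _

theorem norm_avgE_le_one (T : Multiset ℕ) (θ : ℝ) : ‖avgE T θ‖ ≤ 1 := by
  unfold avgE
  rw [norm_div]
  have h1 : ‖(T.map (fun d : ℕ => e ((d : ℝ) * θ))).sum‖ ≤ (Multiset.card T : ℝ) := by
    induction T using Multiset.induction_on with
    | empty => simp
    | cons a T ih =>
      rw [Multiset.map_cons, Multiset.sum_cons, Multiset.card_cons]
      push_cast
      calc ‖e ((a : ℝ) * θ) + (T.map (fun d : ℕ => e ((d : ℝ) * θ))).sum‖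
          ≤ ‖e ((a : ℝ) * θ)‖ + ‖(T.map (fun d : ℕ => e ((d : ℝ) * θ))).sum‖ := norm_add_le _ _
        _ ≤ 1 + (Multiset.card T : ℝ) := add_le_add (norm_e _).le ih
        _ = _ := by ring
  rw [Complex.norm_natCast]
  exact div_le_one_of_le₀ h1 (Nat.cast_nonneg _)

theorem pA_le_one (L : List (Multiset ℕ)) (θ : ℝ) : pA L θ ≤ 1 := by
  induction L with
  | nil => simp [pA]
  | cons T L ih =>
    rw [pA_cons]
    exact mul_le_one₀ (norm_avgE_le_one T θ) (pA_nonneg L θ) ih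

theorem Fam_append {L₁ L₂ : List (Multiset ℕ)} {G : ℕ} (h₁ : Fam L₁ G) (h₂ : Fam L₂ G) :
    Fam (L₁ ++ L₂) G := by
  intro T hT
  rcases List.mem_append.1 hT with h | h
  · exact h₁ T h
  · exact h₂ T h

theorem Fam_mono {L : List (Multiset ℕ)} {G G' : ℕ} (h : Fam L G) (hG : G ∣ G') : Fam L G' :=
  fun T hT => ⟨(h T hT).1, fun d hd => ((h T hT).2 d hd).trans hG⟩

theorem Fam_nil (G : ℕ) : Fam [] G := by
  intro T hT
  simp at hT

section
variable {ι : Type*} [Fintype ι] [DecidableEq ι]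

theorem card_subProds (p : ι → ℕ) (c : ℕ) :
    Multiset.card (subProds p c) = 2 ^ Fintype.card ι := by
  unfold subProds
  rw [Multiset.card_map, Finset.card_val, Finset.card_univ, Fintype.card_finset]

theorem subProds_ne_zero (p : ι → ℕ) (c : ℕ) : subProds p c ≠ 0 := by
  intro h
  have := card_subProds p c
  rw [h] at this
  simp at this
  exact absurd this.symm (by positivity)

theorem avgE_subProds (p : ι → ℕ) (c : ℕ) (θ : ℝ) :
    avgE (subProds p c) θ = fS p (c * θ) := by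
  unfold avgE fS
  rw [card_subProds]
  unfold subProds
  rw [Multiset.map_map]
  push_cast
  congr 1
  change ∑ S : Finset ι, _ = _
  apply Finset.sum_congr rfl
  intro S _
  simp only [Function.comp]
  congr 1
  push_cast
  ring

theorem dvd_of_mem_subProds {p : ι → ℕ} {c d : ℕ} (hd : d ∈ subProds p c) :
    d ∣ c * ∏ i, p i := by
  unfold subProds at hd
  rw [Multiset.mem_map] at hd
  obtain ⟨S, _, rfl⟩ := hd
  exact Nat.mul_dvd_mul_left c (Finset.prod_dvd_prod_of_subset _ _ _ (Finset.subset_univ S))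

theorem fS_add_int (p : ι → ℕ) (θ : ℝ) (n : ℤ) : fS p (θ + n) = fS p θ := by
  unfold fS
  congr 1
  apply Finset.sum_congr rfl
  intro S _
  have : (((∏ i ∈ S, p i : ℕ) : ℝ) * (θ + n))
      = ((∏ i ∈ S, p i : ℕ) : ℝ) * θ + (((∏ i ∈ S, p i : ℕ) * n : ℤ) : ℝ) := by
    push_cast
    ring
  rw [this, e_add_int]

end

end Vale.Agent.P012
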