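import Vale.Agent.Lib.P012.Basic

/-! Parts D2 (classes of primes), D3 (type split), F1 (digits). -/

namespace Vale.Agent.P012

open Finset

/-! ### D3 -/

/-- splitting of `q` into the parts coming from the two classes of primes -/
theorem exists_split (cls : ℕ → Bool) (q : ℕ) (hq : q ≠ 0) :
    ∃ a b : ℕ, q = a * b ∧ (∀ p : ℕ, p.Prime → cls p = false → ¬ p ∣ a) ∧
      (∀ p : ℕ, p.Prime → cls p = true → ¬ p ∣ b) := by
  induction q using induction_on_primes with
  | zero => exact absurd rfl hq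
  | one =>
    refine ⟨1, 1, rfl, ?_, ?_⟩
    · intro p hp _ h
      exact hp.one_lt.ne' (Nat.dvd_one.1 h)
    · intro p hp _ h
      exact hp.one_lt.ne' (Nat.dvd_one.1 h)
  | prime_mul p n hp ih =>
    have hn : n ≠ 0 := fun h => hq (by rw [h, mul_zero])
    obtain ⟨a, b, hab, ha, hb⟩ := ih hn
    rcases hc : cls p with _ | _
    · refine ⟨a, p * b, by rw [hab]; ring, ha, ?_⟩
      intro l hl hcl hdvd
      rcases (hl.dvd_mul).1 hdvd with h | h
      · have : l = p := (Nat.prime_dvd_prime_iff_eq hl hp).1 h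
        rw [this, hc] at hcl
        exact absurd hcl (by decide)
      · exact hb l hl hcl h
    · refine ⟨p * a, b, by rw [hab]; ring, ?_, hb⟩
      intro l hl hcl hdvd
      rcases (hl.dvd_mul).1 hdvd with h | h
      · have : l = p := (Nat.prime_dvd_prime_iff_eq hl hp).1 h
        rw [this, hc] at hcl
        exact absurd hcl (by decide)
      · exact ha l hl hcl h

/-- D3. Every `q` has a large divisor free of primes of one class. -/
theorem type_split (cls : ℕ → Bool) (q : ℕ) (hq : 0 < q) :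
    ∃ (m : ℕ) (σ : Bool), m ∣ q ∧ q ≤ m ^ 2 ∧ ∀ p : ℕ, p.Prime → cls p = σ → ¬ p ∣ m := by
  obtain ⟨a, b, hab, ha, hb⟩ := exists_split cls q hq.ne'
  rcases le_total a b with h | h
  · refine ⟨b, true, ⟨a, by rw [hab]; ring⟩, ?_, hb⟩
    rw [hab, pow_two]
    exact Nat.mul_le_mul_right b h
  · refine ⟨a, false, ⟨b, hab⟩, ?_, ha⟩
    rw [hab, pow_two]
    exact Nat.mul_le_mul_left a h

/-! ### D2 -/

/-- the class of a prime: parity of the number of smaller primes -/
noncomputable def parCls (n : ℕ) : Bool := decide (Even (Nat.count Nat.Prime n))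

theorem card_parCls (N : ℕ) :
    ((range N).filter (fun p => p.Prime ∧ parCls p = true)).card
        = (Nat.count Nat.Prime N + 1) / 2 ∧
      ((range N).filter (fun p => p.Prime ∧ parCls p = false)).card
        = (Nat.count Nat.Prime N) / 2 := by
  induction N with
  | zero => simp
  | succ N ih =>
    obtain ⟨h1, h2⟩ := ih
    rw [Finset.range_add_one, Finset.filter_insert, Finset.filter_insert, Nat.count_succ]
    by_cases hp : N.Prime
    · by_cases he : Even (Nat.count Nat.Prime N)
      · have hc : parCls N = true := by simp [parCls, he]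
        simp only [hp, hc, true_and, if_true]
        rw [Finset.card_insert_of_notMem (by simp)]
        simp only [Bool.true_eq_false, if_false]
        rw [h1, h2]
        obtain ⟨r, hr⟩ := he
        omega
      · have hc : parCls N = false := by simp [parCls, he]
        simp only [hp, hc, true_and, if_true]
        rw [Finset.card_insert_of_notMem (by simp)]
        simp only [Bool.false_eq_true, if_false]
        rw [h1, h2]
        rw [Nat.not_even_iff_odd] at he
        obtain ⟨r, hr⟩ := he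
        omega
    · simp only [hp, false_and, if_false]
      rw [h1, h2]
      simp

theorem count_prime_lower (v : ℕ) (hv : 2 ≤ v) :
    (2 : ℝ) ^ v / v - 3 ≤ (Nat.count Nat.Prime (2 ^ v) : ℝ) := by
  have h1 := Chebyshev.pi_ge (2 ^ v)
  have hvpos : (0 : ℝ) < v := by exact_mod_cast (by omega : 0 < v)
  have hlog : Real.log ((2 ^ v : ℕ) : ℝ) = v * Real.log 2 := by
    push_cast
    rw [Real.log_pow]
  have hl2 : 0 < Real.log 2 := Real.log_pos (by norm_num)
  have hlog' : Real.log (((2 ^ v : ℕ) : ℝ) + 1) ≤ (v + 1) * Real.log 2 := by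
    have : ((2 ^ v : ℕ) : ℝ) + 1 ≤ 2 ^ (v + 1) := by
      push_cast
      rw [pow_succ]
      have : (1 : ℝ) ≤ 2 ^ v := one_le_pow₀ (by norm_num)
      linarith
    calc Real.log (((2 ^ v : ℕ) : ℝ) + 1) ≤ Real.log (2 ^ (v + 1)) :=
          Real.log_le_log (by positivity) this
      _ = (v + 1) * Real.log 2 := by rw [Real.log_pow]; push_cast; ring
  have hpi : (Nat.primeCounting (2 ^ v) : ℝ) ≤ (Nat.count Nat.Prime (2 ^ v) : ℝ) + 1 := by
    have : Nat.primeCounting (2 ^ v) ≤ Nat.count Nat.Prime (2 ^ v) + 1 := by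
      rw [Nat.primeCounting, Nat.primeCounting', Nat.count_succ]
      split_ifs <;> omega
    exact_mod_cast this
  have h2 : (2 : ℝ) ^ v / v - 2 ≤ (Nat.primeCounting (2 ^ v) : ℝ) := by
    refine le_trans ?_ h1
    rw [hlog, le_div_iff₀ (by positivity)]
    have h3 : ((2 : ℝ) ^ v / v - 2) * (v * Real.log 2)
        = 2 ^ v * Real.log 2 - 2 * v * Real.log 2 := by
      field_simp
    rw [h3]
    push_cast at hlog' ⊢
    have h4 : ((v : ℝ) + 1) * Real.log 2 ≤ 2 * v * Real.log 2 := by
      apply mul_le_mul_of_nonneg_right _ hl2.le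
      have : (1 : ℝ) ≤ v := by exact_mod_cast (by omega : 1 ≤ v)
      linarith
    linarith
  linarith

/-- D2. Two classes of primes, both large. -/
theorem classes : ∃ (cls : ℕ → Bool) (v₀ : ℕ), ∀ v ≥ v₀, ∀ σ : Bool,
    2 ^ v ≤ 8 * v * ((range (2 ^ v)).filter (fun p => p.Prime ∧ cls p = σ)).card := by
  refine ⟨parCls, 20, ?_⟩
  intro v hv σ
  have hcount := count_prime_lower v (by omega)
  have hv' : (20 : ℝ) ≤ v := by exact_mod_cast hv
  -- the number of members of the class is at least (count - 1) / 2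
  have hcard : (Nat.count Nat.Prime (2 ^ v)) / 2
      ≤ ((range (2 ^ v)).filter (fun p => p.Prime ∧ parCls p = σ)).card := by
    obtain ⟨h1, h2⟩ := card_parCls (2 ^ v)
    rcases σ with _ | _
    · rw [h2]
    · rw [h1]; omega
  have hcard' : ((Nat.count Nat.Prime (2 ^ v) : ℝ) - 1) / 2
      ≤ (((range (2 ^ v)).filter (fun p => p.Prime ∧ parCls p = σ)).card : ℝ) := by
    have : Nat.count Nat.Prime (2 ^ v) ≤
        2 * ((range (2 ^ v)).filter (fun p => p.Prime ∧ parCls p = σ)).card + 1 := by omega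
    have : (Nat.count Nat.Prime (2 ^ v) : ℝ) ≤
        2 * (((range (2 ^ v)).filter (fun p => p.Prime ∧ parCls p = σ)).card : ℝ) + 1 := by
      exact_mod_cast this
    linarith
  -- 2 ^ v ≥ 32 v for v ≥ 20
  have hgrow : ∀ n : ℕ, 20 ≤ n → 32 * n ≤ 2 ^ n := by
    intro n hn
    induction n, hn using Nat.le_induction with
    | base => norm_num
    | succ n hn ih => rw [pow_succ]; omega
  have hg : (32 : ℝ) * v ≤ 2 ^ v := by exact_mod_cast hgrow v hv
  have hvpos : (0 : ℝ) < v := by linarith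
  have hfin : (2 : ℝ) ^ v ≤ 8 * v *
      (((range (2 ^ v)).filter (fun p => p.Prime ∧ parCls p = σ)).card : ℝ) := by
    calc (2 : ℝ) ^ v ≤ 8 * v * ((2 ^ v / v - 3 - 1) / 2) := by
          have : 8 * v * (((2 : ℝ) ^ v / v - 3 - 1) / 2) = 4 * 2 ^ v - 16 * v := by
            field_simp
            ring
          rw [this]
          linarith
      _ ≤ _ := by
          apply mul_le_mul_of_nonneg_left _ (by positivity)
          linarith
  exact_mod_cast hfin

/-! ### F1 -/

theorem norm_one_sub_e (x : ℝ) : ‖1 - e x‖ = 2 * |Real.sin (Real.pi * x)| := by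
  rw [norm_sub_rev]
  have : e x = Complex.exp (Complex.I * ((2 * Real.pi * x : ℝ) : ℂ)) := by
    unfold e
    congr 1
    push_cast
    ring
  rw [this, Complex.norm_exp_I_mul_ofReal_sub_one, Real.norm_eq_abs, abs_mul, abs_two]
  congr 3
  ring

theorem four_div_le_norm (q h : ℕ) (hq : 2 ≤ q) (hh : h.Coprime q) :
    4 / (q : ℝ) ≤ ‖1 - e ((h : ℝ) / q)‖ := by
  have hqpos : (0 : ℝ) < q := by exact_mod_cast (by omega : 0 < q)
  set r : ℕ := h % q with hr
  have hrq : r < q := Nat.mod_lt _ (by omega)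
  have hr0 : 0 < r := by
    rcases Nat.eq_zero_or_pos r with h0 | h0
    · exfalso
      have hd : q ∣ h := Nat.dvd_of_mod_eq_zero h0
      have : q ∣ 1 := by
        have := Nat.dvd_gcd hd (dvd_refl q)
        rwa [hh] at this
      have := Nat.le_of_dvd one_pos this
      omega
    · exact h0
  obtain ⟨k, hk⟩ : ∃ k : ℕ, h = r + q * k := ⟨h / q, (Nat.mod_add_div h q).symm⟩
  have hdecomp : (h : ℝ) / q = (r : ℝ) / q + ((k : ℤ) : ℝ) := by
    have : (h : ℝ) = (r : ℝ) + q * (k : ℝ) := by exact_mod_cast hk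
    rw [this]
    push_cast
    field_simp
  rw [hdecomp, e_add_int, norm_one_sub_e]
  -- both cases
  have key : ∀ x : ℝ, 0 ≤ x → x ≤ 1 / 2 → 2 * x ≤ Real.sin (Real.pi * x) := by
    intro x hx0 hx1
    have h1 := Real.mul_le_sin (x := Real.pi * x) (by positivity)
      (by nlinarith [Real.pi_pos])
    have h2 : 2 / Real.pi * (Real.pi * x) = 2 * x := by
      field_simp
    linarith
  have hr1 : (1 : ℝ) ≤ r := by exact_mod_cast hr0
  have hrq1 : (r : ℝ) + 1 ≤ q := by exact_mod_cast hrq
  rcases le_total ((r : ℝ) / q) (1 / 2) with hle | hle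
  · have h1 := key _ (by positivity) hle
    have h2 : 2 * (1 / (q : ℝ)) ≤ 2 * ((r : ℝ) / q) := by
      apply mul_le_mul_of_nonneg_left _ (by norm_num)
      exact div_le_div_of_nonneg_right hr1 hqpos.le
    have h3 : 4 / (q : ℝ) = 2 * (2 * (1 / (q : ℝ))) := by ring
    rw [h3]
    apply mul_le_mul_of_nonneg_left _ (by norm_num)
    exact (h2.trans h1).trans (le_abs_self _)
  · have hx1 : 1 - (r : ℝ) / q ≤ 1 / 2 := by linarith
    have hx0 : 0 ≤ 1 - (r : ℝ) / q := by
      rw [sub_nonneg, div_le_one hqpos]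
      linarith
    have h1 := key _ hx0 hx1
    have hsin : Real.sin (Real.pi * (1 - (r : ℝ) / q)) = Real.sin (Real.pi * ((r : ℝ) / q)) := by
      rw [mul_sub, mul_one, Real.sin_pi_sub]
    rw [hsin] at h1
    have h2 : 2 * (1 / (q : ℝ)) ≤ 2 * (1 - (r : ℝ) / q) := by
      apply mul_le_mul_of_nonneg_left _ (by norm_num)
      rw [le_sub_iff_add_le, ← add_div, div_le_one hqpos]
      linarith
    have h3 : 4 / (q : ℝ) = 2 * (2 * (1 / (q : ℝ))) := by ring
    rw [h3]
    apply mul_le_mul_of_nonneg_left _ (by norm_num)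
    exact (h2.trans h1).trans (le_abs_self _)

theorem digits_identity (a : ℕ) (θ : ℝ) :
    pA ((List.range a).map (fun i => ({2 ^ i, 2 ^ (i + 1)} : Multiset ℕ))) θ
      * (2 ^ a * ‖1 - e θ‖) = ‖1 - e (2 ^ a * θ)‖ := by
  induction a with
  | zero => simp [pA]
  | succ a ih =>
    rw [List.range_succ, List.map_append, pA_append]
    have hlast : pA (List.map (fun i => ({2 ^ i, 2 ^ (i + 1)} : Multiset ℕ)) [a]) θ
        = ‖1 + e (2 ^ a * θ)‖ / 2 := by
      simp only [List.map_cons, List.map_nil]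
      rw [pA_cons, pA_nil, mul_one]
      unfold avgE
      have hsum : (Multiset.map (fun d : ℕ => e ((d : ℝ) * θ))
          ({2 ^ a, 2 ^ (a + 1)} : Multiset ℕ)).sum
          = e (2 ^ a * θ) * (1 + e (2 ^ a * θ)) := by
        have : e (2 ^ (a + 1) * θ) = e (2 ^ a * θ) * e (2 ^ a * θ) := by
          rw [← e_add]
          congr 1
          ring
        simp only [Multiset.insert_eq_cons, Multiset.map_cons, Multiset.map_singleton,
          Multiset.sum_cons, Multiset.sum_singleton]
        push_cast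
        rw [this]
        ring
      have hcard : (Multiset.card ({2 ^ a, 2 ^ (a + 1)} : Multiset ℕ) : ℂ) = 2 := by
        simp
      rw [hsum, hcard, norm_div, norm_mul, norm_e, one_mul]
      simp
    rw [hlast]
    have hsq : 1 - e (2 ^ (a + 1) * θ) = (1 - e (2 ^ a * θ)) * (1 + e (2 ^ a * θ)) := by
      have : e (2 ^ (a + 1) * θ) = e (2 ^ a * θ) * e (2 ^ a * θ) := by
        rw [← e_add]
        congr 1
        ring
      rw [this]
      ring
    rw [hsq, norm_mul, ← ih]
    ring

/-- F1. Small moduli: powers of two. -/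
theorem digits (a q h : ℕ) (hq : 2 ≤ q) (hh : h.Coprime q) :
    pA ((List.range a).map (fun i => ({2 ^ i, 2 ^ (i + 1)} : Multiset ℕ))) ((h : ℝ) / q)
      ≤ q / 2 ^ (a + 1) := by
  have hqpos : (0 : ℝ) < q := by exact_mod_cast (by omega : 0 < q)
  have h1 := digits_identity a ((h : ℝ) / q)
  have h2 := four_div_le_norm q h hq hh
  have h3 : ‖1 - e (2 ^ a * ((h : ℝ) / q))‖ ≤ 2 := by
    calc ‖1 - e (2 ^ a * ((h : ℝ) / q))‖ ≤ ‖(1 : ℂ)‖ + ‖e (2 ^ a * ((h : ℝ) / q))‖ :=
          norm_sub_le _ _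
      _ = 2 := by rw [norm_one, norm_e]; norm_num
  set X := pA ((List.range a).map (fun i => ({2 ^ i, 2 ^ (i + 1)} : Multiset ℕ)))
    ((h : ℝ) / q) with hX
  have hX0 : 0 ≤ X := pA_nonneg _ _
  have h4 : X * (2 ^ a * (4 / (q : ℝ))) ≤ 2 := by
    calc X * (2 ^ a * (4 / (q : ℝ))) ≤ X * (2 ^ a * ‖1 - e ((h : ℝ) / q)‖) := by
          apply mul_le_mul_of_nonneg_left _ hX0
          exact mul_le_mul_of_nonneg_left h2 (by positivity)
      _ = _ := h1
      _ ≤ 2 := h3
  have h5 : (0 : ℝ) < 2 ^ a * (4 / (q : ℝ)) := by positivity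
  have h6 : X ≤ 2 / (2 ^ a * (4 / (q : ℝ))) := by
    rw [le_div_iff₀ h5]
    exact h4
  refine h6.trans (le_of_eq ?_)
  rw [pow_succ]
  field_simp
  norm_num

end Vale.Agent.P012
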