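import Vale.Agent.Lib.P012.Defs
import Vale.Agent.Lib.P012.Basic
import Vale.Agent.Lib.P012.W6

/-! G1: assembly of good numbers from the reservoir, the scales and the Fourier extraction. -/

namespace Vale.Agent.P012

open Finset
open scoped Nat

theorem pA_append_le_left (L₁ L₂ : List (Multiset ℕ)) (θ : ℝ) : pA (L₁ ++ L₂) θ ≤ pA L₁ θ := by
  rw [pA_append]
  exact mul_le_of_le_one_right (pA_nonneg _ _) (pA_le_one _ _)

theorem pA_append_le_right (L₁ L₂ : List (Multiset ℕ)) (θ : ℝ) : pA (L₁ ++ L₂) θ ≤ pA L₂ θ := by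
  rw [pA_append]
  exact mul_le_of_le_one_left (pA_nonneg _ _) (pA_le_one _ _)

/-- the base family: digits -/
theorem base_family (k : ℕ) (hk : 1 ≤ k) (E : ℕ) (hE : E ≤ 50000 * k) :
    ∃ (L : List (Multiset ℕ)), L ≠ [] ∧ Fam L (2 ^ (200000 * k)) ∧ L.length = 200000 * k ∧
      ∀ q : ℕ, 2 ≤ q → q ≤ 2 ^ E → ∀ h : ℕ, h.Coprime q →
        pA L ((h : ℝ) / q) ≤ 1 / (q : ℝ) ^ 3 := by
  refine ⟨(List.range (200000 * k)).map (fun i => ({2 ^ i, 2 ^ (i + 1)} : Multiset ℕ)),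
    ?_, ?_, by simp, ?_⟩
  · intro h
    have := congrArg List.length h
    simp at this
    omega
  · intro T hT
    obtain ⟨i, hi, rfl⟩ := List.mem_map.mp hT
    rw [List.mem_range] at hi
    refine ⟨by simp, ?_⟩
    intro d hd
    simp only [Multiset.insert_eq_cons, Multiset.mem_cons, Multiset.mem_singleton] at hd
    rcases hd with rfl | rfl
    · exact Nat.pow_dvd_pow 2 (by omega)
    · exact Nat.pow_dvd_pow 2 (by omega)
  · intro q hq hqE h hcop
    refine (digits (200000 * k) q h hq hcop).trans ?_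
    have hq0 : (0 : ℝ) < q := by exact_mod_cast (by omega : 0 < q)
    rw [div_le_div_iff₀ (by positivity) (by positivity)]
    have h1 : q ^ 4 ≤ 2 ^ (200000 * k + 1) := by
      calc q ^ 4 ≤ (2 ^ E) ^ 4 := Nat.pow_le_pow_left hqE 4
        _ = 2 ^ (E * 4) := by rw [← pow_mul]
        _ ≤ 2 ^ (200000 * k + 1) := Nat.pow_le_pow_right (by norm_num) (by omega)
    have h2 : (q : ℝ) ^ 4 ≤ 2 ^ (200000 * k + 1) := by exact_mod_cast h1
    calc (q : ℝ) * (q : ℝ) ^ 3 = (q : ℝ) ^ 4 := by ring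
      _ ≤ 2 ^ (200000 * k + 1) := h2
      _ = 1 * 2 ^ (200000 * k + 1) := by ring

/-- the recursion over the scales -/
theorem scales (k C₁ : ℕ) (hk : 1 ≤ k) (cls : ℕ → Bool) (PR : Bool → ℕ)
    (hscale : ∀ σ : Bool, ∀ E : ℕ, 50000 * k ≤ E → E ≤ 2 ^ k →
      ∃ (L : List (Multiset ℕ)) (H : ℕ), 0 < H ∧ H ≤ 2 ^ (C₁ * E) ∧
      (∀ ℓ : ℕ, ℓ.Prime → ℓ ∣ H → ℓ ^ k ≤ 2 ^ (C₁ * 2 ^ k)) ∧
      Fam L (H * PR σ) ∧ (L.length : ℝ) ≤ C₁ * (1 + E * k / 2 ^ k) ∧
      ∀ q : ℕ, 2 ^ (E - E / 200) ≤ q → q ≤ 2 ^ E →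
      ∀ m : ℕ, m ∣ q → q ≤ m ^ 2 → (∀ ℓ : ℕ, ℓ.Prime → cls ℓ = σ → ¬ ℓ ∣ m) →
      ∀ h : ℕ, h.Coprime q → pA L ((h : ℝ) / q) ≤ 1 / (q : ℝ) ^ 3) :
    ∀ E : ℕ, E ≤ 2 ^ k → ∃ (L : List (Multiset ℕ)) (H : ℕ), L ≠ [] ∧ 0 < H ∧
      H ≤ 2 ^ (200000 * k + 800 * C₁ * E) ∧
      (∀ ℓ : ℕ, ℓ.Prime → ℓ ∣ H → ℓ ^ k ≤ 2 ^ ((C₁ + 1) * 2 ^ k)) ∧
      Fam L (H * (PR false * PR true)) ∧
      (L.length : ℝ) ≤ 200000 * k + 800 * C₁ * Real.log E + 800 * C₁ * (E * k / 2 ^ k) ∧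
      ∀ q : ℕ, 2 ≤ q → q ≤ 2 ^ E → ∀ h : ℕ, h.Coprime q →
        pA L ((h : ℝ) / q) ≤ 1 / (q : ℝ) ^ 3 := by
  intro E
  induction E using Nat.strong_induction_on with
  | _ E ih =>
    intro hE2
    by_cases hEk : E < 50000 * k
    · -- base case
      obtain ⟨L, hL0, hLF, hLlen, hLq⟩ := base_family k hk E hEk.le
      refine ⟨L, 2 ^ (200000 * k), hL0, by positivity,
        Nat.pow_le_pow_right (by norm_num) (Nat.le_add_right _ _), ?_,
        Fam_mono hLF (Dvd.intro _ rfl), ?_, hLq⟩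
      · intro l hl hl2
        have h2 : l = 2 := (Nat.prime_dvd_prime_iff_eq hl Nat.prime_two).mp
          (hl.dvd_of_dvd_pow hl2)
        subst h2
        apply Nat.pow_le_pow_right (by norm_num)
        have h3 : k < 2 ^ k := Nat.lt_two_pow_self
        nlinarith
      · rw [hLlen]
        push_cast
        have h1 : 0 ≤ Real.log (E : ℝ) := Real.log_natCast_nonneg E
        have h2 : (0 : ℝ) ≤ 800 * C₁ * (E * k / 2 ^ k) := by positivity
        have h3 : (0 : ℝ) ≤ 800 * C₁ * Real.log E := by positivity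
        linarith
    · -- inductive step
      have hEk' : 50000 * k ≤ E := by omega
      obtain ⟨E', hE'⟩ : ∃ E', E' = E - E / 200 := ⟨_, rfl⟩
      have hE'E : E' < E := by omega
      have hfl : E ≤ 400 * (E / 200) := by omega
      have hEE : E' + E / 200 = E := by omega
      obtain ⟨L₀, H₀, hL₀, hH₀, hH₀le, hH₀l, hF₀, hlen₀, hq₀⟩ := ih E' hE'E (by omega)
      obtain ⟨Lf, Hf, hHf, hHfle, hHfl, hFf, hlenf, hqf⟩ := hscale false E hEk' hE2
      obtain ⟨Lt, Ht, hHt, hHtle, hHtl, hFt, hlent, hqt⟩ := hscale true E hEk' hE2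
      rw [← hE'] at hqf hqt
      refine ⟨L₀ ++ (Lf ++ Lt), H₀ * (Hf * Ht), ?_, by positivity, ?_, ?_, ?_, ?_, ?_⟩
      · simp [hL₀]
      · calc H₀ * (Hf * Ht) ≤ 2 ^ (200000 * k + 800 * C₁ * E') * (2 ^ (C₁ * E) * 2 ^ (C₁ * E)) :=
              Nat.mul_le_mul hH₀le (Nat.mul_le_mul hHfle hHtle)
          _ = 2 ^ (200000 * k + 800 * C₁ * E' + (C₁ * E + C₁ * E)) := by
              rw [pow_add, pow_add]
              ring
          _ ≤ 2 ^ (200000 * k + 800 * C₁ * E) := by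
              apply Nat.pow_le_pow_right (by norm_num)
              have h1 : C₁ * E ≤ C₁ * (400 * (E / 200)) := Nat.mul_le_mul_left _ hfl
              have h2 : 800 * C₁ * E = 800 * C₁ * E' + 800 * C₁ * (E / 200) := by
                rw [← mul_add, hEE]
              have h3 : 800 * C₁ * (E / 200) = C₁ * (400 * (E / 200)) + C₁ * (400 * (E / 200)) := by
                ring
              omega
      · intro l hl hld
        have hmono : 2 ^ (C₁ * 2 ^ k) ≤ 2 ^ ((C₁ + 1) * 2 ^ k) :=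
          Nat.pow_le_pow_right (by norm_num) (Nat.mul_le_mul_right _ (by omega))
        rcases (Nat.Prime.dvd_mul hl).mp hld with h | h
        · exact hH₀l l hl h
        rcases (Nat.Prime.dvd_mul hl).mp h with h | h
        · exact (hHfl l hl h).trans hmono
        · exact (hHtl l hl h).trans hmono
      · apply Fam_append
        · apply Fam_mono hF₀
          exact Dvd.intro (Hf * Ht) (by ring)
        · apply Fam_append
          · apply Fam_mono hFf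
            exact Dvd.intro (H₀ * Ht * PR true) (by ring)
          · apply Fam_mono hFt
            exact Dvd.intro (H₀ * Hf * PR false) (by ring)
      · rw [List.length_append, List.length_append]
        push_cast
        have hEpos : (0 : ℝ) < E := by exact_mod_cast (by omega : 0 < E)
        have hE'pos : (0 : ℝ) < E' := by exact_mod_cast (by omega : 0 < E')
        have hflR : (E : ℝ) ≤ 400 * ((E : ℝ) - E') := by
          have h1 : ((E / 200 : ℕ) : ℝ) = (E : ℝ) - E' := by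
            rw [eq_sub_iff_add_eq]
            exact_mod_cast (by omega : E / 200 + E' = E)
          rw [← h1]
          exact_mod_cast hfl
        have hlog : Real.log E' ≤ Real.log E - 1 / 400 := by
          have h1 : Real.log ((E' : ℝ) / E) ≤ (E' : ℝ) / E - 1 :=
            Real.log_le_sub_one_of_pos (by positivity)
          rw [Real.log_div hE'pos.ne' hEpos.ne'] at h1
          have h2 : (E' : ℝ) / E - 1 ≤ -(1 / 400) := by
            rw [div_sub_one hEpos.ne', div_le_iff₀ hEpos]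
            linarith
          linarith
        have hC : (0 : ℝ) ≤ C₁ := Nat.cast_nonneg _
        have hlog' : 800 * (C₁ : ℝ) * Real.log E' ≤ 800 * C₁ * Real.log E - 2 * C₁ := by
          have := mul_le_mul_of_nonneg_left hlog (by positivity : (0 : ℝ) ≤ 800 * C₁)
          linarith
        have hlin : 800 * (C₁ : ℝ) * (E' * k / 2 ^ k) + 2 * (C₁ * (E * k / 2 ^ k))
            ≤ 800 * C₁ * (E * k / 2 ^ k) := by
          have h1 : (0 : ℝ) ≤ C₁ * (k / 2 ^ k) := by positivity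
          have h2 : 800 * (E' : ℝ) + 2 * E ≤ 800 * E := by linarith
          have h3 := mul_le_mul_of_nonneg_left h2 h1
          have e1 : 800 * (C₁ : ℝ) * (E' * k / 2 ^ k) + 2 * (C₁ * (E * k / 2 ^ k))
            = C₁ * (k / 2 ^ k) * (800 * (E' : ℝ) + 2 * E) := by ring
          have e2 : 800 * (C₁ : ℝ) * (E * k / 2 ^ k) = C₁ * (k / 2 ^ k) * (800 * E) := by ring
          rw [e1, e2]
          exact h3
        linarith
      · intro q hq2 hqE h hcop
        rcases le_total q (2 ^ E') with hle | hge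
        · exact (pA_append_le_left _ _ _).trans (hq₀ q hq2 hle h hcop)
        · obtain ⟨m, σ, hm1, hm2, hm3⟩ := type_split cls q (by omega)
          cases σ with
          | false =>
            exact (pA_append_le_right _ _ _).trans
              ((pA_append_le_left _ _ _).trans (hqf q hge hqE m hm1 hm2 hm3 h hcop))
          | true =>
            exact (pA_append_le_right _ _ _).trans
              ((pA_append_le_right _ _ _).trans (hqt q hge hqE m hm1 hm2 hm3 h hcop))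

/-- G1. Good numbers exist (with the main inputs as hypotheses). -/
theorem exists_good_of
    (hres : ∃ k₀ : ℕ, ∀ k ≥ k₀, ∀ P : Finset ℕ,
      (∀ p ∈ P, p.Prime ∧ p < 2 ^ (400 * k)) → 2 ^ (399 * k) ≤ P.card →
      ∃ (r : ℕ) (p : Fin r → ℕ), (∀ i, p i ∈ P) ∧ r * k ≤ 1000000 * 2 ^ k ∧
        ∀ g : ℕ, 2 ^ (1200 * k) ≤ g → g ≤ 2 ^ (2 ^ k) → (∀ ℓ ∈ P, ℓ.Coprime g) →
          kap p g ≤ 2 * (2 : ℝ) ^ (-(8 * 2 ^ k / k : ℝ)) + (g : ℝ) ^ (-(1 / 4) : ℝ))
    (hscale : ∃ k₀ C₁ : ℕ, ∀ k ≥ k₀, ∀ (cls : ℕ → Bool) (σ : Bool),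
      (∀ v ≥ k, 2 ^ v ≤ 8 * v * ((range (2 ^ v)).filter (fun p => p.Prime ∧ cls p = σ)).card) →
      ∀ (r : ℕ) (p : Fin r → ℕ),
      (∀ g : ℕ, 2 ^ (1200 * k) ≤ g → g ≤ 2 ^ (2 ^ k) →
        (∀ ℓ : ℕ, ℓ.Prime → ℓ < 2 ^ (400 * k) → cls ℓ = σ → ℓ.Coprime g) →
          kap p g ≤ 2 * (2 : ℝ) ^ (-(8 * 2 ^ k / k : ℝ)) + (g : ℝ) ^ (-(1 / 4) : ℝ)) →
      ∀ E : ℕ, 50000 * k ≤ E → E ≤ 2 ^ k →
      ∃ (L : List (Multiset ℕ)) (H : ℕ), 0 < H ∧ H ≤ 2 ^ (C₁ * E) ∧
        (∀ ℓ : ℕ, ℓ.Prime → ℓ ∣ H → ℓ ^ k ≤ 2 ^ (C₁ * 2 ^ k)) ∧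
        Fam L (H * ∏ i, p i) ∧ (L.length : ℝ) ≤ C₁ * (1 + E * k / 2 ^ k) ∧
        ∀ q : ℕ, 2 ^ (E - E / 200) ≤ q → q ≤ 2 ^ E →
        ∀ m : ℕ, m ∣ q → q ≤ m ^ 2 → (∀ ℓ : ℕ, ℓ.Prime → cls ℓ = σ → ¬ ℓ ∣ m) →
        ∀ h : ℕ, h.Coprime q → pA L ((h : ℝ) / q) ≤ 1 / (q : ℝ) ^ 3)
    (hcov : ∀ (L : List (Multiset ℕ)) (G Q : ℕ), L ≠ [] → Fam L G →
      (∀ q : ℕ, 2 ≤ q → q ≤ Q → ∀ h : ℕ, h.Coprime q → pA L ((h : ℝ) / q) ≤ 1 / (q : ℝ) ^ 3) →
      Good G Q L.length) :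
    ∃ C₀ k₀ : ℕ, ∀ k ≥ k₀, ∃ G : ℕ, 0 < G ∧ G ≤ 2 ^ (C₀ * 2 ^ k) ∧
    (∀ ℓ : ℕ, ℓ.Prime → ℓ ∣ G → ℓ ^ k ≤ 2 ^ (C₀ * 2 ^ k)) ∧ Good G (2 ^ (2 ^ k)) (C₀ * k) := by
  obtain ⟨kr, hres⟩ := hres
  obtain ⟨ks, C₁, hscale⟩ := hscale
  obtain ⟨cls, v₀, hcls⟩ := classes
  refine ⟨801000000 + 1600 * C₁, kr + ks + v₀ + 20, ?_⟩
  intro k hk
  have hk1 : 1 ≤ k := by omega
  have h2k : k < 2 ^ k := Nat.lt_two_pow_self
  -- elementary growth facts
  have hgrow : ∀ n : ℕ, 16 ≤ n → 3200 * n ≤ 2 ^ n := by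
    intro n hn
    induction n, hn using Nat.le_induction with
    | base => norm_num
    | succ n hn ih =>
      rw [pow_succ]
      omega
  have hsq : ∀ n : ℕ, 4 ≤ n → n * n ≤ 2 ^ n := by
    intro n hn
    induction n, hn using Nat.le_induction with
    | base => norm_num
    | succ n hn ih =>
      rw [pow_succ]
      nlinarith
  have hk3200 := hgrow k (by omega)
  have hksq := hsq k (by omega)
  -- reservoirs
  have hres' : ∀ σ : Bool, ∃ (r : ℕ) (p : Fin r → ℕ),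
      (∀ i, (p i).Prime ∧ p i < 2 ^ (400 * k)) ∧ r * k ≤ 1000000 * 2 ^ k ∧
      ∀ g : ℕ, 2 ^ (1200 * k) ≤ g → g ≤ 2 ^ (2 ^ k) →
        (∀ ℓ : ℕ, ℓ.Prime → ℓ < 2 ^ (400 * k) → cls ℓ = σ → ℓ.Coprime g) →
          kap p g ≤ 2 * (2 : ℝ) ^ (-(8 * 2 ^ k / k : ℝ)) + (g : ℝ) ^ (-(1 / 4) : ℝ) := by
    intro σ
    have hcard := hcls (400 * k) (by omega) σ
    set P := (range (2 ^ (400 * k))).filter (fun p => p.Prime ∧ cls p = σ) with hP
    have hPcard : 2 ^ (399 * k) ≤ P.card := by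
      have h1 : 2 ^ (400 * k) = 2 ^ k * 2 ^ (399 * k) := by
        rw [← pow_add]
        congr 1
        omega
      rw [h1] at hcard
      have h2 : 3200 * k * 2 ^ (399 * k) ≤ 2 ^ k * 2 ^ (399 * k) :=
        Nat.mul_le_mul_right _ hk3200
      have h3 : 8 * (400 * k) * P.card = 3200 * k * P.card := by ring
      rw [h3] at hcard
      have h4 : 3200 * k * 2 ^ (399 * k) ≤ 3200 * k * P.card := h2.trans hcard
      exact Nat.le_of_mul_le_mul_left h4 (by omega)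
    obtain ⟨r, p, hp1, hp2, hp3⟩ := hres k (by omega) P
      (by
        intro p hp
        rw [hP, mem_filter, mem_range] at hp
        exact ⟨hp.2.1, hp.1⟩) hPcard
    refine ⟨r, p, ?_, hp2, ?_⟩
    · intro i
      have := hp1 i
      rw [hP, mem_filter, mem_range] at this
      exact ⟨this.2.1, this.1⟩
    · intro g hg1 hg2 hg3
      apply hp3 g hg1 hg2
      intro l hl
      rw [hP, mem_filter, mem_range] at hl
      exact hg3 l hl.2.1 hl.1 hl.2.2
  choose r p hpP hpr hpk using hres'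
  obtain ⟨L, H, hL0, hH0, hHle, hHl, hF, hlen, hq⟩ := scales k C₁ hk1 cls
    (fun σ => ∏ i, p σ i)
    (fun σ E hE1 hE2 => hscale k (by omega) cls σ (fun v hv => hcls v (by omega) σ)
      (r σ) (p σ) (hpk σ) E hE1 hE2) (2 ^ k) le_rfl
  have hprod : ∀ σ, 0 < ∏ i, p σ i ∧ ∏ i, p σ i ≤ 2 ^ (400000000 * 2 ^ k) := by
    intro σ
    refine ⟨Finset.prod_pos (fun i _ => (hpP σ i).1.pos), ?_⟩
    calc ∏ i, p σ i ≤ ∏ _i : Fin (r σ), 2 ^ (400 * k) :=
          Finset.prod_le_prod' (fun i _ => (hpP σ i).2.le)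
      _ = 2 ^ (400 * k * r σ) := by
          rw [Finset.prod_const, Finset.card_univ, Fintype.card_fin, ← pow_mul]
      _ ≤ 2 ^ (400000000 * 2 ^ k) := by
          apply Nat.pow_le_pow_right (by norm_num)
          have := hpr σ
          nlinarith
  refine ⟨H * ((∏ i, p false i) * ∏ i, p true i), ?_, ?_, ?_, ?_⟩
  · exact Nat.mul_pos hH0 (Nat.mul_pos (hprod false).1 (hprod true).1)
  · calc H * ((∏ i, p false i) * ∏ i, p true i)
        ≤ 2 ^ (200000 * k + 800 * C₁ * 2 ^ k) *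
          (2 ^ (400000000 * 2 ^ k) * 2 ^ (400000000 * 2 ^ k)) :=
          Nat.mul_le_mul hHle (Nat.mul_le_mul (hprod false).2 (hprod true).2)
      _ = 2 ^ (200000 * k + 800 * C₁ * 2 ^ k + (400000000 * 2 ^ k + 400000000 * 2 ^ k)) := by
          rw [pow_add _ (200000 * k + 800 * C₁ * 2 ^ k), pow_add _ (400000000 * 2 ^ k)]
      _ ≤ 2 ^ ((801000000 + 1600 * C₁) * 2 ^ k) := by
          apply Nat.pow_le_pow_right (by norm_num)
          have h1 : 200000 * k ≤ 200000 * 2 ^ k := Nat.mul_le_mul_left _ h2k.le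
          have h2 : (801000000 + 1600 * C₁) * 2 ^ k
            = 801000000 * 2 ^ k + 2 * (800 * C₁ * 2 ^ k) := by ring
          omega
  · intro l hl hld
    have hbase : ∀ σ, l ∣ ∏ i, p σ i → l ^ k ≤ 2 ^ ((801000000 + 1600 * C₁) * 2 ^ k) := by
      intro σ hd
      obtain ⟨i, -, hi⟩ := (Prime.dvd_finsetProd_iff hl.prime _).mp hd
      have hli : l = p σ i := (Nat.prime_dvd_prime_iff_eq hl (hpP σ i).1).mp hi
      calc l ^ k ≤ (2 ^ (400 * k)) ^ k := Nat.pow_le_pow_left (by rw [hli]; exact (hpP σ i).2.le) k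
        _ = 2 ^ (400 * k * k) := by rw [← pow_mul]
        _ ≤ 2 ^ ((801000000 + 1600 * C₁) * 2 ^ k) := by
          apply Nat.pow_le_pow_right (by norm_num)
          calc 400 * k * k = 400 * (k * k) := by ring
            _ ≤ 400 * 2 ^ k := Nat.mul_le_mul_left _ hksq
            _ ≤ (801000000 + 1600 * C₁) * 2 ^ k := Nat.mul_le_mul_right _ (by omega)
    rcases (Nat.Prime.dvd_mul hl).mp hld with h | h
    · refine (hHl l hl h).trans ?_
      exact Nat.pow_le_pow_right (by norm_num) (Nat.mul_le_mul_right _ (by omega))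
    rcases (Nat.Prime.dvd_mul hl).mp h with h | h
    · exact hbase false h
    · exact hbase true h
  · have hgood := hcov L (H * ((∏ i, p false i) * ∏ i, p true i)) (2 ^ (2 ^ k)) hL0 hF hq
    have hlenk : L.length ≤ (801000000 + 1600 * C₁) * k := by
      have h1 : (L.length : ℝ) ≤ ((801000000 + 1600 * C₁) * k : ℕ) := by
        refine hlen.trans ?_
        push_cast
        have hlog : Real.log ((2 : ℝ) ^ k) ≤ k := by
          rw [Real.log_pow]
          have := Real.log_two_lt_d9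
          nlinarith [(Nat.cast_nonneg k : (0 : ℝ) ≤ k)]
        have h3 : (2 : ℝ) ^ k * k / 2 ^ k = k := by
          field_simp
        rw [h3]
        have h4 : 800 * (C₁ : ℝ) * Real.log ((2 : ℝ) ^ k) ≤ 800 * C₁ * k :=
          mul_le_mul_of_nonneg_left hlog (by positivity)
        have h5 : (0 : ℝ) ≤ k := Nat.cast_nonneg k
        nlinarith
      exact_mod_cast h1
    intro q hq1 hq2
    obtain ⟨D, hD1, hD2, hD3, hD4⟩ := hgood q hq1 hq2
    exact ⟨D, hD1, hD2.trans hlenk, hD3, hD4⟩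

end Vale.Agent.P012
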