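import Mathlib

/-!
# P012: auxiliary definitions for the proof of `N(b) ≪ log log b`
(none of these is used in the final statement)
-/

namespace Vale.Agent.P012

open Finset

/-- `e x = exp (2π i x)`. -/
noncomputable def e (x : ℝ) : ℂ := Complex.exp (2 * Real.pi * Complex.I * (x : ℂ))

/-- average of `e (d θ)` over the members `d` of the multiset `T`. -/
noncomputable def avgE (T : Multiset ℕ) (θ : ℝ) : ℂ :=
  (T.map (fun d : ℕ => e ((d : ℝ) * θ))).sum / (Multiset.card T : ℂ)

/-- product of the absolute values of these averages over a list of multisets. -/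
noncomputable def pA (L : List (Multiset ℕ)) (θ : ℝ) : ℝ :=
  (L.map (fun T => ‖avgE T θ‖)).prod

/-- every member of the list is a nonempty multiset of divisors of `G`. -/
def Fam (L : List (Multiset ℕ)) (G : ℕ) : Prop := ∀ T ∈ L, T ≠ 0 ∧ ∀ d ∈ T, d ∣ G

/-- `Good G Q K`: for every `1 ≤ q ≤ Q` there are between `1` and `K` divisors of `G`
(repetition allowed) whose sum is divisible by `q`. -/
def Good (G Q K : ℕ) : Prop :=
  ∀ q : ℕ, 1 ≤ q → q ≤ Q →
    ∃ D : Multiset ℕ, D ≠ 0 ∧ Multiset.card D ≤ K ∧ (∀ d ∈ D, d ∣ G) ∧ q ∣ D.sum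

section
variable {ι : Type*} [Fintype ι] [DecidableEq ι]

/-- the `2 ^ |ι|` subset products of the tuple `p`, all multiplied by `c`. -/
def subProds (p : ι → ℕ) (c : ℕ) : Multiset ℕ :=
  (Finset.univ : Finset (Finset ι)).val.map (fun S => c * ∏ i ∈ S, p i)

/-- average of `e (x θ)` over the subset products `x` of `p`. -/
noncomputable def fS (p : ι → ℕ) (θ : ℝ) : ℂ :=
  (∑ S : Finset ι, e (((∏ i ∈ S, p i : ℕ) : ℝ) * θ)) / 2 ^ Fintype.card ι

/-- difference of two subset products. -/
def dif (p : ι → ℕ) (A : Finset ι × Finset ι) : ℤ :=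
  ((∏ i ∈ A.1, p i : ℕ) : ℤ) - ((∏ i ∈ A.2, p i : ℕ) : ℤ)

/-- collision probability mod `g` of two random subset products of `p`. -/
noncomputable def kap (p : ι → ℕ) (g : ℕ) : ℝ :=
  ((Finset.univ.filter (fun A : Finset ι × Finset ι => (g : ℤ) ∣ dif p A)).card : ℝ)
    / 4 ^ Fintype.card ι

/-- probability that the difference of two random subset products of `p` has a gcd with `m`
which is at least `m / D`. -/
noncomputable def kapStar (p : ι → ℕ) (D m : ℕ) : ℝ :=
  ((Finset.univ.filter (fun A : Finset ι × Finset ι => m ≤ D * Int.gcd (dif p A) m)).card : ℝ)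
    / 4 ^ Fintype.card ι

end

end Vale.Agent.P012
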