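import Vale.Agent.Lib.P012.Defs

/-! H1: (Takenouchi) repetitions can be removed. -/

namespace Vale.Agent.P012

open Finset

/-- multisets of positive integers of given cardinality and reciprocal sum form a finite set. -/
theorem finite_recip (k : ℕ) : ∀ x : ℚ,
    {D : Multiset ℕ | Multiset.card D = k ∧ (∀ n ∈ D, 0 < n) ∧
      (D.map (fun n : ℕ => (1 : ℚ) / n)).sum = x}.Finite := by
  induction k with
  | zero =>
    intro x
    apply Set.Finite.subset (Set.finite_singleton (0 : Multiset ℕ))
    rintro D ⟨h1, -, -⟩
    simpa using Multiset.card_eq_zero.mp h1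
  | succ k ih =>
    intro x
    by_cases hx : 0 < x
    · obtain ⟨N, hN⟩ := exists_nat_ge (((k + 1 : ℕ) : ℚ) / x)
      have hfin : (⋃ n ∈ Set.Iic N, (Multiset.cons n) ''
          {D : Multiset ℕ | Multiset.card D = k ∧ (∀ n ∈ D, 0 < n) ∧
            (D.map (fun n : ℕ => (1 : ℚ) / n)).sum = x - 1 / (n : ℚ)}).Finite := by
        apply Set.Finite.biUnion (Set.finite_Iic N)
        intro n _
        exact (ih _).image _
      apply hfin.subset
      rintro D ⟨h1, h2, h3⟩
      have hex : ∃ n ∈ D, n ≤ N := by
        by_contra hcon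
        push Not at hcon
        have hD0 : D ≠ 0 := by
          intro h
          rw [h] at h1
          simp at h1
        have hlt : (D.map (fun n : ℕ => (1 : ℚ) / n)).sum
            < (D.map (fun _ : ℕ => x / ((k + 1 : ℕ) : ℚ))).sum := by
          apply Multiset.sum_lt_sum_of_nonempty hD0
          intro n hn
          have hnN : (N : ℚ) < (n : ℚ) := by exact_mod_cast hcon n hn
          have hlt2 : ((k + 1 : ℕ) : ℚ) / x < n := lt_of_le_of_lt hN hnN
          have hn0 : (0 : ℚ) < n := by exact_mod_cast h2 n hn
          rw [div_lt_iff₀ hx] at hlt2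
          rw [div_lt_div_iff₀ hn0 (by positivity)]
          linarith [mul_comm (n : ℚ) x]
        rw [h3] at hlt
        rw [Multiset.map_const', Multiset.sum_replicate, h1, nsmul_eq_mul] at hlt
        have : ((k + 1 : ℕ) : ℚ) * (x / ((k + 1 : ℕ) : ℚ)) = x := by
          field_simp
        rw [this] at hlt
        exact lt_irrefl _ hlt
      obtain ⟨n, hnD, hnN⟩ := hex
      obtain ⟨D', rfl⟩ := Multiset.exists_cons_of_mem hnD
      simp only [Set.mem_iUnion, Set.mem_image, Set.mem_ofPred_eq, Set.mem_Iic]
      refine ⟨n, hnN, D', ⟨?_, ?_, ?_⟩, rfl⟩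
      · simpa using h1
      · intro m hm
        exact h2 m (Multiset.mem_cons_of_mem hm)
      · rw [Multiset.map_cons, Multiset.sum_cons] at h3
        linarith
    · apply Set.Finite.subset Set.finite_empty
      rintro D ⟨h1, h2, h3⟩
      exfalso
      have hD0 : D ≠ 0 := by
        intro h
        rw [h] at h1
        simp at h1
      have hlt : (D.map (fun _ : ℕ => (0 : ℚ))).sum
            < (D.map (fun n : ℕ => (1 : ℚ) / n)).sum := by
        apply Multiset.sum_lt_sum_of_nonempty hD0
        intro n hn
        have hn0 : (0 : ℚ) < n := by exact_mod_cast h2 n hn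
        positivity
      rw [h3] at hlt
      simp at hlt
      exact hx hlt

/-- H1. (Takenouchi) repetitions can be removed. -/
theorem distinct_of_multiset (x : ℚ) (hx1 : x < 1) (D : Multiset ℕ) (hD : ∀ n ∈ D, 0 < n)
    (hs : (D.map (fun n : ℕ => (1 : ℚ) / n)).sum = x) :
    ∃ s : Finset ℕ, (∀ n ∈ s, 2 ≤ n) ∧ ∑ n ∈ s, (1 : ℚ) / n = x ∧ s.card ≤ Multiset.card D := by
  classical
  -- minimal cardinality
  have hex : ∃ k : ℕ, ∃ D' : Multiset ℕ, Multiset.card D' = k ∧ (∀ n ∈ D', 0 < n) ∧
      (D'.map (fun n : ℕ => (1 : ℚ) / n)).sum = x := ⟨_, D, rfl, hD, hs⟩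
  set k := Nat.find hex with hk
  have hkspec := Nat.find_spec hex
  have hkle : k ≤ Multiset.card D := Nat.find_min' hex ⟨D, rfl, hD, hs⟩
  have hkmin : ∀ D' : Multiset ℕ, (∀ n ∈ D', 0 < n) →
      (D'.map (fun n : ℕ => (1 : ℚ) / n)).sum = x → k ≤ Multiset.card D' := by
    intro D' h1 h2
    exact Nat.find_min' hex ⟨D', rfl, h1, h2⟩
  -- maximal product among them
  obtain ⟨D₁, ⟨hc1, hp1, hs1⟩, hmax⟩ := Set.exists_max_image _ (fun D : Multiset ℕ => D.prod)
    (finite_recip k x) hkspec
  have hnodup : D₁.Nodup := by
    rw [Multiset.nodup_iff_le]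
    intro n hle
    have hn0 : 0 < n := hp1 n (Multiset.mem_of_le hle (by simp))
    obtain ⟨R, hR⟩ := Multiset.le_iff_exists_add.mp hle
    have hnQ : (n : ℚ) ≠ 0 := by
      exact_mod_cast hn0.ne'
    have hRpos : ∀ m ∈ R, 0 < m := by
      intro m hm
      apply hp1 m
      rw [hR]
      exact Multiset.mem_add.mpr (Or.inr hm)
    have hsum : 1 / (n : ℚ) + (1 / (n : ℚ) + (R.map (fun n : ℕ => (1 : ℚ) / n)).sum) = x := by
      rw [← hs1, hR]
      simp [Multiset.map_add]
    have hcard : Multiset.card R + 2 = k := by
      rw [← hc1, hR, Multiset.card_add]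
      simp [add_comm]
    rcases Nat.even_or_odd' n with ⟨m, hm | hm⟩
    · -- even case: n = 2 m
      have hm0 : 0 < m := by omega
      have hmQ : (m : ℚ) ≠ 0 := by exact_mod_cast hm0.ne'
      have h := hkmin (m ::ₘ R) ?_ ?_
      · rw [Multiset.card_cons] at h
        omega
      · intro j hj
        rcases Multiset.mem_cons.mp hj with rfl | hj
        · exact hm0
        · exact hRpos j hj
      · rw [Multiset.map_cons, Multiset.sum_cons, ← hsum, hm]
        push_cast
        field_simp
        ring
    · -- odd case: n = 2 m + 1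
      rcases Nat.eq_zero_or_pos m with hm0 | hm0
      · -- n = 1 : sum at least 1
        subst hm0
        have hn1 : n = 1 := by omega
        subst hn1
        have hRnn : 0 ≤ (R.map (fun n : ℕ => (1 : ℚ) / n)).sum := by
          apply Multiset.sum_nonneg
          intro y hy
          obtain ⟨j, -, rfl⟩ := Multiset.mem_map.mp hy
          positivity
        have h11 : (1 : ℚ) / ((1 : ℕ) : ℚ) = 1 := by norm_num
        rw [h11] at hsum
        linarith
      · have h := hmax ((m + 1) ::ₘ (n * (m + 1)) ::ₘ R) ?_
        · have hRprod : 0 < R.prod := by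
            apply Nat.pos_of_ne_zero
            intro h0
            rw [Multiset.prod_eq_zero_iff] at h0
            exact absurd (hRpos 0 h0) (lt_irrefl _)
          have e1 : D₁.prod = n * n * R.prod := by
            rw [hR, Multiset.prod_add]
            simp
          simp only [Multiset.prod_cons] at h
          rw [e1] at h
          have h2 : (m + 1) * (n * (m + 1) * R.prod) = ((m + 1) * (m + 1) * n) * R.prod := by ring
          rw [h2] at h
          have h3 := Nat.le_of_mul_le_mul_right h hRprod
          have h4 := Nat.le_of_mul_le_mul_right h3 hn0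
          nlinarith
        · refine ⟨?_, ?_, ?_⟩
          · simp only [Multiset.card_cons]
            omega
          · intro j hj
            rcases Multiset.mem_cons.mp hj with rfl | hj
            · omega
            rcases Multiset.mem_cons.mp hj with rfl | hj
            · positivity
            · exact hRpos j hj
          · rw [Multiset.map_cons, Multiset.sum_cons, Multiset.map_cons, Multiset.sum_cons,
              ← hsum, hm]
            push_cast
            have h1 : (2 * (m : ℚ) + 1) ≠ 0 := by positivity
            have h2 : ((m : ℚ) + 1) ≠ 0 := by positivity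
            field_simp
            ring
  refine ⟨⟨D₁, hnodup⟩, ?_, ?_, ?_⟩
  · intro n hn
    have hn' : n ∈ D₁ := hn
    have hn0 := hp1 n hn'
    by_contra hcon
    have hn1 : n = 1 := by omega
    subst hn1
    obtain ⟨R, hR⟩ := Multiset.exists_cons_of_mem hn'
    have hRnn : 0 ≤ (R.map (fun n : ℕ => (1 : ℚ) / n)).sum := by
      apply Multiset.sum_nonneg
      intro y hy
      obtain ⟨j, -, rfl⟩ := Multiset.mem_map.mp hy
      positivity
    rw [hR, Multiset.map_cons, Multiset.sum_cons] at hs1
    have h11 : (1 : ℚ) / ((1 : ℕ) : ℚ) = 1 := by norm_num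
    rw [h11] at hs1
    linarith
  · exact hs1
  · show Multiset.card D₁ ≤ _
    omega

end Vale.Agent.P012
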