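import Vale.Agent.Lib.P012.Defs

namespace Vale.Agent.P012

open Finset

/-- B1. Divisor bound. -/
theorem divisor_bound (n E T : ℕ) (hn : 0 < n) (hE : n < 2 ^ E) (hT : 0 < T) :
    n.divisors.card ≤ (E + 1) ^ (2 ^ T) * 2 ^ (E / T) := by
  classical
  have hn0 : n ≠ 0 := hn.ne'
  rw [Nat.card_divisors hn0, ← Finset.prod_filter_mul_prod_filter_not n.primeFactors
    (fun p => p < 2 ^ T)]
  refine Nat.mul_le_mul ?_ ?_
  · -- small primes
    have h1 : ∀ p ∈ n.primeFactors.filter (fun p => p < 2 ^ T),
        n.factorization p + 1 ≤ E + 1 := by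
      intro p hp
      have hp' := Nat.prime_of_mem_primeFactors (Finset.mem_filter.mp hp).1
      have h2 : 2 ^ n.factorization p ≤ n := by
        calc 2 ^ n.factorization p ≤ p ^ n.factorization p :=
              Nat.pow_le_pow_left hp'.two_le _
          _ ≤ n := Nat.ordProj_le p hn0
      have h3 : n.factorization p < E := (Nat.pow_lt_pow_iff_right (by norm_num)).mp
        (h2.trans_lt hE)
      omega
    have h2 : (n.primeFactors.filter (fun p => p < 2 ^ T)).card ≤ 2 ^ T := by
      calc (n.primeFactors.filter (fun p => p < 2 ^ T)).card ≤ (range (2 ^ T)).card := by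
            apply Finset.card_le_card
            intro p hp
            exact Finset.mem_range.mpr (Finset.mem_filter.mp hp).2
        _ = 2 ^ T := Finset.card_range _
    calc ∏ x ∈ n.primeFactors.filter (fun p => p < 2 ^ T), (n.factorization x + 1)
        ≤ (E + 1) ^ (n.primeFactors.filter (fun p => p < 2 ^ T)).card :=
          Finset.prod_le_pow_card _ _ _ h1
      _ ≤ (E + 1) ^ (2 ^ T) := Nat.pow_le_pow_right (by omega) h2
  · -- large primes
    set S := n.primeFactors.filter (fun p => ¬ p < 2 ^ T) with hS
    have h1 : ∏ x ∈ S, (n.factorization x + 1) ≤ ∏ x ∈ S, 2 ^ n.factorization x :=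
      Finset.prod_le_prod' fun x _ => Nat.succ_le_of_lt (Nat.lt_two_pow_self)
    refine h1.trans ?_
    rw [Finset.prod_pow_eq_pow_sum]
    refine Nat.pow_le_pow_right (by norm_num) ?_
    rw [Nat.le_div_iff_mul_le hT]
    have h2 : 2 ^ ((∑ x ∈ S, n.factorization x) * T) ≤ n := by
      calc 2 ^ ((∑ x ∈ S, n.factorization x) * T)
          = ∏ x ∈ S, (2 ^ T) ^ n.factorization x := by
            rw [Finset.prod_pow_eq_pow_sum, ← pow_mul, mul_comm]
        _ ≤ ∏ x ∈ S, x ^ n.factorization x := by
            refine Finset.prod_le_prod' fun x hx => ?_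
            have : 2 ^ T ≤ x := not_lt.mp (Finset.mem_filter.mp hx).2
            exact Nat.pow_le_pow_left this _
        _ ≤ ∏ x ∈ n.primeFactors, x ^ n.factorization x := by
            refine Finset.prod_le_prod_of_subset_of_one_le' (Finset.filter_subset _ _) ?_
            intro x hx _
            exact Nat.one_le_pow _ _ (Nat.pos_of_mem_primeFactors hx)
        _ = n := by
            exact Nat.prod_factorization_pow_eq_self hn0
    have h3 := h2.trans_lt hE
    exact ((Nat.pow_lt_pow_iff_right (by norm_num)).mp h3).le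

end Vale.Agent.P012
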