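import Vale.Agent.Lib.P012.Basic

/-! F2: Fourier extraction of a zero sum (`good_of_covers`). -/

namespace Vale.Agent.P012

open Finset

/-- all sums of one member from each multiset of the list. -/
def allSums : List (Multiset ℕ) → Multiset ℕ
  | [] => {0}
  | T :: L => T.bind (fun d => (allSums L).map (fun s => d + s))

theorem allSums_fourier (L : List (Multiset ℕ)) (θ : ℝ) :
    ((allSums L).map (fun s : ℕ => e ((s : ℝ) * θ))).sum
      = (L.map (fun T : Multiset ℕ => (T.map (fun d : ℕ => e ((d : ℝ) * θ))).sum)).prod := by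
  induction L with
  | nil => simp [allSums, e_zero]
  | cons T L ih =>
    rw [List.map_cons, List.prod_cons, ← ih, allSums, Multiset.map_bind, Multiset.sum_bind]
    simp only [Multiset.map_map, Function.comp_def]
    rw [← Multiset.sum_map_mul_right]
    congr 1
    refine Multiset.map_congr rfl fun d _ => ?_
    rw [← Multiset.sum_map_mul_left]
    congr 1
    refine Multiset.map_congr rfl fun s _ => ?_
    rw [← e_add]
    congr 1
    push_cast
    ring

theorem allSums_mem {L : List (Multiset ℕ)} {G : ℕ} (hF : Fam L G) {s : ℕ}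
    (hs : s ∈ allSums L) :
    ∃ D : Multiset ℕ, Multiset.card D = L.length ∧ (∀ d ∈ D, d ∣ G) ∧ D.sum = s := by
  induction L generalizing s with
  | nil =>
    refine ⟨0, rfl, by simp, ?_⟩
    rw [allSums, Multiset.mem_singleton] at hs
    rw [hs]; rfl
  | cons T L ih =>
    rw [allSums, Multiset.mem_bind] at hs
    obtain ⟨d, hd, hs⟩ := hs
    rw [Multiset.mem_map] at hs
    obtain ⟨s', hs', rfl⟩ := hs
    obtain ⟨D, hD1, hD2, hD3⟩ := ih (fun T' hT' => hF T' (List.mem_cons_of_mem _ hT')) hs'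
    refine ⟨d ::ₘ D, ?_, ?_, ?_⟩
    · rw [Multiset.card_cons, hD1, List.length_cons]
    · intro d' hd'
      rcases Multiset.mem_cons.1 hd' with rfl | h
      · exact (hF T List.mem_cons_self).2 _ hd
      · exact hD2 d' h
    · rw [Multiset.sum_cons, hD3]

theorem card_allSums (L : List (Multiset ℕ)) :
    Multiset.card (allSums L) = (L.map (fun T => Multiset.card T)).prod := by
  induction L with
  | nil => simp [allSums]
  | cons T L ih =>
    rw [List.map_cons, List.prod_cons, ← ih, allSums, Multiset.card_bind]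
    simp only [Function.comp_def, Multiset.card_map, Multiset.map_const', Multiset.sum_replicate,
      smul_eq_mul]

theorem card_allSums_pos {L : List (Multiset ℕ)} {G : ℕ} (hF : Fam L G) :
    0 < Multiset.card (allSums L) := by
  rw [card_allSums]
  apply List.prod_pos
  intro a ha
  rw [List.mem_map] at ha
  obtain ⟨T, hT, rfl⟩ := ha
  exact Multiset.card_pos.2 (hF T hT).1

theorem norm_fourier {L : List (Multiset ℕ)} {G : ℕ} (hF : Fam L G) (θ : ℝ) :
    ‖((allSums L).map (fun s : ℕ => e ((s : ℝ) * θ))).sum‖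
      = Multiset.card (allSums L) * pA L θ := by
  rw [allSums_fourier, card_allSums]
  induction L with
  | nil => simp [pA]
  | cons T L ih =>
    have hT := (hF T List.mem_cons_self).1
    have hcard : (Multiset.card T : ℝ) ≠ 0 := by
      exact_mod_cast (Multiset.card_pos.2 hT).ne'
    rw [List.map_cons, List.prod_cons, norm_mul,
      ih (fun T' hT' => hF T' (List.mem_cons_of_mem _ hT')), pA_cons, List.map_cons,
      List.prod_cons]
    have h1 : ‖avgE T θ‖ * Multiset.card T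
        = ‖(T.map (fun d : ℕ => e ((d : ℝ) * θ))).sum‖ := by
      unfold avgE
      rw [norm_div, Complex.norm_natCast]
      exact div_mul_cancel₀ _ hcard
    rw [← h1]
    push_cast
    ring

theorem e_mul_nat (x : ℝ) (n : ℕ) : e (x * n) = e x ^ n := by
  induction n with
  | zero => simp [e_zero]
  | succ n ih =>
    rw [pow_succ, ← ih, ← e_add]
    congr 1
    push_cast
    ring

theorem e_eq_one_iff_int {x : ℝ} : e x = 1 ↔ ∃ n : ℤ, x = n := by
  unfold e
  rw [Complex.exp_eq_one_iff]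
  have h2 : (2 * (Real.pi : ℂ) * Complex.I) ≠ 0 := by
    simp [Real.pi_ne_zero]
  constructor
  · rintro ⟨n, hn⟩
    refine ⟨n, ?_⟩
    have h3 : (2 * (Real.pi : ℂ) * Complex.I) * (x : ℂ) = (2 * (Real.pi : ℂ) * Complex.I) * n := by
      rw [hn]; ring
    have h4 := mul_left_cancel₀ h2 h3
    exact_mod_cast h4
  · rintro ⟨n, hn⟩
    refine ⟨n, ?_⟩
    rw [hn]
    push_cast
    ring

theorem sum_e_eq_zero {q s : ℕ} (hq : 0 < q) (hs : ¬ q ∣ s) :
    ∑ h ∈ range q, e ((s : ℝ) * ((h : ℝ) / q)) = 0 := by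
  have hq' : (q : ℝ) ≠ 0 := by exact_mod_cast hq.ne'
  have h1 : ∀ h ∈ range q, e ((s : ℝ) * ((h : ℝ) / q)) = e ((s : ℝ) / q) ^ h := by
    intro h _
    rw [← e_mul_nat]
    congr 1
    ring
  rw [Finset.sum_congr rfl h1]
  have hne : e ((s : ℝ) / q) ≠ 1 := by
    intro h
    obtain ⟨n, hn⟩ := e_eq_one_iff_int.1 h
    apply hs
    rw [div_eq_iff hq'] at hn
    have h3 : (s : ℤ) = n * q := by exact_mod_cast hn
    have h4 : (q : ℤ) ∣ (s : ℤ) := ⟨n, by rw [h3]; ring⟩
    exact_mod_cast h4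
  have hpow : e ((s : ℝ) / q) ^ q = 1 := by
    rw [← e_mul_nat]
    have : (s : ℝ) / q * q = ((s : ℤ) : ℝ) := by
      rw [div_mul_cancel₀ _ hq']
      norm_cast
    rw [this, e_int]
  have h5 := mul_neg_geom_sum (e ((s : ℝ) / q)) q
  rw [hpow, sub_self] at h5
  rcases mul_eq_zero.1 h5 with h6 | h6
  · exact absurd (sub_eq_zero.1 h6).symm hne
  · exact h6

theorem goc_sum_inv_sq_le (q : ℕ) (hq : 1 ≤ q) :
    ∑ j ∈ Icc 2 q, (1 : ℝ) / (j : ℝ) ^ 2 ≤ 1 - 1 / q := by
  induction q, hq using Nat.le_induction with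
  | base => simp
  | succ n hn ih =>
    rw [Finset.sum_Icc_succ_top (by omega)]
    have hn' : (0 : ℝ) < n := by exact_mod_cast hn
    have h1 : (1 : ℝ) / ((n + 1 : ℕ) : ℝ) ^ 2 ≤ 1 / n - 1 / ((n + 1 : ℕ) : ℝ) := by
      push_cast
      rw [div_sub_div _ _ hn'.ne' (by positivity), div_le_div_iff₀ (by positivity)
        (by positivity)]
      nlinarith
    linarith

/-- number of `h < q` with a given reduced denominator. -/
theorem card_fiber_le (q j : ℕ) (hq : 0 < q) :
    ((Ico 1 q).filter (fun h => q / Nat.gcd h q = j)).card ≤ j := by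
  have hsub : ((Ico 1 q).filter (fun h => q / Nat.gcd h q = j))
      ⊆ (range j).image (fun i => i * (q / j)) := by
    intro h hh
    obtain ⟨hh1, hh2⟩ := Finset.mem_filter.1 hh
    obtain ⟨h1, h2⟩ := Finset.mem_Ico.1 hh1
    have hgq : Nat.gcd h q ∣ q := Nat.gcd_dvd_right h q
    have hgh : Nat.gcd h q ∣ h := Nat.gcd_dvd_left h q
    have hgpos : 0 < Nat.gcd h q := Nat.gcd_pos_of_pos_right h hq
    have hg : q / j = Nat.gcd h q := by
      rw [← hh2]
      exact Nat.div_div_self hgq hq.ne'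
    rw [Finset.mem_image]
    refine ⟨h / Nat.gcd h q, ?_, ?_⟩
    · rw [Finset.mem_range, ← hh2]
      exact Nat.div_lt_div_of_lt_of_dvd hgq h2
    · rw [hg]
      exact Nat.div_mul_cancel hgh
  calc _ ≤ ((range j).image (fun i => i * (q / j))).card := Finset.card_le_card hsub
    _ ≤ (range j).card := Finset.card_image_le
    _ = j := Finset.card_range j

theorem two_le_div_gcd {h q : ℕ} (h1 : 1 ≤ h) (h2 : h < q) : 2 ≤ q / Nat.gcd h q := by
  have hgq : Nat.gcd h q ∣ q := Nat.gcd_dvd_right h q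
  have hgh : Nat.gcd h q ∣ h := Nat.gcd_dvd_left h q
  have e2 : q / Nat.gcd h q * Nat.gcd h q = q := Nat.div_mul_cancel hgq
  have hle : Nat.gcd h q ≤ h := Nat.le_of_dvd h1 hgh
  generalize q / Nat.gcd h q = k at e2 ⊢
  generalize Nat.gcd h q = g at e2 hle
  rcases k with _ | _ | k
  · rw [zero_mul] at e2; omega
  · rw [zero_add, one_mul] at e2; omega
  · omega

theorem sum_pA_lt_one (L : List (Multiset ℕ)) (Q q : ℕ) (hq2 : 2 ≤ q) (hqQ : q ≤ Q)
    (hc : ∀ q : ℕ, 2 ≤ q → q ≤ Q → ∀ h : ℕ, h.Coprime q → pA L ((h : ℝ) / q) ≤ 1 / (q : ℝ) ^ 3) :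
    ∑ h ∈ Ico 1 q, pA L ((h : ℝ) / q) < 1 := by
  have hq0 : 0 < q := by omega
  have h1 : ∀ h ∈ Ico 1 q, pA L ((h : ℝ) / q) ≤ 1 / ((q / Nat.gcd h q : ℕ) : ℝ) ^ 3 := by
    intro h hh
    obtain ⟨h1, h2⟩ := Finset.mem_Ico.1 hh
    have hgq : Nat.gcd h q ∣ q := Nat.gcd_dvd_right h q
    have hgh : Nat.gcd h q ∣ h := Nat.gcd_dvd_left h q
    have hgpos : 0 < Nat.gcd h q := Nat.gcd_pos_of_pos_right h hq0
    have e1 : h / Nat.gcd h q * Nat.gcd h q = h := Nat.div_mul_cancel hgh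
    have e2 : q / Nat.gcd h q * Nat.gcd h q = q := Nat.div_mul_cancel hgq
    have hcop : (h / Nat.gcd h q).Coprime (q / Nat.gcd h q) := Nat.coprime_div_gcd_div_gcd hgpos
    have hge : 2 ≤ q / Nat.gcd h q := two_le_div_gcd h1 h2
    have hle : q / Nat.gcd h q ≤ Q := (Nat.div_le_self _ _).trans hqQ
    have h5 := hc (q / Nat.gcd h q) hge hle (h / Nat.gcd h q) hcop
    have hfrac : ((h / Nat.gcd h q : ℕ) : ℝ) / ((q / Nat.gcd h q : ℕ) : ℝ) = (h : ℝ) / q := by
      have hgR : (Nat.gcd h q : ℝ) ≠ 0 := by exact_mod_cast hgpos.ne'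
      have e1' : (h : ℝ) = ((h / Nat.gcd h q : ℕ) : ℝ) * (Nat.gcd h q : ℝ) := by
        exact_mod_cast e1.symm
      have e2' : (q : ℝ) = ((q / Nat.gcd h q : ℕ) : ℝ) * (Nat.gcd h q : ℝ) := by
        exact_mod_cast e2.symm
      conv_rhs => rw [e1', e2']
      rw [mul_div_mul_right _ _ hgR]
    rw [hfrac] at h5
    exact h5
  calc ∑ h ∈ Ico 1 q, pA L ((h : ℝ) / q)
      ≤ ∑ h ∈ Ico 1 q, 1 / ((q / Nat.gcd h q : ℕ) : ℝ) ^ 3 := Finset.sum_le_sum h1
    _ = ∑ j ∈ Icc 2 q, ∑ h ∈ (Ico 1 q).filter (fun h => q / Nat.gcd h q = j),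
          1 / ((q / Nat.gcd h q : ℕ) : ℝ) ^ 3 := by
        refine (Finset.sum_fiberwise_of_maps_to (fun h hh => ?_) _).symm
        obtain ⟨h1, h2⟩ := Finset.mem_Ico.1 hh
        rw [Finset.mem_Icc]
        exact ⟨two_le_div_gcd h1 h2, Nat.div_le_self _ _⟩
    _ ≤ ∑ j ∈ Icc 2 q, (1 : ℝ) / (j : ℝ) ^ 2 := by
        refine Finset.sum_le_sum fun j hj => ?_
        have hj2 : 2 ≤ j := (Finset.mem_Icc.1 hj).1
        have hj0 : (0 : ℝ) < j := by exact_mod_cast (by omega : 0 < j)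
        have h3 : ∑ h ∈ (Ico 1 q).filter (fun h => q / Nat.gcd h q = j),
            1 / ((q / Nat.gcd h q : ℕ) : ℝ) ^ 3
            = ((Ico 1 q).filter (fun h => q / Nat.gcd h q = j)).card * (1 / (j : ℝ) ^ 3) := by
          rw [Finset.sum_congr rfl (g := fun _ => 1 / (j : ℝ) ^ 3) (fun h hh => by
            rw [(Finset.mem_filter.1 hh).2])]
          rw [Finset.sum_const, nsmul_eq_mul]
        rw [h3]
        have h4 : (((Ico 1 q).filter (fun h => q / Nat.gcd h q = j)).card : ℝ) ≤ j := by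
          exact_mod_cast card_fiber_le q j hq0
        calc (((Ico 1 q).filter (fun h => q / Nat.gcd h q = j)).card : ℝ) * (1 / (j : ℝ) ^ 3)
            ≤ j * (1 / (j : ℝ) ^ 3) := mul_le_mul_of_nonneg_right h4 (by positivity)
          _ = 1 / (j : ℝ) ^ 2 := by field_simp
    _ ≤ 1 - 1 / q := goc_sum_inv_sq_le q (by omega)
    _ < 1 := by
        have : (0 : ℝ) < 1 / q := by positivity
        linarith

theorem sum_range_map_sum (M : Multiset ℕ) (S : Finset ℕ) (f : ℕ → ℕ → ℂ) :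
    ∑ h ∈ S, (M.map (fun s => f h s)).sum = (M.map (fun s => ∑ h ∈ S, f h s)).sum := by
  induction M using Multiset.induction_on with
  | empty => simp
  | cons a M ih =>
    simp only [Multiset.map_cons, Multiset.sum_cons, Finset.sum_add_distrib, ih]

/-- F2. Extraction of a zero sum. -/
theorem good_of_covers (L : List (Multiset ℕ)) (G Q : ℕ) (hL : L ≠ []) (hF : Fam L G)
    (hc : ∀ q : ℕ, 2 ≤ q → q ≤ Q → ∀ h : ℕ, h.Coprime q → pA L ((h : ℝ) / q) ≤ 1 / (q : ℝ) ^ 3) :
    Good G Q L.length := by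
  intro q hq1 hqQ
  have hlen : 0 < L.length := List.length_pos_iff.2 hL
  have hfin : ∀ s ∈ allSums L, q ∣ s →
      ∃ D : Multiset ℕ, D ≠ 0 ∧ Multiset.card D ≤ L.length ∧ (∀ d ∈ D, d ∣ G) ∧ q ∣ D.sum := by
    intro s hs hqs
    obtain ⟨D, hD1, hD2, hD3⟩ := allSums_mem hF hs
    refine ⟨D, ?_, hD1.le, hD2, hD3 ▸ hqs⟩
    rintro rfl
    rw [Multiset.card_zero] at hD1
    omega
  have hpos := card_allSums_pos hF
  by_contra hcon
  have hno : ∀ s ∈ allSums L, ¬ q ∣ s := fun s hs hqs => hcon (hfin s hs hqs)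
  rcases Nat.lt_or_ge q 2 with hq | hq2
  · have : q = 1 := by omega
    subst this
    obtain ⟨s, hs⟩ := Multiset.card_pos_iff_exists_mem.1 hpos
    exact hno s hs (one_dvd s)
  have hq0 : 0 < q := by omega
  have htot : ∑ h ∈ range q, ((allSums L).map (fun s : ℕ => e ((s : ℝ) * ((h : ℝ) / q)))).sum
      = 0 := by
    rw [sum_range_map_sum (allSums L) (range q) (fun h s => e ((s : ℝ) * ((h : ℝ) / q)))]
    apply Multiset.sum_eq_zero
    intro x hx
    rw [Multiset.mem_map] at hx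
    obtain ⟨s, hs, rfl⟩ := hx
    exact sum_e_eq_zero hq0 (hno s hs)
  rw [Finset.range_eq_Ico, Finset.sum_eq_sum_Ico_succ_bot hq0] at htot
  have h0 : ((allSums L).map (fun s : ℕ => e ((s : ℝ) * (((0 : ℕ) : ℝ) / q)))).sum
      = (Multiset.card (allSums L) : ℂ) := by
    have : (fun s : ℕ => e ((s : ℝ) * (((0 : ℕ) : ℝ) / q))) = fun _ => (1 : ℂ) := by
      funext s
      rw [Nat.cast_zero, zero_div, mul_zero, e_zero]
    rw [this, Multiset.map_const', Multiset.sum_replicate, nsmul_eq_mul, mul_one]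
  rw [h0] at htot
  have h1 : (Multiset.card (allSums L) : ℝ)
      = ‖∑ h ∈ Ico (0 + 1) q,
          ((allSums L).map (fun s : ℕ => e ((s : ℝ) * ((h : ℝ) / q)))).sum‖ := by
    have h2 := eq_neg_of_add_eq_zero_right htot
    rw [h2, norm_neg, Complex.norm_natCast]
  have h3 : ‖∑ h ∈ Ico (0 + 1) q,
      ((allSums L).map (fun s : ℕ => e ((s : ℝ) * ((h : ℝ) / q)))).sum‖
      ≤ ∑ h ∈ Ico (0 + 1) q, (Multiset.card (allSums L) : ℝ) * pA L ((h : ℝ) / q) := by
    refine (norm_sum_le _ _).trans (Finset.sum_le_sum fun h _ => ?_)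
    rw [norm_fourier hF]
  rw [← h1, ← Finset.mul_sum, zero_add] at h3
  have h4 := sum_pA_lt_one L Q q hq2 hqQ hc
  have h5 : (0 : ℝ) < Multiset.card (allSums L) := by exact_mod_cast hpos
  nlinarith

end Vale.Agent.P012
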