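import Vale.Agent.Lib.P012.Defs

/-! A3: passing to a sub-tuple can only increase the collision probability. -/

namespace Vale.Agent.P012

open Finset

/-- twisted collisions are at most as frequent as collisions. -/
theorem card_twist_le {X α : Type*} [Fintype X] [DecidableEq α] (u : X → α) (a : α → α)
    (ha : Function.Injective a) :
    ((univ : Finset (X × X)).filter (fun x => a (u x.1) = u x.2)).card
      ≤ ((univ : Finset (X × X)).filter (fun x => u x.1 = u x.2)).card := by
  classical
  set T : Finset α := univ.image u with hT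
  let M : α → ℕ := fun v => (univ.filter (fun x : X => u x = v)).card
  have hM0 : ∀ v, v ∉ T → M v = 0 := by
    intro v hv
    rw [Finset.card_eq_zero, Finset.filter_eq_empty_iff]
    intro x _ hx
    exact hv (hx ▸ Finset.mem_image_of_mem u (Finset.mem_univ x))
  have key : ∀ b : α → α, ((univ : Finset (X × X)).filter (fun x => b (u x.1) = u x.2)).card
      = ∑ v ∈ T, M v * M (b v) := by
    intro b
    have h1 : ((univ : Finset (X × X)).filter (fun x => b (u x.1) = u x.2))
        = T.biUnion (fun v => (univ.filter (fun x : X => u x = v)) ×ˢ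
            (univ.filter (fun x : X => u x = b v))) := by
      ext ⟨x, y⟩
      simp only [Finset.mem_filter, Finset.mem_univ, true_and, Finset.mem_biUnion,
        Finset.mem_product]
      constructor
      · intro h
        exact ⟨u x, Finset.mem_image_of_mem u (Finset.mem_univ x), rfl, h.symm⟩
      · rintro ⟨v, _, hx, hy⟩
        rw [hx, hy]
    rw [h1, Finset.card_biUnion]
    · apply Finset.sum_congr rfl
      intro v _
      rw [Finset.card_product]
    · intro v _ v' _ hvv'
      rw [Function.onFun, Finset.disjoint_left]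
      rintro ⟨x, y⟩ hx hx'
      simp only [Finset.mem_product, Finset.mem_filter, Finset.mem_univ, true_and] at hx hx'
      exact hvv' (hx.1.symm.trans hx'.1)
  have hid : ((univ : Finset (X × X)).filter (fun x => u x.1 = u x.2)).card
      = ∑ v ∈ T, M v * M v := key id
  rw [key a, hid]
  have h2 : ∑ v ∈ T, M (a v) * M (a v) ≤ ∑ v ∈ T, M v * M v := by
    calc ∑ v ∈ T, M (a v) * M (a v) = ∑ w ∈ T.image a, M w * M w :=
          (Finset.sum_image (f := fun w => M w * M w) (fun x _ y _ hxy => ha hxy)).symm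
      _ ≤ ∑ w ∈ T.image a ∪ T, M w * M w :=
          Finset.sum_le_sum_of_subset Finset.subset_union_left
      _ = ∑ w ∈ T, M w * M w := by
          symm
          apply Finset.sum_subset Finset.subset_union_right
          intro w _ hw
          rw [hM0 w hw, Nat.zero_mul]
  have h3 : 2 * ∑ v ∈ T, M v * M (a v) ≤ ∑ v ∈ T, M v * M v + ∑ v ∈ T, M (a v) * M (a v) := by
    rw [Finset.mul_sum, ← Finset.sum_add_distrib]
    apply Finset.sum_le_sum
    intro v _
    nlinarith [two_mul_le_add_sq (M v) (M (a v)), sq (M v), sq (M (a v))]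
  omega

section
variable {ι : Type*} [Fintype ι] [DecidableEq ι]

theorem kap_equiv {κ : Type*} [Fintype κ] [DecidableEq κ] (f : κ ≃ ι) (p : ι → ℕ) (g : ℕ) :
    kap p g = kap (fun j => p (f j)) g := by
  classical
  unfold kap
  have h1 : Fintype.card ι = Fintype.card κ := (Fintype.card_congr f).symm
  rw [h1]
  congr 2
  symm
  apply Finset.card_bij'
    (fun (A : Finset κ × Finset κ) _ => ((A.1.map f.toEmbedding, A.2.map f.toEmbedding) :
      Finset ι × Finset ι))
    (fun (A : Finset ι × Finset ι) _ => ((A.1.map f.symm.toEmbedding,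
      A.2.map f.symm.toEmbedding) : Finset κ × Finset κ))
  · intro A hA
    rw [Finset.mem_filter] at hA ⊢
    refine ⟨Finset.mem_univ _, ?_⟩
    have := hA.2
    unfold dif at this ⊢
    simpa [Finset.prod_map] using this
  · intro A hA
    rw [Finset.mem_filter] at hA ⊢
    refine ⟨Finset.mem_univ _, ?_⟩
    have := hA.2
    unfold dif at this ⊢
    simpa [Finset.prod_map] using this
  · intro A _
    ext x <;> simp
  · intro A _
    ext x <;> simp

theorem kap_sum_le {κ β : Type*} [Fintype κ] [DecidableEq κ] [Fintype β] [DecidableEq β]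
    (p : κ ⊕ β → ℕ) (g : ℕ) (hp : ∀ i, (p i).Coprime g) :
    kap p g ≤ kap (fun j => p (Sum.inl j)) g := by
  classical
  let F : (Finset β × Finset β) → (Finset κ × Finset κ) → (Finset (κ ⊕ β) × Finset (κ ⊕ β)) :=
    fun B A => (A.1.disjSum B.1, A.2.disjSum B.2)
  have hcount : (univ.filter (fun A : Finset (κ ⊕ β) × Finset (κ ⊕ β) => (g : ℤ) ∣ dif p A)).card
      ≤ ∑ B : Finset β × Finset β, (univ.filter (fun A : Finset κ × Finset κ =>
          (g : ℤ) ∣ dif p (F B A))).card := by
    rw [← Finset.card_sigma]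
    apply Finset.card_le_card_of_surjOn (fun s => F s.1 s.2)
    intro A hA
    rw [Finset.mem_coe, Finset.mem_filter] at hA
    have hAF : F (A.1.toRight, A.2.toRight) (A.1.toLeft, A.2.toLeft) = A := by
      simp only [F, Finset.toLeft_disjSum_toRight]
    refine ⟨⟨(A.1.toRight, A.2.toRight), (A.1.toLeft, A.2.toLeft)⟩, ?_, hAF⟩
    rw [Finset.mem_coe, Finset.mem_sigma]
    refine ⟨Finset.mem_univ _, ?_⟩
    rw [Finset.mem_filter]
    refine ⟨Finset.mem_univ _, ?_⟩
    rw [hAF]
    exact hA.2
  have hB : ∀ B : Finset β × Finset β, (univ.filter (fun A : Finset κ × Finset κ =>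
          (g : ℤ) ∣ dif p (F B A))).card
      ≤ (univ.filter (fun A : Finset κ × Finset κ =>
          (g : ℤ) ∣ dif (fun j => p (Sum.inl j)) A)).card := by
    intro B
    have hunit : ∀ S : Finset β, IsUnit (((∏ i ∈ S, p (Sum.inr i) : ℕ)) : ZMod g) := by
      intro S
      rw [ZMod.isUnit_iff_coprime]
      exact Nat.Coprime.prod_left (fun i _ => hp _)
    obtain ⟨c₁, hc₁⟩ := hunit B.1
    obtain ⟨c₂, hc₂⟩ := hunit B.2
    let u : Finset κ → ZMod g := fun S => ((∏ i ∈ S, p (Sum.inl i) : ℕ) : ZMod g)
    let a : ZMod g → ZMod g := fun v => (↑(c₂⁻¹ * c₁) : ZMod g) * v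
    have ha : Function.Injective a := by
      intro x y hxy
      exact (Units.mul_right_inj (c₂⁻¹ * c₁)).1 hxy
    have h1 := card_twist_le u a ha
    have hmod : ∀ x y : ℕ, (g : ℤ) ∣ (x : ℤ) - (y : ℤ) ↔ ((x : ZMod g) = (y : ZMod g)) := by
      intro x y
      rw [← sub_eq_zero, ← Int.cast_natCast (R := ZMod g) x, ← Int.cast_natCast (R := ZMod g) y,
        ← Int.cast_sub, ZMod.intCast_zmod_eq_zero_iff_dvd]
    have e1 : ∀ A : Finset κ × Finset κ, (g : ℤ) ∣ dif p (F B A) ↔ a (u A.1) = u A.2 := by
      intro A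
      have hprod : ∀ (S : Finset κ) (S' : Finset β), ∏ i ∈ S.disjSum S', p i
          = (∏ i ∈ S, p (Sum.inl i)) * ∏ i ∈ S', p (Sum.inr i) := by
        intro S S'
        rw [Finset.prod_disjSum]
      unfold dif
      rw [hmod]
      simp only [F, hprod]
      rw [Nat.cast_mul, Nat.cast_mul, ← hc₁, ← hc₂]
      simp only [a, u]
      constructor
      · intro h
        rw [Units.val_mul, mul_assoc, mul_comm (c₁ : ZMod g), h, mul_comm _ (c₂ : ZMod g),
          ← mul_assoc, Units.inv_mul, one_mul]
      · intro h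
        rw [← h, Units.val_mul, mul_comm _ (c₂ : ZMod g), ← mul_assoc, ← mul_assoc, Units.mul_inv,
          one_mul, mul_comm]
    have e2 : ∀ A : Finset κ × Finset κ, (g : ℤ) ∣ dif (fun j => p (Sum.inl j)) A ↔
        u A.1 = u A.2 := by
      intro A
      unfold dif
      rw [hmod]
    simp only [e1, e2]
    exact h1
  have htot : (univ.filter (fun A : Finset (κ ⊕ β) × Finset (κ ⊕ β) => (g : ℤ) ∣ dif p A)).card
      ≤ 4 ^ Fintype.card β * (univ.filter (fun A : Finset κ × Finset κ =>
          (g : ℤ) ∣ dif (fun j => p (Sum.inl j)) A)).card := by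
    refine hcount.trans ((Finset.sum_le_sum (fun B _ => hB B)).trans ?_)
    rw [Finset.sum_const, smul_eq_mul]
    apply le_of_eq
    congr 1
    rw [Finset.card_univ, Fintype.card_prod, Fintype.card_finset, ← mul_pow]
    norm_num
  unfold kap
  rw [Fintype.card_sum, pow_add, div_le_div_iff₀ (by positivity) (by positivity)]
  have htot' : ((univ.filter (fun A : Finset (κ ⊕ β) × Finset (κ ⊕ β) =>
      (g : ℤ) ∣ dif p A)).card : ℝ)
      ≤ 4 ^ Fintype.card β * ((univ.filter (fun A : Finset κ × Finset κ =>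
          (g : ℤ) ∣ dif (fun j => p (Sum.inl j)) A)).card : ℝ) := by exact_mod_cast htot
  calc ((univ.filter (fun A : Finset (κ ⊕ β) × Finset (κ ⊕ β) =>
      (g : ℤ) ∣ dif p A)).card : ℝ) * 4 ^ Fintype.card κ
      ≤ (4 ^ Fintype.card β * ((univ.filter (fun A : Finset κ × Finset κ =>
          (g : ℤ) ∣ dif (fun j => p (Sum.inl j)) A)).card : ℝ)) * 4 ^ Fintype.card κ :=
        mul_le_mul_of_nonneg_right htot' (by positivity)
    _ = _ := by ring

/-- A3. Passing to a sub-tuple can only increase the collision probability. -/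
theorem kap_slice {κ : Type*} [Fintype κ] [DecidableEq κ] (emb : κ ↪ ι) (p : ι → ℕ) (g : ℕ)
    (hp : ∀ i, (p i).Coprime g) : kap p g ≤ kap (fun j => p (emb j)) g := by
  classical
  let f : κ ⊕ {i : ι // i ∉ Set.range emb} ≃ ι :=
    (Equiv.sumCongr (Equiv.ofInjective emb emb.injective) (Equiv.refl _)).trans
      (Equiv.Set.sumCompl (Set.range emb))
  have hf : ∀ j, f (Sum.inl j) = emb j := by
    intro j
    change (Equiv.Set.sumCompl (Set.range ⇑emb)) (Sum.inl ⟨emb j, Set.mem_range_self j⟩) = emb j
    rw [Equiv.Set.sumCompl_apply_inl]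
  rw [kap_equiv f p g]
  refine (kap_sum_le (fun j => p (f j)) g (fun i => hp _)).trans (le_of_eq ?_)
  simp only [hf]

end

end Vale.Agent.P012
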