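import Vale.Agent.Lib.P012.KapAvg
import Vale.Agent.Lib.P012.DivBound
import Vale.Agent.Lib.P012.KapSlice

namespace Vale.Agent.P012

open Finset
open scoped Nat

/-- weighted selection of `T` independent units -/
lemma wsel {U X : Type*} (Us : Finset U) (hU : Us.Nonempty) (Xs : Finset X) (F : U → X → ℝ)
    (hF : ∀ u x, 0 ≤ F u x) (δ c : X → ℝ) (hc : ∀ x ∈ Xs, 0 ≤ c x)
    (hδ : ∀ x ∈ Xs, ∑ u ∈ Us, F u x ≤ δ x * Us.card) (T : ℕ)
    (hs : ∑ x ∈ Xs, c x * δ x ^ T < 1) :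
    ∃ u : Fin T → U, (∀ i, u i ∈ Us) ∧ ∑ x ∈ Xs, c x * ∏ i, F (u i) x < 1 := by
  classical
  have hN : (0:ℝ) < Us.card := by exact_mod_cast hU.card_pos
  have h1 : ∑ u ∈ Fintype.piFinset (fun _ : Fin T => Us), ∑ x ∈ Xs, c x * ∏ i, F (u i) x
      < ∑ u ∈ Fintype.piFinset (fun _ : Fin T => Us), (1:ℝ) := by
    rw [Finset.sum_comm]
    have h2 : ∀ x ∈ Xs, ∑ u ∈ Fintype.piFinset (fun _ : Fin T => Us), c x * ∏ i, F (u i) x
        ≤ c x * δ x ^ T * (Us.card:ℝ) ^ T := by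
      intro x hx
      rw [← Finset.mul_sum, mul_assoc, ← mul_pow]
      refine mul_le_mul_of_nonneg_left ?_ (hc x hx)
      have h3 : ∑ u ∈ Fintype.piFinset (fun _ : Fin T => Us), ∏ i, F (u i) x
          = (∑ u ∈ Us, F u x) ^ T := by
        rw [← Finset.prod_univ_sum (fun _ : Fin T => Us) (fun _ u => F u x)]; simp
      rw [h3]
      exact pow_le_pow_left₀ (Finset.sum_nonneg fun u _ => hF u x) (hδ x hx) T
    calc _ ≤ ∑ x ∈ Xs, c x * δ x ^ T * (Us.card:ℝ) ^ T := Finset.sum_le_sum h2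
      _ = (∑ x ∈ Xs, c x * δ x ^ T) * (Us.card:ℝ)^T := by rw [Finset.sum_mul]
      _ < 1 * (Us.card:ℝ)^T := by gcongr
      _ = _ := by simp [Fintype.card_piFinset]
  obtain ⟨u, hu, hlt⟩ := Finset.exists_lt_of_sum_lt h1
  exact ⟨u, fun i => (Fintype.mem_piFinset.mp hu) i, hlt⟩

section Block

variable {n : ℕ}

/-- off-diagonal part of the collision probability -/
noncomputable def offd (p : Fin n → ℕ) (g : ℕ) : ℝ :=
  ((univ.filter (fun A : Finset (Fin n) × Finset (Fin n) =>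
    A.1 ≠ A.2 ∧ (g : ℤ) ∣ dif p A)).card : ℝ) / 4 ^ n

lemma offd_nonneg (p : Fin n → ℕ) (g : ℕ) : 0 ≤ offd p g := by unfold offd; positivity

lemma kap_nonneg' {ι : Type*} [Fintype ι] [DecidableEq ι] (p : ι → ℕ) (g : ℕ) : 0 ≤ kap p g := by
  unfold kap; positivity

lemma kap_le_offd (p : Fin n → ℕ) (g : ℕ) : kap p g ≤ (1 / 2 : ℝ) ^ n + offd p g := by
  classical
  unfold kap offd
  rw [Fintype.card_fin]
  have h1 : (univ.filter (fun A : Finset (Fin n) × Finset (Fin n) => (g : ℤ) ∣ dif p A)).card ≤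
      2 ^ n + (univ.filter (fun A : Finset (Fin n) × Finset (Fin n) =>
        A.1 ≠ A.2 ∧ (g : ℤ) ∣ dif p A)).card := by
    have h2 : univ.filter (fun A : Finset (Fin n) × Finset (Fin n) => (g : ℤ) ∣ dif p A) ⊆
        (univ.image (fun S : Finset (Fin n) => (S, S))) ∪
        univ.filter (fun A : Finset (Fin n) × Finset (Fin n) =>
        A.1 ≠ A.2 ∧ (g : ℤ) ∣ dif p A) := by
      intro A hA
      rw [Finset.mem_union]
      by_cases h : A.1 = A.2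
      · left
        exact Finset.mem_image.mpr ⟨A.1, Finset.mem_univ _, by ext <;> simp [h]⟩
      · right
        exact Finset.mem_filter.mpr ⟨Finset.mem_univ _, h, (Finset.mem_filter.mp hA).2⟩
    refine (Finset.card_le_card h2).trans ((Finset.card_union_le _ _).trans ?_)
    have h3 : (univ.image (fun S : Finset (Fin n) => (S, S))).card ≤ 2 ^ n := by
      refine Finset.card_image_le.trans ?_
      rw [Finset.card_univ, Fintype.card_finset, Fintype.card_fin]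
    omega
  have h4 : (1 / 2 : ℝ) ^ n = 2 ^ n / 4 ^ n := by
    rw [← div_pow]; norm_num
  rw [h4, ← add_div]
  gcongr
  exact_mod_cast h1

lemma prod_prime_inj (p : Fin n → ℕ) (hp : ∀ i, (p i).Prime) (hinj : Function.Injective p)
    (S S' : Finset (Fin n)) (h : ∏ i ∈ S, p i = ∏ i ∈ S', p i) : S = S' := by
  have aux : ∀ S S' : Finset (Fin n), ∏ i ∈ S, p i = ∏ i ∈ S', p i → S ⊆ S' := by
    intro S S' h i hi
    have h1 : p i ∣ ∏ i ∈ S', p i := h ▸ Finset.dvd_prod_of_mem p hi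
    obtain ⟨j, hj, hij⟩ := (Prime.dvd_finsetProd_iff (hp i).prime p).mp h1
    have h2 : p i = p j := (Nat.prime_dvd_prime_iff_eq (hp i) (hp j)).mp hij
    rwa [hinj h2]
  exact Finset.Subset.antisymm (aux S S' h) (aux S' S h.symm)

lemma sum_offd_le (p : Fin n → ℕ) (hp : ∀ i, (p i).Prime) (hinj : Function.Injective p)
    (w : ℕ) (hw : ∀ i, p i < 2 ^ w) (D : ℕ)
    (hD : ∀ m : ℕ, 0 < m → m < 2 ^ (w * n) → m.divisors.card ≤ D) (Xs : Finset ℕ) :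
    ∑ g ∈ Xs, offd p g ≤ D := by
  classical
  have hprod : ∀ S : Finset (Fin n), ∏ i ∈ S, p i ≤ 2 ^ (w * n) := by
    intro S
    calc ∏ i ∈ S, p i ≤ ∏ i ∈ S, 2 ^ w := Finset.prod_le_prod' fun i _ => (hw i).le
      _ = (2 ^ w) ^ S.card := by rw [Finset.prod_const]
      _ ≤ (2 ^ w) ^ n := by
        refine Nat.pow_le_pow_right (by positivity) ?_
        simpa using Finset.card_le_univ S
      _ = 2 ^ (w * n) := by rw [pow_mul]
  have hpos : ∀ S : Finset (Fin n), 0 < ∏ i ∈ S, p i :=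
    fun S => Finset.prod_pos fun i _ => (hp i).pos
  have hcount : ∀ A : Finset (Fin n) × Finset (Fin n), A.1 ≠ A.2 →
      (Xs.filter (fun g : ℕ => (g : ℤ) ∣ dif p A)).card ≤ D := by
    intro A hA
    have hne : dif p A ≠ 0 := by
      intro h0
      apply hA
      apply prod_prime_inj p hp hinj
      unfold dif at h0
      have : ((∏ i ∈ A.1, p i : ℕ) : ℤ) = ((∏ i ∈ A.2, p i : ℕ) : ℤ) := by linarith
      exact_mod_cast this
    have hlt : (dif p A).natAbs < 2 ^ (w * n) := by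
      have h1 := hprod A.1
      have h2 := hprod A.2
      have h3 := hpos A.1
      have h4 := hpos A.2
      unfold dif
      omega
    refine le_trans ?_ (hD (dif p A).natAbs (Int.natAbs_pos.mpr hne) hlt)
    apply Finset.card_le_card
    intro g hg
    rw [Nat.mem_divisors]
    exact ⟨Int.natCast_dvd.mp (Finset.mem_filter.mp hg).2, (Int.natAbs_pos.mpr hne).ne'⟩
  have h1 : ∑ g ∈ Xs, (univ.filter (fun A : Finset (Fin n) × Finset (Fin n) =>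
      A.1 ≠ A.2 ∧ (g : ℤ) ∣ dif p A)).card ≤ 4 ^ n * D := by
    calc ∑ g ∈ Xs, (univ.filter (fun A : Finset (Fin n) × Finset (Fin n) =>
        A.1 ≠ A.2 ∧ (g : ℤ) ∣ dif p A)).card
        = ∑ g ∈ Xs, ∑ A : Finset (Fin n) × Finset (Fin n),
          (if A.1 ≠ A.2 ∧ (g : ℤ) ∣ dif p A then 1 else 0) := by
          refine Finset.sum_congr rfl fun g _ => ?_
          rw [Finset.card_filter]
      _ = ∑ A : Finset (Fin n) × Finset (Fin n), ∑ g ∈ Xs,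
          (if A.1 ≠ A.2 ∧ (g : ℤ) ∣ dif p A then 1 else 0) := Finset.sum_comm
      _ ≤ ∑ A : Finset (Fin n) × Finset (Fin n), D := by
          refine Finset.sum_le_sum fun A _ => ?_
          by_cases hA : A.1 = A.2
          · simp [hA]
          · rw [← Finset.card_filter]
            have : Xs.filter (fun g : ℕ => A.1 ≠ A.2 ∧ (g : ℤ) ∣ dif p A) =
                Xs.filter (fun g : ℕ => (g : ℤ) ∣ dif p A) := by
              apply Finset.filter_congr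
              intro g _
              simp [hA]
            rw [this]
            exact hcount A hA
      _ = 4 ^ n * D := by
          rw [Finset.sum_const, Finset.card_univ, Fintype.card_prod, Fintype.card_finset,
            Fintype.card_fin, smul_eq_mul, ← mul_pow]
          norm_num
  unfold offd
  rw [← Finset.sum_div, div_le_iff₀ (by positivity)]
  have h2 : ((∑ g ∈ Xs, (univ.filter (fun A : Finset (Fin n) × Finset (Fin n) =>
      A.1 ≠ A.2 ∧ (g : ℤ) ∣ dif p A)).card : ℕ) : ℝ) ≤ ((4 ^ n * D : ℕ) : ℝ) := by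
    exact_mod_cast h1
  push_cast at h2
  linarith

end Block

section Numeric

lemma sq_le_two_pow (m : ℕ) (hm : 9 ≤ m) : (2 * m + 1) ^ 2 ≤ 2 ^ m := by
  induction m, hm using Nat.le_induction with
  | base => norm_num
  | succ m hm ih =>
    have h1 : (2 * (m + 1) + 1) ^ 2 ≤ 2 * (2 * m + 1) ^ 2 := by nlinarith
    calc (2 * (m + 1) + 1) ^ 2 ≤ 2 * (2 * m + 1) ^ 2 := h1
      _ ≤ 2 * 2 ^ m := by omega
      _ = 2 ^ (m + 1) := by ring

/-- the numerical bound for the divisor function -/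
lemma D_bound (k : ℕ) (hk : 1000 ≤ k) (n : ℕ) (hn1 : 64 * 2 ^ k ≤ n * k) (hn2 : n ≤ 2 ^ (k + 7)) :
    (400 * k * n + 1) ^ (2 ^ (k / 2)) * 2 ^ (400 * k * n / (k / 2)) ≤ 2 ^ (1200 * n) := by
  have hk2 : k ≤ 2 * (k / 2) + 1 := by omega
  have hsq : k ^ 2 ≤ 2 ^ (k / 2) := by
    have h1 := sq_le_two_pow (k / 2) (by omega)
    calc k ^ 2 ≤ (2 * (k / 2) + 1) ^ 2 := Nat.pow_le_pow_left hk2 2
      _ ≤ 2 ^ (k / 2) := h1
  have h1 : 400 * k * n / (k / 2) ≤ 801 * n := by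
    apply Nat.div_le_of_le_mul
    have : 400 * k ≤ 801 * (k / 2) := by omega
    calc 400 * k * n ≤ 801 * (k / 2) * n := Nat.mul_le_mul_right _ this
      _ = k / 2 * (801 * n) := by ring
  have h2 : 400 * k * n + 1 ≤ 2 ^ (2 * k) := by
    have h3 : 400 * k * 2 ^ 7 + 1 ≤ 2 ^ k := by
      have h4 : 2 ^ (k / 2) * 2 ^ (k / 2) ≤ 2 ^ k := by
        rw [← pow_add]; exact Nat.pow_le_pow_right (by norm_num) (by omega)
      have h5 : k ^ 2 * k ^ 2 ≤ 2 ^ k := (Nat.mul_le_mul hsq hsq).trans h4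
      have h6 : 400 * k * 2 ^ 7 + 1 ≤ k ^ 2 * k ^ 2 := by
        have : 1000 * 1000 * 1000 * k ≤ k * k * k * k := by gcongr
        nlinarith
      exact h6.trans h5
    calc 400 * k * n + 1 ≤ 400 * k * 2 ^ (k + 7) + 1 := by gcongr
      _ ≤ (400 * k * 2 ^ 7 + 1) * 2 ^ k := by
        have : 1 ≤ 2 ^ k := Nat.one_le_two_pow
        rw [pow_add]; nlinarith
      _ ≤ 2 ^ k * 2 ^ k := by gcongr
      _ = 2 ^ (2 * k) := by rw [← pow_add]; ring_nf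
  have h3 : 2 * k * 2 ^ (k / 2) ≤ 399 * n := by
    have hk0 : 0 < k := by omega
    refine Nat.le_of_mul_le_mul_right ?_ hk0
    calc 2 * k * 2 ^ (k / 2) * k = 2 * (k ^ 2) * 2 ^ (k / 2) := by ring
      _ ≤ 2 * 2 ^ (k / 2) * 2 ^ (k / 2) := by gcongr
      _ = 2 * 2 ^ (k / 2 + k / 2) := by rw [pow_add]; ring
      _ ≤ 2 * 2 ^ k := by
        have : 2 ^ (k / 2 + k / 2) ≤ 2 ^ k := Nat.pow_le_pow_right (by norm_num) (by omega)
        omega
      _ ≤ 399 * (64 * 2 ^ k) := by omega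
      _ ≤ 399 * (n * k) := Nat.mul_le_mul_left _ hn1
      _ = 399 * n * k := by ring
  calc (400 * k * n + 1) ^ (2 ^ (k / 2)) * 2 ^ (400 * k * n / (k / 2))
      ≤ (2 ^ (2 * k)) ^ (2 ^ (k / 2)) * 2 ^ (801 * n) :=
        Nat.mul_le_mul (Nat.pow_le_pow_left h2 _) (Nat.pow_le_pow_right (by norm_num) h1)
    _ = 2 ^ (2 * k * 2 ^ (k / 2) + 801 * n) := by rw [← pow_mul, ← pow_add]
    _ ≤ 2 ^ (1200 * n) := Nat.pow_le_pow_right (by norm_num) (by omega)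

end Numeric

section Avg

lemma avg_kap (k n g : ℕ) (P : Finset ℕ) (hk : 1000 ≤ k)
    (hP : ∀ p ∈ P, p.Prime ∧ p < 2 ^ (400 * k)) (hPc : 2 ^ (399 * k) ≤ P.card)
    (hn : n ≤ 2 ^ k) (hg1 : 2 ^ (1200 * k) ≤ g) (hg2 : ∀ ℓ ∈ P, ℓ.Coprime g)
    (y : ℝ) (hy0 : 0 < y) (hy : y ^ 2 = (g : ℝ)⁻¹) :
    ∑ p ∈ Fintype.piFinset (fun _ : Fin n => P), kap p g ≤
      ((4 / 5) ^ n + y) * ((Fintype.piFinset (fun _ : Fin n => P)).card : ℝ) := by
  have hg0' : 0 < g := lt_of_lt_of_le (Nat.pow_pos (by norm_num)) hg1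
  have hg0 : g ≠ 0 := hg0'.ne'
  have hgpos : (0 : ℝ) < g := by exact_mod_cast hg0'
  obtain ⟨L, hL⟩ : ∃ L, L = Nat.log 2 g := ⟨_, rfl⟩
  have hL1 : 2 ^ L ≤ g := hL ▸ Nat.pow_log_le_self 2 hg0
  have hL2 : g < 2 ^ (L + 1) := hL ▸ Nat.lt_pow_succ_log_self (by norm_num) g
  have hL3 : 1200 * k ≤ L := by
    have h1 : 2 ^ (1200 * k) < 2 ^ (L + 1) := hg1.trans_lt hL2
    have h2 := (Nat.pow_lt_pow_iff_right (by norm_num : 1 < 2)).mp h1
    omega
  obtain ⟨s, hs⟩ : ∃ s, s = L / (400 * k) := ⟨_, rfl⟩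
  have hs1 : 400 * k * s ≤ L := by rw [hs]; exact Nat.mul_div_le L (400 * k)
  have hs2 : L < 400 * k * s + 400 * k := by
    have h1 := Nat.div_add_mod L (400 * k)
    have h2 := Nat.mod_lt L (show 0 < 400 * k by omega)
    rw [← hs] at h1
    omega
  obtain ⟨b, hb⟩ : ∃ b : ℝ, b = (2 : ℝ) ^ (398 * k) := ⟨_, rfl⟩
  have hb0 : 0 < b := by rw [hb]; exact pow_pos (by norm_num) _
  have hb5 : (5 : ℝ) ≤ b := by
    rw [hb]
    have h4 : (2 : ℝ) ^ 3 ≤ (2 : ℝ) ^ (398 * k) :=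
      pow_le_pow_right₀ (by norm_num) (by omega)
    have h5 : (2 : ℝ) ^ 3 = 8 := by norm_num
    linarith
  have hcard : (n : ℝ) ≤ b⁻¹ * P.card := by
    have h2 : ((2 : ℝ) ^ (399 * k)) ≤ P.card := by exact_mod_cast hPc
    have h3 : (n : ℝ) ≤ (2 : ℝ) ^ k := by exact_mod_cast hn
    have h4 : (2 : ℝ) ^ (399 * k) = b * (2 : ℝ) ^ k := by
      rw [hb, ← pow_add]; congr 1; ring
    rw [h4] at h2
    calc (n : ℝ) ≤ (2 : ℝ) ^ k := h3
      _ = b⁻¹ * (b * (2 : ℝ) ^ k) := by rw [inv_mul_cancel_left₀ hb0.ne']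
      _ ≤ b⁻¹ * P.card := mul_le_mul_of_nonneg_left h2 (inv_nonneg.mpr hb0.le)
  have hb15 : b⁻¹ ≤ 1 / 5 := by
    rw [one_div]; exact inv_anti₀ (by norm_num) hb5
  have h1 := kap_avg (ι := Fin n) P (400 * k) s g b⁻¹
    (fun p hp => ⟨(hP p hp).1, (hP p hp).2, hg2 p hp⟩)
    ((Nat.pow_le_pow_right (by norm_num) hs1).trans hL1) (inv_nonneg.mpr hb0.le)
    (by rw [Fintype.card_fin]; exact hcard) hb15
  rw [Fintype.card_fin] at h1
  have h2 : b⁻¹ ^ s ≤ y := by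
    have h3 : (b⁻¹ ^ s) ^ 2 ≤ y ^ 2 := by
      rw [hy, inv_pow, inv_pow]
      apply inv_anti₀ hgpos
      rw [hb, ← pow_mul, ← pow_mul]
      have h4 : g ≤ 2 ^ (398 * k * (s * 2)) := by
        refine hL2.le.trans (Nat.pow_le_pow_right (by norm_num) ?_)
        have h5 : 398 * k * (s * 2) = 796 * (k * s) := by ring
        have h6 : 400 * k * s = 400 * (k * s) := by ring
        rw [h5]
        rw [h6] at hs1 hs2
        omega
      exact_mod_cast h4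
    exact le_of_sq_le_sq h3 hy0.le
  have h3 : ((Fintype.piFinset (fun _ : Fin n => P)).card : ℝ) = (P.card : ℝ) ^ n := by
    rw [Fintype.card_piFinset]; simp
  rw [h3]
  calc ∑ p ∈ Fintype.piFinset (fun _ : Fin n => P), kap p g
      ≤ (P.card : ℝ) ^ n * ((4 / 5) ^ n + b⁻¹ ^ s) := h1
    _ ≤ (P.card : ℝ) ^ n * ((4 / 5) ^ n + y) := by gcongr
    _ = _ := mul_comm _ _

lemma small_term (g : ℕ) (τ : ℕ) (hτ : 3 ≤ τ) (hg : 2 ^ 14 ≤ g) (y d : ℝ)
    (hd0 : 0 ≤ d) (hd : d ≤ 2 * y) (hy : y ^ 2 = (g : ℝ)⁻¹) :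
    (g : ℝ) ^ τ * d ^ (4 * τ) ≤ ((g : ℝ) ^ 2)⁻¹ / 4 := by
  have hgR : (2 : ℝ) ^ 14 ≤ g := by exact_mod_cast hg
  have hg0 : (0 : ℝ) < g := lt_of_lt_of_le (by norm_num) hgR
  have hg16 : (16384 : ℝ) ≤ g := by
    have : (2 : ℝ) ^ 14 = 16384 := by norm_num
    linarith
  have h1 : d ^ 4 ≤ 16 * ((g : ℝ) ^ 2)⁻¹ := by
    calc d ^ 4 ≤ (2 * y) ^ 4 := pow_le_pow_left₀ hd0 hd 4
      _ = 16 * (y ^ 2) ^ 2 := by ring
      _ = 16 * ((g : ℝ) ^ 2)⁻¹ := by rw [hy, inv_pow]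
  have h2 : (g : ℝ) ^ τ * d ^ (4 * τ) ≤ (16 / (g : ℝ)) ^ τ := by
    rw [pow_mul, ← mul_pow]
    apply pow_le_pow_left₀ (mul_nonneg hg0.le (pow_nonneg hd0 _))
    calc (g : ℝ) * d ^ 4 ≤ (g : ℝ) * (16 * ((g : ℝ) ^ 2)⁻¹) :=
          mul_le_mul_of_nonneg_left h1 hg0.le
      _ = 16 / (g : ℝ) := by field_simp
  refine h2.trans ?_
  have h3 : (16 / (g : ℝ)) ^ τ ≤ (16 / (g : ℝ)) ^ 3 := by
    apply pow_le_pow_of_le_one (by positivity) _ hτ
    rw [div_le_one hg0]; linarith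
  refine h3.trans ?_
  rw [div_pow, div_le_div_iff₀ (by positivity) (by norm_num)]
  rw [show (g : ℝ) ^ 3 = (g : ℝ) ^ 2 * g by ring, ← mul_assoc,
    inv_mul_cancel₀ (by positivity), one_mul]
  norm_num
  linarith

lemma large_term (n m : ℕ) (hn : 72 ≤ n) (hm : m = 800) (d : ℝ) (hd0 : 0 ≤ d)
    (hd : d ≤ 2 * (4 / 5) ^ n) :
    (2 : ℝ) ^ (1001 * n) * d ^ (10 * m) ≤ ((2 : ℝ) ^ (1200 * n))⁻¹ / 4 := by
  have h7 : (4 / 5 : ℝ) ^ 10 ≤ 1 / 8 := by norm_num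
  have h1 : d ^ 10 ≤ 2 ^ 10 * ((2 : ℝ) ^ (3 * n))⁻¹ := by
    calc d ^ 10 ≤ (2 * (4 / 5) ^ n) ^ 10 := pow_le_pow_left₀ hd0 hd 10
      _ = 2 ^ 10 * ((4 / 5) ^ 10) ^ n := by rw [mul_pow, ← pow_mul, ← pow_mul, mul_comm n 10]
      _ ≤ 2 ^ 10 * (1 / 8) ^ n :=
        mul_le_mul_of_nonneg_left (pow_le_pow_left₀ (by norm_num) h7 n) (by norm_num)
      _ = 2 ^ 10 * ((2 : ℝ) ^ (3 * n))⁻¹ := by
        rw [pow_mul, ← inv_pow]; norm_num
  have h2 : d ^ (10 * m) ≤ (2 : ℝ) ^ (10 * m) * ((2 : ℝ) ^ (3 * n * m))⁻¹ := by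
    rw [pow_mul, pow_mul (2 : ℝ) 10 m, pow_mul (2 : ℝ) (3 * n) m, ← inv_pow, ← mul_pow]
    exact pow_le_pow_left₀ (pow_nonneg hd0 _) h1 m
  have h3 : (2 : ℝ) ^ (1001 * n) * ((2 : ℝ) ^ (10 * m) * ((2 : ℝ) ^ (3 * n * m))⁻¹) ≤
      ((2 : ℝ) ^ (1200 * n))⁻¹ / 4 := by
    have h4 : (2 : ℝ) ^ (1001 * n) * (2 : ℝ) ^ (10 * m) * ((2 : ℝ) ^ (1200 * n) * 4) ≤
        (2 : ℝ) ^ (3 * n * m) := by
      have h5 : (4 : ℝ) = 2 ^ 2 := by norm_num
      rw [h5, ← pow_add, ← pow_add, ← pow_add]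
      apply pow_le_pow_right₀ (by norm_num)
      subst hm
      omega
    have hA : (0 : ℝ) < (2 : ℝ) ^ (3 * n * m) := pow_pos (by norm_num) _
    have hB : (0 : ℝ) < (2 : ℝ) ^ (1200 * n) := pow_pos (by norm_num) _
    rw [← mul_assoc, ← div_eq_mul_inv, div_le_iff₀ hA, ← one_div, div_div, one_div,
      inv_mul_eq_div, le_div_iff₀ (by linarith [hB] : (0 : ℝ) < (2 : ℝ) ^ (1200 * n) * 4)]
    exact h4
  exact (mul_le_mul_of_nonneg_left h2 (pow_pos (by norm_num) _).le).trans h3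

lemma exists_le_of_prod_lt {T : ℕ} (f : Fin T → ℝ) (z a : ℝ) (hz : 0 < z)
    (h : a * ∏ i, f i < a * z ^ T) (ha : 0 ≤ a) : ∃ i, f i ≤ z := by
  by_contra hcon
  have hcon' : ∀ i, z < f i := fun i => not_le.mp fun h' => hcon ⟨i, h'⟩
  have h1 : z ^ T ≤ ∏ i, f i := by
    calc z ^ T = ∏ _i : Fin T, z := by simp
      _ ≤ ∏ i, f i := Finset.prod_le_prod (fun _ _ => hz.le) (fun i _ => (hcon' i).le)
  have := mul_le_mul_of_nonneg_left h1 ha
  linarith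

lemma sum_inv_sq_le (Xs : Finset ℕ) (N : ℕ) (hX : ∀ g ∈ Xs, 2 ≤ g ∧ g ≤ N) :
    ∑ g ∈ Xs, ((g : ℝ) ^ 2)⁻¹ ≤ 1 := by
  have h1 : Xs ⊆ Finset.Ioo 1 (N + 1) := by
    intro g hg
    have := hX g hg
    rw [Finset.mem_Ioo]; omega
  have h2 : ∑ g ∈ Xs, ((g : ℝ) ^ 2)⁻¹ ≤ ∑ g ∈ Finset.Ioo 1 (N + 1), ((g : ℝ) ^ 2)⁻¹ :=
    Finset.sum_le_sum_of_subset_of_nonneg h1 (fun g _ _ => by positivity)
  have h3 := sum_Ioo_inv_sq_le (α := ℝ) 1 (N + 1)
  refine h2.trans (h3.trans ?_)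
  norm_num

end Avg

section Main

/-- B2. The reservoir, with A3 as a hypothesis. -/
theorem reservoir_aux
    (hslice : ∀ (N M : ℕ) (emb : Fin M ↪ Fin N) (p : Fin N → ℕ) (g : ℕ),
      (∀ i, (p i).Coprime g) → kap p g ≤ kap (fun j => p (emb j)) g)
    (k : ℕ) (hk : 1000 ≤ k) (P : Finset ℕ)
    (hP : ∀ p ∈ P, p.Prime ∧ p < 2 ^ (400 * k)) (hPc : 2 ^ (399 * k) ≤ P.card) :
    ∃ (r : ℕ) (p : Fin r → ℕ), (∀ i, p i ∈ P) ∧ r * k ≤ 1000000 * 2 ^ k ∧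
      ∀ g : ℕ, 2 ^ (1200 * k) ≤ g → g ≤ 2 ^ (2 ^ k) → (∀ ℓ ∈ P, ℓ.Coprime g) →
        kap p g ≤ 2 * (2 : ℝ) ^ (-(8 * 2 ^ k / k : ℝ)) + (g : ℝ) ^ (-(1 / 4) : ℝ) := by
  classical
  obtain ⟨m, hm⟩ : ∃ m : ℕ, m = 800 := ⟨_, rfl⟩
  obtain ⟨τ, hτ⟩ : ∃ τ : ℕ, τ = 2000 := ⟨_, rfl⟩
  obtain ⟨T, hT⟩ : ∃ T : ℕ, T = 8000 := ⟨_, rfl⟩
  have hT10 : T = 10 * m := by omega
  have hT4 : T = 4 * τ := by omega
  have hk0 : 0 < k := by omega
  obtain ⟨r2, hr2⟩ : ∃ r2 : ℕ, r2 = 8 * 2 ^ k / k + 1 := ⟨_, rfl⟩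
  obtain ⟨n, hn⟩ : ∃ n : ℕ, n = 8 * r2 := ⟨_, rfl⟩
  have hkpow : k ≤ 2 ^ k := Nat.lt_two_pow_self.le
  have hr2k : 8 * 2 ^ k ≤ r2 * k := by
    have h1 := Nat.div_add_mod (8 * 2 ^ k) k
    have h2 := Nat.mod_lt (8 * 2 ^ k) hk0
    rw [hr2, add_mul, one_mul]
    nlinarith
  have hr2k' : r2 * k ≤ 8 * 2 ^ k + k := by
    rw [hr2, add_mul, one_mul]
    have := Nat.div_mul_le_self (8 * 2 ^ k) k
    omega
  have hr2pos : 9 ≤ r2 := by
    have : 8 ≤ 8 * 2 ^ k / k := by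
      rw [Nat.le_div_iff_mul_le hk0]
      omega
    omega
  have hr2le : r2 ≤ 2 ^ (k + 4) := by
    have h1 : 8 * 2 ^ k / k ≤ 8 * 2 ^ k := Nat.div_le_self _ _
    have h2 : 2 ^ (k + 4) = 16 * 2 ^ k := by rw [pow_add]; ring
    have h3 : 1 ≤ 2 ^ k := Nat.one_le_two_pow
    omega
  have hn1 : 64 * 2 ^ k ≤ n * k := by
    rw [hn]; nlinarith
  have hn2 : n ≤ 2 ^ (k + 7) := by
    have h2 : 2 ^ (k + 7) = 8 * 2 ^ (k + 4) := by rw [pow_add, pow_add]; ring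
    omega
  have hn3 : n ≤ P.card := by
    refine hn2.trans (le_trans ?_ hPc)
    exact Nat.pow_le_pow_right (by norm_num) (by omega)
  have hn4 : n ≤ 2 ^ k := by
    rw [hn]
    have h5 : 8 * r2 * k ≤ 2 ^ k * k := by
      have h6 : 1000 * 2 ^ k ≤ 2 ^ k * k := by
        rw [mul_comm]; exact Nat.mul_le_mul_left _ hk
      nlinarith
    exact Nat.le_of_mul_le_mul_right h5 hk0
  have hPne : P.Nonempty := by
    rw [← Finset.card_pos]
    exact lt_of_lt_of_le (Nat.pow_pos (by norm_num)) hPc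
  -- the first block
  obtain ⟨p0, hp0P, hp0inj⟩ : ∃ p0 : Fin n → ℕ, (∀ i, p0 i ∈ P) ∧ Function.Injective p0 := by
    obtain ⟨S, hS, hSc⟩ := Finset.exists_subset_card_eq hn3
    refine ⟨fun i => (S.orderEmbOfFin hSc) i, fun i => hS (S.orderEmbOfFin_mem hSc i), ?_⟩
    exact (S.orderEmbOfFin hSc).injective
  have hoff : ∀ Xs : Finset ℕ, ∑ g ∈ Xs, offd p0 g ≤ (2 : ℝ) ^ (1200 * n) := by
    intro Xs
    have := sum_offd_le p0 (fun i => (hP _ (hp0P i)).1) hp0inj (400 * k)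
      (fun i => (hP _ (hp0P i)).2) (2 ^ (1200 * n)) (fun m hm hm' =>
        (divisor_bound m (400 * k * n) (k / 2) hm hm' (by omega)).trans
        (D_bound k hk n hn1 hn2)) Xs
    refine this.trans (le_of_eq ?_)
    push_cast
    rfl
  -- the range of moduli
  obtain ⟨Xs, hXs⟩ : ∃ Xs : Finset ℕ, Xs = (Finset.Icc (2 ^ (1200 * k)) (2 ^ (2 ^ k))).filter
    (fun g => ∀ ℓ ∈ P, ℓ.Coprime g) := ⟨_, rfl⟩
  have hXs1 : ∀ g ∈ Xs, 2 ^ (1200 * k) ≤ g ∧ g ≤ 2 ^ (2 ^ k) ∧ ∀ ℓ ∈ P, ℓ.Coprime g := by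
    intro g hg
    rw [hXs, Finset.mem_filter, Finset.mem_Icc] at hg
    exact ⟨hg.1.1, hg.1.2, hg.2⟩
  have hg14 : ∀ g ∈ Xs, 2 ^ 14 ≤ g := fun g hg =>
    (Nat.pow_le_pow_right (by norm_num) (by omega)).trans (hXs1 g hg).1
  have hgpos : ∀ g ∈ Xs, (0 : ℝ) < g := by
    intro g hg
    have h1 : 0 < g := lt_of_lt_of_le (by norm_num) (hg14 g hg)
    exact_mod_cast h1
  -- the average collision probability
  obtain ⟨y, hy⟩ : ∃ y : ℕ → ℝ, ∀ g ∈ Xs, 0 < y g ∧ y g ^ 2 = (g : ℝ)⁻¹ := by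
    refine ⟨fun g => (Real.sqrt g)⁻¹, fun g hg => ⟨?_, ?_⟩⟩
    · exact inv_pos.mpr (Real.sqrt_pos.mpr (hgpos g hg))
    · rw [inv_pow, Real.sq_sqrt (hgpos g hg).le]
  obtain ⟨a, ha⟩ : ∃ a : ℝ, a = (4 / 5 : ℝ) ^ n := ⟨_, rfl⟩
  have ha0 : 0 < a := by rw [ha]; exact pow_pos (by norm_num) _
  -- weights
  obtain ⟨c, hc⟩ : ∃ c : ℕ → ℝ, c = fun g => if a ≤ y g then (g : ℝ) ^ τ
    else (2 : ℝ) ^ (1001 * n) * offd p0 g := ⟨_, rfl⟩
  have h2pow : (0 : ℝ) < (2 : ℝ) ^ (1001 * n) := pow_pos (by norm_num) _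
  have h2pow' : (0 : ℝ) < (2 : ℝ) ^ (1200 * n) := pow_pos (by norm_num) _
  have hcs : ∀ g, a ≤ y g → c g = (g : ℝ) ^ τ := fun g h => by rw [hc]; exact if_pos h
  have hcl : ∀ g, ¬ a ≤ y g → c g = (2 : ℝ) ^ (1001 * n) * offd p0 g :=
    fun g h => by rw [hc]; exact if_neg h
  have hcnn : ∀ g ∈ Xs, 0 ≤ c g := by
    intro g hg
    by_cases h : a ≤ y g
    · rw [hcs g h]; exact pow_nonneg (hgpos g hg).le _
    · rw [hcl g h]; exact mul_nonneg h2pow.le (offd_nonneg _ _)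
  have hsum : ∑ g ∈ Xs, c g * (a + y g) ^ T < 1 := by
    have h1 : ∀ g ∈ Xs, c g * (a + y g) ^ T ≤ ((g : ℝ) ^ 2)⁻¹ / 4 +
        (((2 : ℝ) ^ (1200 * n))⁻¹ / 4) * offd p0 g := by
      intro g hg
      have hyg := (hy g hg).1
      have ho := offd_nonneg p0 g
      by_cases h : a ≤ y g
      · rw [hcs g h, hT4]
        have h2 := small_term g τ (by omega) (hg14 g hg) (y g) (a + y g) (by linarith)
          (by linarith) (hy g hg).2
        have h3 : 0 ≤ (((2 : ℝ) ^ (1200 * n))⁻¹ / 4) * offd p0 g :=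
          mul_nonneg (div_nonneg (inv_nonneg.mpr h2pow'.le) (by norm_num)) ho
        linarith
      · rw [hcl g h, hT10]
        have h2 := large_term n m (by omega) hm (a + y g) (by linarith)
          (by rw [← ha]; linarith [not_le.mp h])
        have h3 : 0 ≤ ((g : ℝ) ^ 2)⁻¹ / 4 := by positivity
        have h4 : (2 : ℝ) ^ (1001 * n) * offd p0 g * (a + y g) ^ (10 * m) =
            ((2 : ℝ) ^ (1001 * n) * (a + y g) ^ (10 * m)) * offd p0 g := by ring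
        rw [h4]
        have h5 := mul_le_mul_of_nonneg_right h2 ho
        linarith
    have h2 : ∑ g ∈ Xs, ((g : ℝ) ^ 2)⁻¹ ≤ 1 :=
      sum_inv_sq_le Xs (2 ^ (2 ^ k)) (fun g hg =>
        ⟨le_trans (by norm_num) (hg14 g hg), (hXs1 g hg).2.1⟩)
    have h3 : ∑ g ∈ Xs, (((g : ℝ) ^ 2)⁻¹ / 4 + (((2 : ℝ) ^ (1200 * n))⁻¹ / 4) * offd p0 g) =
        (∑ g ∈ Xs, ((g : ℝ) ^ 2)⁻¹) / 4 +
          (((2 : ℝ) ^ (1200 * n))⁻¹ / 4) * ∑ g ∈ Xs, offd p0 g := by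
      rw [Finset.sum_add_distrib, Finset.sum_div, Finset.mul_sum]
    have h4 : (((2 : ℝ) ^ (1200 * n))⁻¹ / 4) * ∑ g ∈ Xs, offd p0 g ≤ 1 / 4 := by
      calc (((2 : ℝ) ^ (1200 * n))⁻¹ / 4) * ∑ g ∈ Xs, offd p0 g
          ≤ (((2 : ℝ) ^ (1200 * n))⁻¹ / 4) * (2 : ℝ) ^ (1200 * n) :=
            mul_le_mul_of_nonneg_left (hoff Xs)
              (div_nonneg (inv_nonneg.mpr h2pow'.le) (by norm_num))
        _ = 1 / 4 := by field_simp
    have h5 := Finset.sum_le_sum h1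
    rw [h3] at h5
    linarith
  obtain ⟨u, huP, hu⟩ := wsel (Fintype.piFinset (fun _ : Fin n => P))
    (Fintype.piFinset_nonempty.mpr fun _ => hPne) Xs (fun p g => kap p g)
    (fun p g => kap_nonneg' p g) (fun g => a + y g) c hcnn
    (fun g hg => by
      rw [ha]
      exact avg_kap k n g P hk hP hPc hn4 (hXs1 g hg).1 (hXs1 g hg).2.2 (y g) (hy g hg).1
        (hy g hg).2) T hsum
  have huP' : ∀ i j, u i j ∈ P := fun i j => Fintype.mem_piFinset.mp (huP i) j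
  have hterm : ∀ g ∈ Xs, c g * ∏ i, kap (u i) g < 1 := by
    intro g hg
    refine lt_of_le_of_lt ?_ hu
    exact Finset.single_le_sum (f := fun g => c g * ∏ i, kap (u i) g)
      (fun g hg => mul_nonneg (hcnn g hg) (Finset.prod_nonneg fun i _ => kap_nonneg' _ _)) hg
  -- the whole tuple
  obtain ⟨blk, hblk⟩ : ∃ blk : Fin (T + 1) → Fin n → ℕ,
    blk = Fin.cons p0 u := ⟨_, rfl⟩
  have hblkP : ∀ i j, blk i j ∈ P := by
    intro i j
    rw [hblk]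
    refine Fin.cases ?_ (fun i => ?_) i
    · simpa using hp0P j
    · simpa using huP' i j
  refine ⟨(T + 1) * n, fun x => blk (finProdFinEquiv.symm x).1 (finProdFinEquiv.symm x).2,
    fun x => hblkP _ _, ?_, ?_⟩
  · have h1 : (T + 1) * n * k = 8001 * (8 * (r2 * k)) := by rw [hT, hn]; ring
    rw [h1]
    omega
  · intro g hg1 hg2 hg3
    have hg : g ∈ Xs := by
      rw [hXs, Finset.mem_filter, Finset.mem_Icc]
      exact ⟨⟨hg1, hg2⟩, hg3⟩
    have hsl : ∀ i : Fin (T + 1),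
        kap (fun x => blk (finProdFinEquiv.symm x).1 (finProdFinEquiv.symm x).2) g ≤
          kap (blk i) g := by
      intro i
      have h1 := hslice ((T + 1) * n) n
        ⟨fun j => finProdFinEquiv (i, j), fun j j' h => by
          have := finProdFinEquiv.injective h
          exact (Prod.ext_iff.mp this).2⟩
        (fun x => blk (finProdFinEquiv.symm x).1 (finProdFinEquiv.symm x).2) g
        (fun x => hg3 _ (hblkP _ _))
      have h2 : (fun j => (fun x => blk (finProdFinEquiv.symm x).1 (finProdFinEquiv.symm x).2)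
          ((⟨fun j => finProdFinEquiv (i, j), fun j j' h => by
          have := finProdFinEquiv.injective h
          exact (Prod.ext_iff.mp this).2⟩ : Fin n ↪ Fin ((T + 1) * n)) j)) = blk i := by
        funext j
        change blk (finProdFinEquiv.symm (finProdFinEquiv (i, j))).1
          (finProdFinEquiv.symm (finProdFinEquiv (i, j))).2 = blk i j
        rw [Equiv.symm_apply_apply]
      rw [h2] at h1
      exact h1
    have hrp : (0 : ℝ) ≤ (2 : ℝ) ^ (-(8 * 2 ^ k / k : ℝ)) := Real.rpow_nonneg (by norm_num) _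
    have hr2R : ((2 : ℝ) ^ r2)⁻¹ ≤ (2 : ℝ) ^ (-(8 * 2 ^ k / k : ℝ)) := by
      rw [Real.rpow_neg (by norm_num)]
      apply inv_anti₀ (Real.rpow_pos_of_pos (by norm_num) _)
      have e : (2 : ℝ) ^ r2 = (2 : ℝ) ^ (r2 : ℝ) := (Real.rpow_natCast 2 r2).symm
      rw [e]
      apply Real.rpow_le_rpow_of_exponent_le (by norm_num)
      rw [div_le_iff₀ (by exact_mod_cast hk0)]
      exact_mod_cast hr2k
    have hgr : (0 : ℝ) ≤ (g : ℝ) ^ (-(1 / 4) : ℝ) := Real.rpow_nonneg (hgpos g hg).le _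
    by_cases h : a ≤ y g
    · -- small modulus
      have hz : (0 : ℝ) < (g : ℝ) ^ (-(1 / 4) : ℝ) := Real.rpow_pos_of_pos (hgpos g hg) _
      have hz4 : ((g : ℝ) ^ (-(1 / 4) : ℝ)) ^ 4 = (g : ℝ)⁻¹ := by
        rw [← Real.rpow_natCast, ← Real.rpow_mul (hgpos g hg).le]
        norm_num
        rw [Real.rpow_neg_one]
      have h1 := hterm g hg
      rw [hcs g h] at h1
      have h2 : (g : ℝ) ^ τ * ((g : ℝ) ^ (-(1 / 4) : ℝ)) ^ T = 1 := by
        rw [hT4, pow_mul, hz4, ← mul_pow, mul_inv_cancel₀ (hgpos g hg).ne', one_pow]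
      rw [← h2] at h1
      obtain ⟨i, hi⟩ := exists_le_of_prod_lt (fun i => kap (u i) g) _ _ hz h1
        (pow_nonneg (hgpos g hg).le _)
      have h3 := hsl i.succ
      have h4 : blk i.succ = u i := by rw [hblk]; simp
      rw [h4] at h3
      linarith
    · -- large modulus
      have h1 := hterm g hg
      rw [hcl g h] at h1
      by_cases ho : offd p0 g ≤ ((2 : ℝ) ^ r2)⁻¹
      · have h3 := hsl 0
        have h4 : blk 0 = p0 := by rw [hblk]; simp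
        rw [h4] at h3
        have h5 := kap_le_offd p0 g
        have h6 : (1 / 2 : ℝ) ^ n ≤ ((2 : ℝ) ^ r2)⁻¹ := by
          rw [one_div, inv_pow]
          apply inv_anti₀ (pow_pos (by norm_num) _)
          apply pow_le_pow_right₀ (by norm_num)
          omega
        linarith
      · have ho' := not_le.mp ho
        have hR : (0 : ℝ) < (2 : ℝ) ^ r2 := pow_pos (by norm_num) _
        have hofs : 0 < offd p0 g := lt_trans (inv_pos.mpr hR) ho'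
        have h2 : (2 : ℝ) ^ (1001 * n) * offd p0 g * ∏ i, kap (u i) g <
            (2 : ℝ) ^ (1001 * n) * offd p0 g * (((2 : ℝ) ^ r2)⁻¹) ^ T := by
          refine h1.trans_le ?_
          have h5 : (2 : ℝ) ^ (1001 * n) * ((2 : ℝ) ^ r2)⁻¹ * (((2 : ℝ) ^ r2)⁻¹) ^ T ≤
              (2 : ℝ) ^ (1001 * n) * offd p0 g * (((2 : ℝ) ^ r2)⁻¹) ^ T := by
            apply mul_le_mul_of_nonneg_right _ (pow_nonneg (inv_nonneg.mpr hR.le) _)
            exact mul_le_mul_of_nonneg_left ho'.le h2pow.le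
          refine le_trans ?_ h5
          rw [mul_assoc, ← pow_succ', inv_pow, ← pow_mul, ← div_eq_mul_inv,
            one_le_div (pow_pos (by norm_num) _)]
          apply pow_le_pow_right₀ (by norm_num)
          rw [hT, hn]
          omega
        obtain ⟨i, hi⟩ := exists_le_of_prod_lt (fun i => kap (u i) g) _ _ (inv_pos.mpr hR) h2
          (mul_nonneg h2pow.le hofs.le)
        have h3 := hsl i.succ
        have h4 : blk i.succ = u i := by rw [hblk]; simp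
        rw [h4] at h3
        have : kap (u i) g ≤ ((2 : ℝ) ^ r2)⁻¹ := hi
        linarith

/-- B2. The reservoir. -/
theorem reservoir : ∃ k₀ : ℕ, ∀ k ≥ k₀, ∀ P : Finset ℕ,
    (∀ p ∈ P, p.Prime ∧ p < 2 ^ (400 * k)) → 2 ^ (399 * k) ≤ P.card →
    ∃ (r : ℕ) (p : Fin r → ℕ), (∀ i, p i ∈ P) ∧ r * k ≤ 1000000 * 2 ^ k ∧
      ∀ g : ℕ, 2 ^ (1200 * k) ≤ g → g ≤ 2 ^ (2 ^ k) → (∀ ℓ ∈ P, ℓ.Coprime g) →
        kap p g ≤ 2 * (2 : ℝ) ^ (-(8 * 2 ^ k / k : ℝ)) + (g : ℝ) ^ (-(1 / 4) : ℝ) :=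
  ⟨1000, fun k hk P hP hPc => reservoir_aux
    (fun _ _ emb p g hp => kap_slice emb p g hp) k hk P hP hPc⟩

end Main

end Vale.Agent.P012
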