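import Vale.Agent.Lib.P012.ScaleExists
import Vale.Agent.Lib.P012.W6
import Vale.Agent.Lib.P012.GoodOfCovers
import Vale.Agent.Lib.P012.Reservoir

/-! Assembly of good numbers (G1). -/

namespace Vale.Agent.P012

open Finset
open scoped Nat

theorem pA_append_le_left (L₁ L₂ : List (Multiset ℕ)) (θ : ℝ) : pA (L₁ ++ L₂) θ ≤ pA L₁ θ := by
  rw [pA_append]
  exact mul_le_of_le_one_right (pA_nonneg _ _) (pA_le_one _ _)

theorem pA_append_le_right (L₁ L₂ : List (Multiset ℕ)) (θ : ℝ) : pA (L₁ ++ L₂) θ ≤ pA L₂ θ := by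
  rw [pA_append]
  exact mul_le_of_le_one_left (pA_nonneg _ _) (pA_le_one _ _)

/-- the combination of two families, one for each class of primes. -/
theorem eg_two (k C₁ E Rt Rf : ℕ) (cls : ℕ → Bool)
    (hs : ∀ σ : Bool, ∃ (L : List (Multiset ℕ)) (H : ℕ), 0 < H ∧ H ≤ 2 ^ (C₁ * E) ∧
      (∀ ℓ : ℕ, ℓ.Prime → ℓ ∣ H → ℓ ^ k ≤ 2 ^ (C₁ * 2 ^ k)) ∧
      Fam L (H * (if σ then Rt else Rf)) ∧ (L.length : ℝ) ≤ C₁ * (1 + E * k / 2 ^ k) ∧
      ∀ q : ℕ, 2 ^ (E - E / 200) ≤ q → q ≤ 2 ^ E →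
      ∀ m : ℕ, m ∣ q → q ≤ m ^ 2 → (∀ ℓ : ℕ, ℓ.Prime → cls ℓ = σ → ¬ ℓ ∣ m) →
      ∀ h : ℕ, h.Coprime q → pA L ((h : ℝ) / q) ≤ 1 / (q : ℝ) ^ 3) :
    ∃ (L : List (Multiset ℕ)) (H : ℕ), 0 < H ∧ H ≤ 2 ^ (2 * C₁ * E) ∧
      (∀ ℓ : ℕ, ℓ.Prime → ℓ ∣ H → ℓ ^ k ≤ 2 ^ (C₁ * 2 ^ k)) ∧
      Fam L (H * (Rt * Rf)) ∧ (L.length : ℝ) ≤ 2 * C₁ * (1 + E * k / 2 ^ k) ∧
      ∀ q : ℕ, 2 ^ (E - E / 200) ≤ q → q ≤ 2 ^ E →
      ∀ h : ℕ, h.Coprime q → pA L ((h : ℝ) / q) ≤ 1 / (q : ℝ) ^ 3 := by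
  obtain ⟨L₁, H₁, hH1, hH1b, hH1p, hF1, hl1, hc1⟩ := hs true
  obtain ⟨L₂, H₂, hH2, hH2b, hH2p, hF2, hl2, hc2⟩ := hs false
  refine ⟨L₁ ++ L₂, H₁ * H₂, Nat.mul_pos hH1 hH2, ?_, ?_, ?_, ?_, ?_⟩
  · calc H₁ * H₂ ≤ 2 ^ (C₁ * E) * 2 ^ (C₁ * E) := Nat.mul_le_mul hH1b hH2b
      _ = 2 ^ (2 * C₁ * E) := by rw [← pow_add]; congr 1; ring
  · intro ℓ hℓ hd
    rcases (hℓ.dvd_mul).1 hd with h | h
    · exact hH1p ℓ hℓ h
    · exact hH2p ℓ hℓ h
  · apply Fam_append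
    · refine Fam_mono hF1 ?_
      simp only [if_true]
      exact mul_dvd_mul (Dvd.intro _ rfl) (Dvd.intro _ rfl)
    · refine Fam_mono hF2 ?_
      simp only [Bool.false_eq_true, if_false]
      exact mul_dvd_mul (Dvd.intro_left _ rfl) (Dvd.intro_left _ rfl)
  · rw [List.length_append]
    push_cast
    linarith
  · intro q hq1 hq2 h hcop
    have hq : 0 < q := lt_of_lt_of_le (by positivity) hq1
    obtain ⟨m, σ, hmq, hqm, hmσ⟩ := type_split cls q hq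
    cases σ with
    | true =>
      exact (pA_append_le_left _ _ _).trans (hc1 q hq1 hq2 m hmq hqm hmσ h hcop)
    | false =>
      exact (pA_append_le_right _ _ _).trans (hc2 q hq1 hq2 m hmq hqm hmσ h hcop)

theorem eg_log (E E' : ℕ) (hE' : 0 < E') (h : 400 * E' ≤ 399 * E) :
    Real.log E' + 1 / 400 ≤ Real.log E := by
  have hE'R : (0 : ℝ) < E' := by exact_mod_cast hE'
  have hE : 0 < E := by omega
  have hER : (0 : ℝ) < E := by exact_mod_cast hE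
  have h1 : Real.log ((E' : ℝ) / E) ≤ (E' : ℝ) / E - 1 := Real.log_le_sub_one_of_pos (by positivity)
  rw [Real.log_div hE'R.ne' hER.ne'] at h1
  have h2 : (E' : ℝ) / E ≤ 399 / 400 := by
    rw [div_le_div_iff₀ hER (by norm_num)]
    have : ((400 * E' : ℕ) : ℝ) ≤ ((399 * E : ℕ) : ℝ) := by exact_mod_cast h
    push_cast at this
    linarith
  linarith

theorem eg_step (k C₁ R : ℕ) (hk : 1 ≤ k)
    (hs : ∀ E : ℕ, 50000 * k ≤ E → E ≤ 2 ^ k →
      ∃ (L : List (Multiset ℕ)) (H : ℕ), 0 < H ∧ H ≤ 2 ^ (2 * C₁ * E) ∧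
      (∀ ℓ : ℕ, ℓ.Prime → ℓ ∣ H → ℓ ^ k ≤ 2 ^ (C₁ * 2 ^ k)) ∧
      Fam L (H * R) ∧ (L.length : ℝ) ≤ 2 * C₁ * (1 + E * k / 2 ^ k) ∧
      ∀ q : ℕ, 2 ^ (E - E / 200) ≤ q → q ≤ 2 ^ E →
      ∀ h : ℕ, h.Coprime q → pA L ((h : ℝ) / q) ≤ 1 / (q : ℝ) ^ 3) :
    ∀ E : ℕ, E ≤ 2 ^ k → ∃ (L : List (Multiset ℕ)) (H : ℕ), 0 < H ∧ H ≤ 2 ^ (800 * C₁ * E) ∧
      (∀ ℓ : ℕ, ℓ.Prime → ℓ ∣ H → ℓ ^ k ≤ 2 ^ (C₁ * 2 ^ k)) ∧
      Fam L (H * R) ∧ (L.length : ℝ) ≤ 800 * C₁ * (Real.log E + E * k / 2 ^ k) ∧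
      ∀ q : ℕ, 2 ^ (50000 * k) < q → q ≤ 2 ^ E →
      ∀ h : ℕ, h.Coprime q → pA L ((h : ℝ) / q) ≤ 1 / (q : ℝ) ^ 3 := by
  intro E
  induction E using Nat.strong_induction_on with
  | _ E ih =>
    intro hE
    by_cases hE1 : E ≤ 50000 * k
    · refine ⟨[], 1, one_pos, Nat.one_le_two_pow, ?_, Fam_nil _, ?_, ?_⟩
      · intro ℓ hℓ hd
        exact absurd (Nat.dvd_one.1 hd) hℓ.one_lt.ne'
      · have h1 : 0 ≤ Real.log E := Real.log_natCast_nonneg E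
        have h2 : (0 : ℝ) ≤ E * k / 2 ^ k := by positivity
        simp only [List.length_nil, Nat.cast_zero]
        positivity
      · intro q hq1 hq2
        exfalso
        have : 2 ^ E ≤ 2 ^ (50000 * k) := Nat.pow_le_pow_right (by norm_num) hE1
        omega
    · push Not at hE1
      have hE' : E - E / 200 < E := by omega
      have hE'0 : 0 < E - E / 200 := by omega
      have h400 : 400 * (E - E / 200) ≤ 399 * E := by omega
      obtain ⟨L₁, H₁, hH1, hH1b, hH1p, hF1, hl1, hc1⟩ := ih (E - E / 200) hE' (hE'.le.trans hE)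
      obtain ⟨L₂, H₂, hH2, hH2b, hH2p, hF2, hl2, hc2⟩ := hs E hE1.le hE
      refine ⟨L₁ ++ L₂, H₁ * H₂, Nat.mul_pos hH1 hH2, ?_, ?_, ?_, ?_, ?_⟩
      · calc H₁ * H₂ ≤ 2 ^ (800 * C₁ * (E - E / 200)) * 2 ^ (2 * C₁ * E) :=
              Nat.mul_le_mul hH1b hH2b
          _ = 2 ^ (800 * C₁ * (E - E / 200) + 2 * C₁ * E) := by rw [← pow_add]
          _ ≤ 2 ^ (800 * C₁ * E) := by
            apply Nat.pow_le_pow_right (by norm_num)
            have h2 : 2 * C₁ * (400 * (E - E / 200)) ≤ 2 * C₁ * (399 * E) :=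
              Nat.mul_le_mul_left _ h400
            calc 800 * C₁ * (E - E / 200) + 2 * C₁ * E
                = 2 * C₁ * (400 * (E - E / 200)) + 2 * C₁ * E := by ring
              _ ≤ 2 * C₁ * (399 * E) + 2 * C₁ * E := Nat.add_le_add_right h2 _
              _ = 800 * C₁ * E := by ring
      · intro ℓ hℓ hd
        rcases (hℓ.dvd_mul).1 hd with h | h
        · exact hH1p ℓ hℓ h
        · exact hH2p ℓ hℓ h
      · apply Fam_append
        · refine Fam_mono hF1 ?_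
          exact mul_dvd_mul (Dvd.intro _ rfl) dvd_rfl
        · refine Fam_mono hF2 ?_
          exact mul_dvd_mul (Dvd.intro_left _ rfl) dvd_rfl
      · rw [List.length_append]
        push_cast
        have hlog := eg_log E (E - E / 200) hE'0 h400
        have hER : ((E - E / 200 : ℕ) : ℝ) ≤ 399 / 400 * E := by
          have : ((400 * (E - E / 200) : ℕ) : ℝ) ≤ ((399 * E : ℕ) : ℝ) := by exact_mod_cast h400
          push_cast at this
          linarith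
        have hx : ((E - E / 200 : ℕ) : ℝ) * k / 2 ^ k ≤ 399 / 400 * (E * k / 2 ^ k) := by
          have hk0 : (0 : ℝ) ≤ (k : ℝ) / 2 ^ k := by positivity
          calc ((E - E / 200 : ℕ) : ℝ) * k / 2 ^ k = ((E - E / 200 : ℕ) : ℝ) * (k / 2 ^ k) := by
                ring
            _ ≤ (399 / 400 * E) * (k / 2 ^ k) := mul_le_mul_of_nonneg_right hER hk0
            _ = 399 / 400 * (E * k / 2 ^ k) := by ring
        have hC : (0 : ℝ) ≤ C₁ := Nat.cast_nonneg _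
        have h3 : 800 * (C₁ : ℝ) * (Real.log ((E - E / 200 : ℕ) : ℝ)
            + ((E - E / 200 : ℕ) : ℝ) * k / 2 ^ k)
            ≤ 800 * C₁ * ((Real.log E - 1 / 400) + 399 / 400 * (E * k / 2 ^ k)) := by
          apply mul_le_mul_of_nonneg_left _ (by positivity)
          linarith
        calc (L₁.length : ℝ) + L₂.length
            ≤ 800 * C₁ * ((Real.log E - 1 / 400) + 399 / 400 * (E * k / 2 ^ k))
              + 2 * C₁ * (1 + E * k / 2 ^ k) := by linarith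
          _ = 800 * C₁ * (Real.log E + E * k / 2 ^ k) := by ring
      · intro q hq1 hq2 h hcop
        by_cases hqq : q ≤ 2 ^ (E - E / 200)
        · exact (pA_append_le_left _ _ _).trans (hc1 q hq1 hqq h hcop)
        · push Not at hqq
          exact (pA_append_le_right _ _ _).trans (hc2 q hqq.le hq2 h hcop)

/-- the family of binary digits. -/
theorem Fam_digits (a : ℕ) :
    Fam ((List.range a).map (fun i => ({2 ^ i, 2 ^ (i + 1)} : Multiset ℕ))) (2 ^ a) := by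
  intro T hT
  rw [List.mem_map] at hT
  obtain ⟨i, hi, rfl⟩ := hT
  rw [List.mem_range] at hi
  refine ⟨by simp, ?_⟩
  intro d hd
  rw [Multiset.insert_eq_cons, Multiset.mem_cons, Multiset.mem_singleton] at hd
  rcases hd with rfl | rfl
  · exact pow_dvd_pow 2 hi.le
  · exact pow_dvd_pow 2 hi

theorem digits_cover (a q h : ℕ) (hq : 2 ≤ q) (hqa : q ^ 4 ≤ 2 ^ (a + 1)) (hh : h.Coprime q) :
    pA ((List.range a).map (fun i => ({2 ^ i, 2 ^ (i + 1)} : Multiset ℕ))) ((h : ℝ) / q)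
      ≤ 1 / (q : ℝ) ^ 3 := by
  refine (digits a q h hq hh).trans ?_
  have hqR : (0 : ℝ) < q := by
    have : 0 < q := by omega
    exact_mod_cast this
  rw [div_le_div_iff₀ (by positivity) (by positivity)]
  have h1 : (q : ℝ) ^ 4 ≤ (2 : ℝ) ^ (a + 1) := by exact_mod_cast hqa
  calc (q : ℝ) * (q : ℝ) ^ 3 = (q : ℝ) ^ 4 := by ring
    _ ≤ (2 : ℝ) ^ (a + 1) := h1
    _ = 1 * (2 : ℝ) ^ (a + 1) := by ring

theorem Good_mono {G Q K K' : ℕ} (h : Good G Q K) (hK : K ≤ K') : Good G Q K' := by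
  intro q hq1 hq2
  obtain ⟨D, hD, hDc, hDd, hDs⟩ := h q hq1 hq2
  exact ⟨D, hD, hDc.trans hK, hDd, hDs⟩

/-- final assembly for a given `k`. -/
theorem eg_final (k C₁ Rt Rf : ℕ) (hk : 100 ≤ k) (hRt0 : 0 < Rt) (hRf0 : 0 < Rf)
    (hRt : Rt ≤ 2 ^ (400000000 * 2 ^ k)) (hRf : Rf ≤ 2 ^ (400000000 * 2 ^ k))
    (hRp : ∀ ℓ : ℕ, ℓ.Prime → ℓ ∣ Rt * Rf → ℓ < 2 ^ (400 * k))
    (hs : ∀ E : ℕ, 50000 * k ≤ E → E ≤ 2 ^ k →
      ∃ (L : List (Multiset ℕ)) (H : ℕ), 0 < H ∧ H ≤ 2 ^ (2 * C₁ * E) ∧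
      (∀ ℓ : ℕ, ℓ.Prime → ℓ ∣ H → ℓ ^ k ≤ 2 ^ (C₁ * 2 ^ k)) ∧
      Fam L (H * (Rt * Rf)) ∧ (L.length : ℝ) ≤ 2 * C₁ * (1 + E * k / 2 ^ k) ∧
      ∀ q : ℕ, 2 ^ (E - E / 200) ≤ q → q ≤ 2 ^ E →
      ∀ h : ℕ, h.Coprime q → pA L ((h : ℝ) / q) ≤ 1 / (q : ℝ) ^ 3) :
    ∃ G : ℕ, 0 < G ∧ G ≤ 2 ^ ((1000000000 + 1600 * C₁) * 2 ^ k) ∧
    (∀ ℓ : ℕ, ℓ.Prime → ℓ ∣ G → ℓ ^ k ≤ 2 ^ ((1000000000 + 1600 * C₁) * 2 ^ k)) ∧
    Good G (2 ^ (2 ^ k)) ((1000000000 + 1600 * C₁) * k) := by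
  have hk2k : k ≤ 2 ^ k := Nat.lt_two_pow_self.le
  obtain ⟨L, H, hH0, hHb, hHp, hF, hl, hc⟩ := eg_step k C₁ (Rt * Rf) (by omega) hs (2 ^ k) le_rfl
  set D : List (Multiset ℕ) := (List.range (200000 * k)).map
    (fun i => ({2 ^ i, 2 ^ (i + 1)} : Multiset ℕ)) with hD
  refine ⟨2 ^ (200000 * k) * (H * (Rt * Rf)), by positivity, ?_, ?_, ?_⟩
  · calc 2 ^ (200000 * k) * (H * (Rt * Rf))
        ≤ 2 ^ (200000 * k) * (2 ^ (800 * C₁ * 2 ^ k)
          * (2 ^ (400000000 * 2 ^ k) * 2 ^ (400000000 * 2 ^ k))) :=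
          Nat.mul_le_mul_left _ (Nat.mul_le_mul hHb (Nat.mul_le_mul hRt hRf))
      _ = 2 ^ (200000 * k + (800 * C₁ * 2 ^ k + (400000000 * 2 ^ k + 400000000 * 2 ^ k))) := by
          rw [← pow_add, ← pow_add, ← pow_add]
      _ ≤ 2 ^ ((1000000000 + 1600 * C₁) * 2 ^ k) := by
          apply Nat.pow_le_pow_right (by norm_num)
          have : 800 * C₁ * 2 ^ k ≤ 1600 * C₁ * 2 ^ k := by
            apply Nat.mul_le_mul_right
            omega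
          rw [add_mul]
          omega
  · intro ℓ hℓ hd
    rcases (hℓ.dvd_mul).1 hd with h | h
    · have hℓ2 : ℓ = 2 := (Nat.prime_dvd_prime_iff_eq hℓ Nat.prime_two).1 (hℓ.dvd_of_dvd_pow h)
      rw [hℓ2]
      apply Nat.pow_le_pow_right (by norm_num)
      calc k ≤ 1 * 2 ^ k := by omega
        _ ≤ _ := Nat.mul_le_mul_right _ (by omega)
    · rcases (hℓ.dvd_mul).1 h with h | h
      · refine (hHp ℓ hℓ h).trans (Nat.pow_le_pow_right (by norm_num) ?_)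
        exact Nat.mul_le_mul_right _ (by omega)
      · calc ℓ ^ k ≤ (2 ^ (400 * k)) ^ k := Nat.pow_le_pow_left (hRp ℓ hℓ h).le _
          _ = 2 ^ (400 * k * k) := by rw [← pow_mul]
          _ ≤ _ := by
            apply Nat.pow_le_pow_right (by norm_num)
            have := se_sq_aux k hk
            calc 400 * k * k = 400 * (k * k) := by ring
              _ ≤ 400 * 2 ^ k := Nat.mul_le_mul_left _ this
              _ ≤ _ := Nat.mul_le_mul_right _ (by omega)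
  · have hne : D ++ L ≠ [] := by
      intro h
      have h1 : (D ++ L).length = 0 := by rw [h]; rfl
      rw [List.length_append, hD, List.length_map, List.length_range] at h1
      omega
    have hFam : Fam (D ++ L) (2 ^ (200000 * k) * (H * (Rt * Rf))) := by
      apply Fam_append
      · exact Fam_mono (Fam_digits _) (Dvd.intro _ rfl)
      · exact Fam_mono hF (Dvd.intro_left _ rfl)
    refine Good_mono (good_of_covers (D ++ L) _ (2 ^ (2 ^ k)) hne hFam ?_) ?_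
    · intro q hq2 hqQ h hcop
      by_cases hq : q ≤ 2 ^ (50000 * k)
      · refine (pA_append_le_left _ _ _).trans (digits_cover _ q h hq2 ?_ hcop)
        calc q ^ 4 ≤ (2 ^ (50000 * k)) ^ 4 := Nat.pow_le_pow_left hq _
          _ = 2 ^ (200000 * k) := by rw [← pow_mul]; congr 1; ring
          _ ≤ 2 ^ (200000 * k + 1) := Nat.pow_le_pow_right (by norm_num) (by omega)
      · push Not at hq
        exact (pA_append_le_right _ _ _).trans (hc q hq hqQ h hcop)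
    · rw [List.length_append, hD, List.length_map, List.length_range]
      have hlR : (L.length : ℝ) ≤ ((1600 * C₁ * k : ℕ) : ℝ) := by
        refine hl.trans ?_
        push_cast
        have h2k : (0 : ℝ) < (2 : ℝ) ^ k := by positivity
        have h1 : Real.log ((2 : ℝ) ^ k) ≤ k := by
          rw [Real.log_pow]
          have : Real.log 2 ≤ 1 := by
            have := Real.log_two_lt_d9
            linarith
          have hk0 : (0 : ℝ) ≤ k := Nat.cast_nonneg _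
          nlinarith
        have h2 : (2 : ℝ) ^ k * k / 2 ^ k = k := by field_simp
        rw [h2]
        have hC : (0 : ℝ) ≤ 800 * C₁ := by positivity
        calc 800 * (C₁ : ℝ) * (Real.log ((2 : ℝ) ^ k) + k) ≤ 800 * C₁ * (k + k) :=
              mul_le_mul_of_nonneg_left (by linarith) hC
          _ = 1600 * C₁ * k := by ring
      have hlN : L.length ≤ 1600 * C₁ * k := by exact_mod_cast hlR
      rw [add_mul]
      omega

/-- everything that the scales need, for one class of primes. -/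
theorem eg_key : ∃ k₀ C₁ : ℕ, ∀ k ≥ k₀, ∀ (cls : ℕ → Bool) (σ : Bool),
    (∀ v ≥ k, 2 ^ v ≤ 8 * v * ((range (2 ^ v)).filter (fun p => p.Prime ∧ cls p = σ)).card) →
    ∃ R : ℕ, 0 < R ∧ R ≤ 2 ^ (400000000 * 2 ^ k) ∧
    (∀ ℓ : ℕ, ℓ.Prime → ℓ ∣ R → ℓ < 2 ^ (400 * k)) ∧
    ∀ E : ℕ, 50000 * k ≤ E → E ≤ 2 ^ k →
    ∃ (L : List (Multiset ℕ)) (H : ℕ), 0 < H ∧ H ≤ 2 ^ (C₁ * E) ∧
      (∀ ℓ : ℕ, ℓ.Prime → ℓ ∣ H → ℓ ^ k ≤ 2 ^ (C₁ * 2 ^ k)) ∧
      Fam L (H * R) ∧ (L.length : ℝ) ≤ C₁ * (1 + E * k / 2 ^ k) ∧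
      ∀ q : ℕ, 2 ^ (E - E / 200) ≤ q → q ≤ 2 ^ E →
      ∀ m : ℕ, m ∣ q → q ≤ m ^ 2 → (∀ ℓ : ℕ, ℓ.Prime → cls ℓ = σ → ¬ ℓ ∣ m) →
      ∀ h : ℕ, h.Coprime q → pA L ((h : ℝ) / q) ≤ 1 / (q : ℝ) ^ 3 := by
  classical
  obtain ⟨k₁, hres⟩ := reservoir
  obtain ⟨k₂, C₁, hsc⟩ := scale_exists'
  refine ⟨max (max k₁ k₂) 100, C₁, ?_⟩
  intro k hk cls σ hcls
  have hk1 : k₁ ≤ k := le_trans (le_trans (le_max_left _ _) (le_max_left _ _)) hk
  have hk2 : k₂ ≤ k := le_trans (le_trans (le_max_right _ _) (le_max_left _ _)) hk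
  have hk3 : 100 ≤ k := le_trans (le_max_right _ _) hk
  obtain ⟨r, p, hp, hr, hkap⟩ := hres k hk1
    ((range (2 ^ (400 * k))).filter (fun x => x.Prime ∧ cls x = σ))
    (fun x hx => by
      rw [Finset.mem_filter, Finset.mem_range] at hx
      exact ⟨hx.2.1, hx.1⟩)
    (se_P_card k hk3 _ (hcls (400 * k) (by omega)))
  have hp' : ∀ i, (p i).Prime ∧ p i < 2 ^ (400 * k) := by
    intro i
    have := hp i
    rw [Finset.mem_filter, Finset.mem_range] at this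
    exact ⟨this.2.1, this.1⟩
  refine ⟨∏ i, p i, ?_, ?_, ?_, ?_⟩
  · exact Finset.prod_pos (fun i _ => (hp' i).1.pos)
  · calc ∏ i, p i ≤ ∏ _i : Fin r, 2 ^ (400 * k) :=
          Finset.prod_le_prod' (fun i _ => (hp' i).2.le)
      _ = 2 ^ (400 * k * r) := by
          rw [Finset.prod_const, Finset.card_univ, Fintype.card_fin, ← pow_mul]
      _ ≤ 2 ^ (400000000 * 2 ^ k) := by
          apply Nat.pow_le_pow_right (by norm_num)
          calc 400 * k * r = 400 * (r * k) := by ring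
            _ ≤ 400 * (1000000 * 2 ^ k) := Nat.mul_le_mul_left _ hr
            _ = 400000000 * 2 ^ k := by ring
  · intro ℓ hℓ hd
    obtain ⟨i, -, hi⟩ := (hℓ.prime.dvd_finsetProd_iff _).1 hd
    rw [(Nat.prime_dvd_prime_iff_eq hℓ (hp' i).1).1 hi]
    exact (hp' i).2
  · apply hsc k hk2 cls σ hcls r p
    intro g hg1 hg2 hgσ
    apply hkap g hg1 hg2
    intro ℓ hℓ
    rw [Finset.mem_filter, Finset.mem_range] at hℓ
    exact hgσ ℓ hℓ.2.1 hℓ.1 hℓ.2.2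

/-- G1. Good numbers exist. -/
theorem exists_good : ∃ C₀ k₀ : ℕ, ∀ k ≥ k₀, ∃ G : ℕ, 0 < G ∧ G ≤ 2 ^ (C₀ * 2 ^ k) ∧
    (∀ ℓ : ℕ, ℓ.Prime → ℓ ∣ G → ℓ ^ k ≤ 2 ^ (C₀ * 2 ^ k)) ∧ Good G (2 ^ (2 ^ k)) (C₀ * k) := by
  obtain ⟨cls, v₀, hcls⟩ := classes
  obtain ⟨k₁, C₁, hkey⟩ := eg_key
  refine ⟨1000000000 + 1600 * C₁, max k₁ (max v₀ 100), ?_⟩
  intro k hk
  have hk1 : k₁ ≤ k := le_trans (le_max_left _ _) hk
  have hk2 : v₀ ≤ k := le_trans (le_trans (le_max_left _ _) (le_max_right _ _)) hk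
  have hk3 : 100 ≤ k := le_trans (le_trans (le_max_right _ _) (le_max_right _ _)) hk
  obtain ⟨Rt, hRt0, hRt, hRtp, hst⟩ := hkey k hk1 cls true
    (fun v hv => hcls v (hk2.trans hv) true)
  obtain ⟨Rf, hRf0, hRf, hRfp, hsf⟩ := hkey k hk1 cls false
    (fun v hv => hcls v (hk2.trans hv) false)
  apply eg_final k C₁ Rt Rf hk3 hRt0 hRf0 hRt hRf
  · intro ℓ hℓ hd
    rcases (hℓ.dvd_mul).1 hd with h | h
    · exact hRtp ℓ hℓ h
    · exact hRfp ℓ hℓ h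
  · intro E hE1 hE2
    apply eg_two k C₁ E Rt Rf cls
    intro σ
    cases σ with
    | true => simpa using hst E hE1 hE2
    | false => simpa using hsf E hE1 hE2

end Vale.Agent.P012
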