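import Vale.Agent.Lib.P012.Defs

/-!
# P012, part A: counting tuples of primes with a given product; average collision probability
-/

namespace Vale.Agent.P012

open Finset
open scoped Nat

section
variable {ι : Type*} [Fintype ι] [DecidableEq ι]

omit [DecidableEq ι] in
/-- tuples of primes with the same product are permutations of each other -/
lemma exists_perm_of_prod_eq {n m : ι → ℕ} (hn : ∀ i, (n i).Prime) (hm : ∀ i, (m i).Prime)
    (h : ∏ i, n i = ∏ i, m i) : ∃ σ : Equiv.Perm ι, n = m ∘ σ := by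
  classical
  have key : (univ.val.map n : Multiset ℕ) = univ.val.map m := by
    have h1 : UniqueFactorizationMonoid.normalizedFactors (univ.val.map n : Multiset ℕ).prod =
        univ.val.map n := by
      refine UniqueFactorizationMonoid.normalizedFactors_prod_of_prime ?_
      intro p hp
      obtain ⟨i, _, rfl⟩ := Multiset.mem_map.mp hp
      exact (hn i).prime
    have h2 : UniqueFactorizationMonoid.normalizedFactors (univ.val.map m : Multiset ℕ).prod =
        univ.val.map m := by
      refine UniqueFactorizationMonoid.normalizedFactors_prod_of_prime ?_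
      intro p hp
      obtain ⟨i, _, rfl⟩ := Multiset.mem_map.mp hp
      exact (hm i).prime
    have h3 : (univ.val.map n : Multiset ℕ).prod = (univ.val.map m : Multiset ℕ).prod := h
    rw [← h1, ← h2, h3]
  have hcard : ∀ c, Fintype.card {a // n a = c} = Fintype.card {b // m b = c} := by
    intro c
    rw [Fintype.card_subtype, Fintype.card_subtype]
    have h1 := congrArg (Multiset.count c) key
    rw [Multiset.count_map, Multiset.count_map] at h1
    have h2 : ∀ f : ι → ℕ, Multiset.card (Multiset.filter (fun a => c = f a) univ.val) =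
        (univ.filter (fun a => f a = c)).card := by
      intro f
      rw [← Finset.filter_val, Finset.card_val]
      congr 1
      ext a
      simp [eq_comm]
    rw [h2, h2] at h1
    exact h1
  refine ⟨Equiv.ofFiberEquiv (fun c => Fintype.equivOfCardEq (hcard c)), ?_⟩
  funext a
  exact (Equiv.ofFiberEquiv_map _ a).symm

/-- A1. At most `|ι|!` tuples of primes have a given product. -/
theorem fact_count (P : Finset ℕ) (hP : ∀ p ∈ P, p.Prime) (c : ℕ) :
    ((Fintype.piFinset (fun _ : ι => P)).filter (fun n => ∏ i, n i = c)).card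
      ≤ (Fintype.card ι)! := by
  classical
  rcases ((Fintype.piFinset (fun _ : ι => P)).filter
    (fun n => ∏ i, n i = c)).eq_empty_or_nonempty with h | ⟨m, hm⟩
  · rw [h]; simp
  · rw [Finset.mem_filter, Fintype.mem_piFinset] at hm
    have hsub : (Fintype.piFinset (fun _ : ι => P)).filter (fun n => ∏ i, n i = c) ⊆
        (univ : Finset (Equiv.Perm ι)).image (fun σ : Equiv.Perm ι => (m ∘ σ : ι → ℕ)) := by
      intro n hn
      rw [Finset.mem_filter, Fintype.mem_piFinset] at hn
      obtain ⟨σ, hσ⟩ := exists_perm_of_prod_eq (fun i => hP _ (hn.1 i)) (fun i => hP _ (hm.1 i))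
        (hn.2.trans hm.2.symm)
      exact Finset.mem_image.mpr ⟨σ, Finset.mem_univ _, hσ.symm⟩
    calc _ ≤ ((univ : Finset (Equiv.Perm ι)).image
            (fun σ : Equiv.Perm ι => (m ∘ σ : ι → ℕ))).card := Finset.card_le_card hsub
      _ ≤ (univ : Finset (Equiv.Perm ι)).card := Finset.card_image_le
      _ = (Fintype.card ι)! := by rw [Finset.card_univ, Fintype.card_perm]

/-- for fixed `S, S'`, few tuples have `g ∣ p_S - p_S'`. -/
lemma count_dvd_dif (P : Finset ℕ) (w s g : ℕ)
    (hP : ∀ p ∈ P, p.Prime ∧ p < 2 ^ w ∧ p.Coprime g) (hg : 2 ^ (w * s) ≤ g)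
    (A : Finset ι × Finset ι) (D : Finset ι) (hD : D ⊆ A.1 \ A.2) (hDs : D.card ≤ s) :
    ((Fintype.piFinset (fun _ : ι => P)).filter (fun p => (g : ℤ) ∣ dif p A)).card
      ≤ (D.card)! * P.card ^ (Fintype.card ι - D.card) := by
  classical
  set X := (Fintype.piFinset (fun _ : ι => P)).filter (fun p => (g : ℤ) ∣ dif p A) with hX
  set ρ : (ι → ℕ) → ({i // i ∉ D} → ℕ) := fun p i => p i with hρ
  have himg : X.image ρ ⊆ Fintype.piFinset (fun _ : {i // i ∉ D} => P) := by
    intro a ha
    obtain ⟨p, hp, rfl⟩ := Finset.mem_image.mp ha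
    rw [hX, Finset.mem_filter, Fintype.mem_piFinset] at hp
    rw [Fintype.mem_piFinset]
    exact fun i => hp.1 i
  have hcardimg : (X.image ρ).card ≤ P.card ^ (Fintype.card ι - D.card) := by
    refine (Finset.card_le_card himg).trans ?_
    rw [Fintype.card_piFinset, Finset.prod_const, Finset.card_univ]
    refine le_of_eq ?_
    congr 1
    rw [Fintype.card_subtype_compl]
    simp
  have hfib : ∀ a ∈ X.image ρ, (X.filter (fun p => ρ p = a)).card ≤ (D.card)! := by
    intro a ha
    obtain ⟨p0, hp0, rfl⟩ := Finset.mem_image.mp ha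
    rw [hX, Finset.mem_filter, Fintype.mem_piFinset] at hp0
    set τ : (ι → ℕ) → ({i // i ∈ D} → ℕ) := fun p i => p i with hτ
    set c := ∏ i : {i // i ∈ D}, p0 i with hc
    have hmaps : ∀ p ∈ X.filter (fun p => ρ p = ρ p0),
        τ p ∈ (Fintype.piFinset (fun _ : {i // i ∈ D} => P)).filter (fun n => ∏ i, n i = c) := by
      intro p hp
      rw [Finset.mem_filter, hX, Finset.mem_filter, Fintype.mem_piFinset] at hp
      obtain ⟨⟨hpP, hdvd⟩, hρp⟩ := hp
      rw [Finset.mem_filter, Fintype.mem_piFinset]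
      refine ⟨fun i => hpP i, ?_⟩
      have hoff : ∀ i, i ∉ D → p i = p0 i := fun i hi => congrFun hρp ⟨i, hi⟩
      have hsplit : ∀ q : ι → ℕ, ∏ i ∈ A.1, q i = (∏ i ∈ D, q i) * ∏ i ∈ A.1 \ D, q i := by
        intro q
        rw [mul_comm, Finset.prod_sdiff (hD.trans Finset.sdiff_subset)]
      have hU : ∏ i ∈ A.1 \ D, p i = ∏ i ∈ A.1 \ D, p0 i :=
        Finset.prod_congr rfl fun i hi => hoff i (Finset.mem_sdiff.mp hi).2
      have hS' : ∏ i ∈ A.2, p i = ∏ i ∈ A.2, p0 i := by
        refine Finset.prod_congr rfl fun i hi => hoff i fun hiD => ?_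
        exact (Finset.mem_sdiff.mp (hD hiD)).2 hi
      set u := ∏ i ∈ A.1 \ D, p0 i with hu
      have hcop : Int.gcd (g : ℤ) (u : ℤ) = 1 := by
        rw [Int.gcd_natCast_natCast]
        refine Nat.Coprime.symm ?_
        rw [hu]
        exact Nat.Coprime.prod_left fun i _ => (hP _ (hp0.1 i)).2.2
      have hd : (g : ℤ) ∣ (u : ℤ) * (((∏ i ∈ D, p i : ℕ) : ℤ) - ((∏ i ∈ D, p0 i : ℕ) : ℤ)) := by
        have h1 := dvd_sub hdvd hp0.2
        have h2 : dif p A - dif p0 A =
            (u : ℤ) * (((∏ i ∈ D, p i : ℕ) : ℤ) - ((∏ i ∈ D, p0 i : ℕ) : ℤ)) := by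
          unfold dif
          rw [hsplit p, hsplit p0, hU, hS', ← hu]
          push_cast
          ring
        rwa [h2] at h1
      have hd2 : (g : ℤ) ∣ ((∏ i ∈ D, p i : ℕ) : ℤ) - ((∏ i ∈ D, p0 i : ℕ) : ℤ) :=
        Int.dvd_of_dvd_mul_right_of_gcd_one hd hcop
      have hlt : ∀ q : ι → ℕ, (∀ i, q i ∈ P) → D.Nonempty → ∏ i ∈ D, q i < g := by
        intro q hq hne
        have h1 : ∏ i ∈ D, q i < ∏ i ∈ D, 2 ^ w := by
          refine Finset.prod_lt_prod_of_nonempty (fun i _ => (hP _ (hq i)).1.pos)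
            (fun i _ => (hP _ (hq i)).2.1) hne
        refine h1.trans_le ?_
        rw [Finset.prod_const, ← pow_mul]
        exact (Nat.pow_le_pow_right (by norm_num) (Nat.mul_le_mul_left w hDs)).trans hg
      have heq : ∏ i ∈ D, p i = ∏ i ∈ D, p0 i := by
        rcases D.eq_empty_or_nonempty with h | hne
        · rw [h]; simp
        · have h1 := hlt p hpP hne
          have h2 := hlt p0 hp0.1 hne
          have h3 := Int.eq_zero_of_abs_lt_dvd hd2 (by
            rw [abs_lt]; constructor <;> omega)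
          omega
      have hconv : ∀ q : ι → ℕ, ∏ i : {i // i ∈ D}, q i = ∏ i ∈ D, q i := fun q =>
        Finset.prod_coe_sort D q
      rw [hc, hconv p0]
      change ∏ i : {i // i ∈ D}, p i = _
      rw [hconv p, heq]
    have hinj : Set.InjOn τ (X.filter (fun p => ρ p = ρ p0) : Finset (ι → ℕ)) := by
      intro p hp q hq hpq
      rw [Finset.mem_coe, Finset.mem_filter] at hp hq
      funext i
      by_cases hi : i ∈ D
      · exact congrFun hpq ⟨i, hi⟩
      · exact (congrFun hp.2 ⟨i, hi⟩).trans (congrFun hq.2 ⟨i, hi⟩).symm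
    calc (X.filter (fun p => ρ p = ρ p0)).card
        ≤ ((Fintype.piFinset (fun _ : {i // i ∈ D} => P)).filter
            (fun n => ∏ i, n i = c)).card := Finset.card_le_card_of_injOn τ hmaps hinj
      _ ≤ (Fintype.card {i // i ∈ D})! := fact_count P (fun p hp => (hP p hp).1) c
      _ = (D.card)! := by simp
  calc X.card ≤ (D.card)! * (X.image ρ).card := Finset.card_le_mul_card_image X _ hfib
    _ ≤ (D.card)! * P.card ^ (Fintype.card ι - D.card) := Nat.mul_le_mul_left _ hcardimg

lemma sum_pow_sdiff (ρ : ℝ) :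
    ∑ A : Finset ι × Finset ι, ρ ^ (A.1 \ A.2).card = (3 + ρ) ^ Fintype.card ι := by
  classical
  rw [Fintype.sum_prod_type_right]
  have h1 : ∀ S' : Finset ι, ∑ S : Finset ι, ρ ^ (S \ S').card =
      2 ^ S'.card * (1 + ρ) ^ (Fintype.card ι - S'.card) := by
    intro S'
    have h2 : ∀ S : Finset ι, ρ ^ (S \ S').card = ∏ i ∈ S, if i ∈ S' then 1 else ρ := by
      intro S
      rw [Finset.prod_ite, Finset.prod_const_one, one_mul, Finset.prod_const]
      congr 2
      ext i
      simp
    simp_rw [h2]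
    have h3 := Finset.prod_one_add (f := fun i => if i ∈ S' then (1 : ℝ) else ρ) univ
    rw [Finset.powerset_univ] at h3
    rw [← h3]
    have h4 : ∀ i, (1 + if i ∈ S' then (1 : ℝ) else ρ) = if i ∈ S' then 2 else 1 + ρ := by
      intro i
      split_ifs <;> norm_num
    simp_rw [h4]
    rw [Finset.prod_ite, Finset.prod_const, Finset.prod_const]
    congr 2
    · congr 1
      ext i; simp
    · rw [Finset.filter_not, Finset.card_sdiff_of_subset (Finset.filter_subset _ _),
        Finset.card_univ]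
      congr 2
      ext i; simp
  simp_rw [h1]
  rw [Fintype.sum_pow_mul_eq_add_pow]
  congr 1
  ring

/-- A2. Average over the tuple of the collision probability. -/
theorem kap_avg (P : Finset ℕ) (w s g : ℕ) (ρ : ℝ)
    (hP : ∀ p ∈ P, p.Prime ∧ p < 2 ^ w ∧ p.Coprime g) (hg : 2 ^ (w * s) ≤ g)
    (hρ0 : 0 ≤ ρ) (hρ : (Fintype.card ι : ℝ) ≤ ρ * P.card) (hρ1 : ρ ≤ 1 / 5) :
    ∑ p ∈ Fintype.piFinset (fun _ : ι => P), kap p g
      ≤ (P.card : ℝ) ^ Fintype.card ι * ((4 / 5) ^ Fintype.card ι + ρ ^ s) := by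
  classical
  set r := Fintype.card ι with hr
  have hcount : ∀ A : Finset ι × Finset ι,
      (((Fintype.piFinset (fun _ : ι => P)).filter (fun p => (g : ℤ) ∣ dif p A)).card : ℝ) ≤
        (P.card : ℝ) ^ r * (ρ ^ (A.1 \ A.2).card + ρ ^ s) := by
    intro A
    obtain ⟨D, hD, hDcard⟩ := Finset.exists_subset_card_eq
      (show min (A.1 \ A.2).card s ≤ (A.1 \ A.2).card from min_le_left _ _)
    have hDs : D.card ≤ s := hDcard ▸ min_le_right _ _
    have h1 := count_dvd_dif P w s g hP hg A D hD hDs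
    have h2 : (((D.card)! * P.card ^ (r - D.card) : ℕ) : ℝ) ≤ (P.card : ℝ) ^ r * ρ ^ D.card := by
      have hDr : D.card ≤ r := Finset.card_le_univ D
      have h3 : (((D.card)! : ℕ) : ℝ) ≤ (ρ * P.card) ^ D.card := by
        have h4 : (((D.card)! : ℕ) : ℝ) ≤ (D.card : ℝ) ^ D.card := by
          exact_mod_cast Nat.factorial_le_pow D.card
        refine h4.trans (pow_le_pow_left₀ (by positivity) (le_trans ?_ hρ) _)
        exact_mod_cast hDr
      push_cast
      calc ((D.card)! : ℝ) * (P.card : ℝ) ^ (r - D.card)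
          ≤ (ρ * P.card) ^ D.card * (P.card : ℝ) ^ (r - D.card) :=
            mul_le_mul_of_nonneg_right h3 (by positivity)
        _ = (P.card : ℝ) ^ r * ρ ^ D.card := by
            rw [mul_pow, mul_assoc, ← pow_add, Nat.add_sub_cancel' hDr]
            ring
    have h3 : ρ ^ D.card ≤ ρ ^ (A.1 \ A.2).card + ρ ^ s := by
      rw [hDcard]
      rcases min_choice (A.1 \ A.2).card s with h | h
      · rw [h]; linarith [pow_nonneg hρ0 s]
      · rw [h]; linarith [pow_nonneg hρ0 (A.1 \ A.2).card]
    calc (((Fintype.piFinset (fun _ : ι => P)).filter (fun p => (g : ℤ) ∣ dif p A)).card : ℝ)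
        ≤ (((D.card)! * P.card ^ (r - D.card) : ℕ) : ℝ) := by exact_mod_cast h1
      _ ≤ (P.card : ℝ) ^ r * ρ ^ D.card := h2
      _ ≤ (P.card : ℝ) ^ r * (ρ ^ (A.1 \ A.2).card + ρ ^ s) :=
          mul_le_mul_of_nonneg_left h3 (by positivity)
  have hswap : ∑ p ∈ Fintype.piFinset (fun _ : ι => P), kap p g =
      (∑ A : Finset ι × Finset ι,
        (((Fintype.piFinset (fun _ : ι => P)).filter (fun p => (g : ℤ) ∣ dif p A)).card : ℝ)) /
          4 ^ r := by
    unfold kap
    rw [← Finset.sum_div]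
    congr 1
    simp_rw [Finset.card_filter]
    push_cast
    exact Finset.sum_comm
  rw [hswap, div_le_iff₀ (by positivity)]
  calc ∑ A : Finset ι × Finset ι,
        (((Fintype.piFinset (fun _ : ι => P)).filter (fun p => (g : ℤ) ∣ dif p A)).card : ℝ)
      ≤ ∑ A : Finset ι × Finset ι, (P.card : ℝ) ^ r * (ρ ^ (A.1 \ A.2).card + ρ ^ s) :=
        Finset.sum_le_sum fun A _ => hcount A
    _ = (P.card : ℝ) ^ r * ((3 + ρ) ^ r + 4 ^ r * ρ ^ s) := by
        rw [← Finset.mul_sum, Finset.sum_add_distrib, sum_pow_sdiff, Finset.sum_const,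
          nsmul_eq_mul, Finset.card_univ, Fintype.card_prod, Fintype.card_finset]
        have h22 : (2 : ℝ) ^ r * 2 ^ r = 4 ^ r := by rw [← mul_pow]; norm_num
        push_cast
        rw [← hr, h22]
    _ ≤ (P.card : ℝ) ^ r * ((4 / 5) ^ r + ρ ^ s) * 4 ^ r := by
        rw [mul_assoc]
        refine mul_le_mul_of_nonneg_left ?_ (by positivity)
        have h1 : (3 + ρ) ^ r ≤ (4 / 5 * 4) ^ r :=
          pow_le_pow_left₀ (by linarith) (by linarith) r
        rw [mul_pow] at h1
        linarith

end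

end Vale.Agent.P012
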