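import Vale.Agent.Lib.P012.ScaleNumeric

/-! Numerical bound for `kapStar`, from the divisor bound. -/

namespace Vale.Agent.P012

open Finset
open scoped Nat

/-- first divisor bound -/
theorem div_num1 (hdb : ∀ n E T : ℕ, 0 < n → n < 2 ^ E → 0 < T →
    n.divisors.card ≤ (E + 1) ^ (2 ^ T) * 2 ^ (E / T)) (E m : ℕ) (hE : 2 ^ 90 ≤ E)
    (hm0 : 0 < m) (hm : m ≤ 2 ^ E) : (m.divisors.card : ℝ) ≤ (2 : ℝ) ^ (0.017 * E : ℝ) := by
  have h1 : m < 2 ^ (E + 1) := lt_of_le_of_lt hm (Nat.pow_lt_pow_right (by norm_num) (by omega))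
  have h2 := hdb m (E + 1) 64 hm0 h1 (by norm_num)
  obtain ⟨j, hj⟩ : ∃ j, j = E / 2 ^ 76 := ⟨_, rfl⟩
  obtain ⟨M, hM⟩ : ∃ M : ℕ, M = 2 ^ 64 := ⟨_, rfl⟩
  rw [← hM] at h2
  have h3 : E + 1 + 1 ≤ 2 ^ (j + 77) := by
    have h4 : j + 1 ≤ 2 ^ j := Nat.succ_le_of_lt Nat.lt_two_pow_self
    have h5 : E + 1 + 1 ≤ (j + 1) * 2 ^ 77 := by
      rw [hj]; omega
    calc E + 1 + 1 ≤ (j + 1) * 2 ^ 77 := h5
      _ ≤ 2 ^ j * 2 ^ 77 := Nat.mul_le_mul_right _ h4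
      _ = 2 ^ (j + 77) := by rw [pow_add]
  have h6 : m.divisors.card ≤ 2 ^ ((j + 77) * M + (E + 1) / 64) := by
    calc m.divisors.card ≤ (E + 1 + 1) ^ M * 2 ^ ((E + 1) / 64) := h2
      _ ≤ (2 ^ (j + 77)) ^ M * 2 ^ ((E + 1) / 64) :=
          Nat.mul_le_mul_right _ (Nat.pow_le_pow_left h3 _)
      _ = 2 ^ ((j + 77) * M + (E + 1) / 64) := by rw [← pow_mul, ← pow_add]
  have h7 : 1000 * ((j + 77) * M + (E + 1) / 64) ≤ 17 * E := by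
    rw [hM]
    omega
  have h8 : (1000 : ℝ) * ((((j + 77) * M + (E + 1) / 64 : ℕ) : ℕ) : ℝ) ≤ 17 * E := by
    exact_mod_cast h7
  calc (m.divisors.card : ℝ) ≤ (2 : ℝ) ^ ((j + 77) * M + (E + 1) / 64) := by exact_mod_cast h6
    _ = (2 : ℝ) ^ ((((j + 77) * M + (E + 1) / 64 : ℕ) : ℕ) : ℝ) := (Real.rpow_natCast _ _).symm
    _ ≤ (2 : ℝ) ^ (0.017 * E : ℝ) := by
        apply Real.rpow_le_rpow_of_exponent_le (by norm_num)
        linarith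

/-- second divisor bound -/
theorem div_num2 (hdb : ∀ n E T : ℕ, 0 < n → n < 2 ^ E → 0 < T →
    n.divisors.card ≤ (E + 1) ^ (2 ^ T) * 2 ^ (E / T)) (k E m : ℕ) (hk : 1000 ≤ k)
    (hE : E ≤ 2 ^ k) (hm0 : 0 < m) (hm : m ≤ 2 ^ E) :
    (m.divisors.card : ℝ) ≤ (2 : ℝ) ^ (21 / 10 * (2 ^ k / k) : ℝ) := by
  have h1 : m < 2 ^ (E + 1) := lt_of_le_of_lt hm (Nat.pow_lt_pow_right (by norm_num) (by omega))
  obtain ⟨h, hh⟩ : ∃ h, h = k / 2 := ⟨_, rfl⟩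
  have hh0 : 500 ≤ h := by omega
  have h2 := hdb m (E + 1) h hm0 h1 (by omega)
  have h3 : E + 1 + 1 ≤ 2 ^ (k + 1) := by
    have h4 : 2 ^ 1 ≤ 2 ^ k := Nat.pow_le_pow_right (by norm_num) (by omega)
    have h5 : 2 ^ (k + 1) = 2 * 2 ^ k := by ring
    omega
  obtain ⟨a, ha⟩ : ∃ a, a = (E + 1) / h := ⟨_, rfl⟩
  rw [← ha] at h2
  have h6 : m.divisors.card ≤ 2 ^ ((k + 1) * 2 ^ h + a) := by
    calc m.divisors.card ≤ (E + 1 + 1) ^ (2 ^ h) * 2 ^ a := h2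
      _ ≤ (2 ^ (k + 1)) ^ (2 ^ h) * 2 ^ a :=
          Nat.mul_le_mul_right _ (Nat.pow_le_pow_left h3 _)
      _ = 2 ^ ((k + 1) * 2 ^ h + a) := by rw [← pow_mul, ← pow_add]
  have hah : a * h ≤ E + 1 := by rw [ha]; exact Nat.div_mul_le_self _ _
  have hk2 : k ≤ 2 * h + 1 := by omega
  -- a * k ≤ 2 (E+1) + a, and 500 a ≤ E + 1
  have hak : a * k ≤ 2 * (E + 1) + a := by
    calc a * k ≤ a * (2 * h + 1) := Nat.mul_le_mul_left _ hk2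
      _ = 2 * (a * h) + a := by ring
      _ ≤ 2 * (E + 1) + a := by omega
  have ha500 : a * 500 ≤ E + 1 := le_trans (Nat.mul_le_mul_left _ hh0) hah
  have hP : 2 ^ k = 2 ^ (k - h) * 2 ^ h := by
    rw [← pow_add]; congr 1; omega
  have hQ : 100 * ((k + 1) * k) ≤ 2 ^ (k - h) := by
    have h7 : h ^ 4 ≤ 2 ^ h := pow_four_le_two_pow h (by omega)
    have h8 : 2 ^ h ≤ 2 ^ (k - h) := Nat.pow_le_pow_right (by norm_num) (by omega)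
    have h9 : (k + 1) * k ≤ (3 * h) * (3 * h) := Nat.mul_le_mul (by omega) (by omega)
    have h10 : 1000 * (h * h) ≤ h ^ 4 := by
      calc 1000 * (h * h) ≤ (h * h) * (h * h) :=
            Nat.mul_le_mul_right _ (le_trans (by norm_num) (Nat.mul_le_mul hh0 hh0))
        _ = h ^ 4 := by ring
    have h11 : (3 * h) * (3 * h) = 9 * (h * h) := by ring
    omega
  have hR : 100 * ((k + 1) * 2 ^ h * k) ≤ 2 ^ k := by
    rw [hP]
    calc 100 * ((k + 1) * 2 ^ h * k) = 100 * ((k + 1) * k) * 2 ^ h := by ring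
      _ ≤ 2 ^ (k - h) * 2 ^ h := Nat.mul_le_mul_right _ hQ
  have hbig : 1000 ≤ 2 ^ k := by
    have h7 : k ^ 4 ≤ 2 ^ k := pow_four_le_two_pow k (by omega)
    have h12 : k ^ 1 ≤ k ^ 4 := Nat.pow_le_pow_right (by omega) (by norm_num)
    rw [pow_one] at h12
    omega
  have h7 : 10 * (((k + 1) * 2 ^ h + a) * k) ≤ 21 * 2 ^ k := by
    have e1 : ((k + 1) * 2 ^ h + a) * k = (k + 1) * 2 ^ h * k + a * k := by ring
    rw [e1]
    omega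
  have hk0R : (0 : ℝ) < k := by exact_mod_cast (show 0 < k by omega)
  have h8 : (10 : ℝ) * ((((k + 1) * 2 ^ h + a : ℕ) : ℝ) * k) ≤ 21 * 2 ^ k := by
    exact_mod_cast h7
  calc (m.divisors.card : ℝ) ≤ (2 : ℝ) ^ ((k + 1) * 2 ^ h + a) := by exact_mod_cast h6
    _ = (2 : ℝ) ^ (((k + 1) * 2 ^ h + a : ℕ) : ℝ) := (Real.rpow_natCast _ _).symm
    _ ≤ (2 : ℝ) ^ (21 / 10 * (2 ^ k / k) : ℝ) := by
        apply Real.rpow_le_rpow_of_exponent_le (by norm_num)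
        have : (21 / 10 * (2 ^ k / k) : ℝ) = (21 / 10 * 2 ^ k) / k := by ring
        rw [this, le_div_iff₀ hk0R]
        linarith

theorem kap_numeric_of (hdb : ∀ n E T : ℕ, 0 < n → n < 2 ^ E → 0 < T →
    n.divisors.card ≤ (E + 1) ^ (2 ^ T) * 2 ^ (E / T)) :
    ∃ k₀ : ℕ, ∀ k ≥ k₀, ∀ E : ℕ, 50000 * k ≤ E → E ≤ 2 ^ k →
    ∀ r₁ t v : ℕ, r₁ = 64 * 2 ^ k / k + 1 → t = E / r₁ + 1 → v = E / (10 * t) →
    ∀ m : ℕ, m ≤ 2 ^ E → 2 ^ (E - E / 200) ≤ m ^ 2 →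
    (∀ g : ℕ, m ≤ 2 ^ (2 * t * v) * g → 2 ^ (1200 * k) ≤ g ∧
      (m.divisors.card : ℝ) * (2 * (2 : ℝ) ^ (-(8 * 2 ^ k / k : ℝ)) + (g : ℝ) ^ (-(1 / 4) : ℝ))
        ≤ (2 : ℝ) ^ (1 - 59 / 10 * (2 ^ k / k) : ℝ) + (2 : ℝ) ^ (-(57 / 1000) * E : ℝ)) := by
  refine ⟨2 ^ 90, fun k hk E hE hE2 r₁ t v hr ht hv m hm hm2 g hg => ?_⟩
  have hk' : 2 ^ 90 ≤ k := hk
  have hk1 : 1000 ≤ k := le_trans (by norm_num) hk'
  obtain ⟨ht1, htk, hF, hv1, hv2, hv3, htE, hrk⟩ := scale_params k E r₁ t v hk1 hE hE2 hr ht hv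
  have hm0 : 0 < m := by
    rcases Nat.eq_zero_or_pos m with h | h
    · rw [h] at hm2
      have : 0 < 2 ^ (E - E / 200) := by positivity
      simp at hm2
    · exact h
  -- g is large
  obtain ⟨w, hw⟩ : ∃ w, w = t * v := ⟨_, rfl⟩
  have hw1 : 10 * w ≤ E := by rw [hw, ← Nat.mul_assoc]; exact hv1
  obtain ⟨a, ha⟩ : ∃ a, a = E - E / 200 - 4 * w := ⟨_, rfl⟩
  have ha1 : 595 * E ≤ 1000 * a := by omega
  have hg2 : 2 ^ a ≤ g ^ 2 := by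
    have h1 : m ^ 2 ≤ (2 ^ (2 * t * v) * g) ^ 2 := Nat.pow_le_pow_left hg 2
    have h2 : (2 ^ (2 * t * v) * g) ^ 2 = 2 ^ (4 * w) * g ^ 2 := by
      rw [mul_pow, ← pow_mul, hw]
      congr 2
      ring
    have h3 : 2 ^ (E - E / 200) = 2 ^ (4 * w) * 2 ^ a := by
      rw [← pow_add]; congr 1; omega
    rw [h2] at h1
    have h4 := le_trans hm2 h1
    rw [h3] at h4
    exact Nat.le_of_mul_le_mul_left h4 (by positivity)
  have hg1 : 2 ^ (1200 * k) ≤ g := by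
    by_contra hcon
    push Not at hcon
    have h1 : g ^ 2 < (2 ^ (1200 * k)) ^ 2 := Nat.pow_lt_pow_left hcon (by norm_num)
    rw [← pow_mul] at h1
    have h2 : 2 ^ (1200 * k * 2) ≤ 2 ^ a := Nat.pow_le_pow_right (by norm_num) (by omega)
    omega
  refine ⟨hg1, ?_⟩
  have hg0 : 0 < g := lt_of_lt_of_le (by positivity) hg1
  have hg0R : (0 : ℝ) < g := by exact_mod_cast hg0
  have hg3 : (g : ℝ) ^ (-(1 / 4) : ℝ) ≤ (2 : ℝ) ^ (-(0.074 * E) : ℝ) := by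
    have h1 : ((2 : ℝ) ^ a) ≤ (g : ℝ) ^ 2 := by exact_mod_cast hg2
    have h2 : (g : ℝ) ^ (-(1 / 4) : ℝ) = ((g : ℝ) ^ 2) ^ (-(1 / 8) : ℝ) := by
      rw [← Real.rpow_natCast, ← Real.rpow_mul hg0R.le]
      norm_num
    have h3 : ((2 : ℝ) ^ a) ^ (-(1 / 8) : ℝ) = (2 : ℝ) ^ (-(a / 8) : ℝ) := by
      rw [← Real.rpow_natCast, ← Real.rpow_mul (by norm_num)]
      congr 1
      ring
    rw [h2]
    calc ((g : ℝ) ^ 2) ^ (-(1 / 8) : ℝ) ≤ ((2 : ℝ) ^ a) ^ (-(1 / 8) : ℝ) :=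
          Real.rpow_le_rpow_of_nonpos (by positivity) h1 (by norm_num)
      _ = (2 : ℝ) ^ (-(a / 8) : ℝ) := h3
      _ ≤ (2 : ℝ) ^ (-(0.074 * E) : ℝ) := by
          apply Real.rpow_le_rpow_of_exponent_le (by norm_num)
          have h4 : (595 : ℝ) * E ≤ 1000 * a := by exact_mod_cast ha1
          linarith
  have hd1 := div_num1 hdb E m (by omega) hm0 hm
  have hd2 := div_num2 hdb k E m hk1 hE2 hm0 hm
  have hd0 : (0 : ℝ) ≤ m.divisors.card := by positivity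
  have hX : (8 * 2 ^ k / k : ℝ) = 8 * (2 ^ k / k) := by ring
  rw [hX, mul_add]
  have hE0 : (0 : ℝ) ≤ E := by positivity
  apply add_le_add
  · calc (m.divisors.card : ℝ) * (2 * (2 : ℝ) ^ (-(8 * (2 ^ k / k)) : ℝ))
        ≤ (2 : ℝ) ^ (21 / 10 * (2 ^ k / k) : ℝ) * (2 * (2 : ℝ) ^ (-(8 * (2 ^ k / k)) : ℝ)) :=
          mul_le_mul_of_nonneg_right hd2 (by positivity)
      _ = (2 : ℝ) ^ (21 / 10 * (2 ^ k / k) + (1 + -(8 * (2 ^ k / k))) : ℝ) := by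
          rw [Real.rpow_add (by norm_num), Real.rpow_add (by norm_num), Real.rpow_one]
      _ = (2 : ℝ) ^ (1 - 59 / 10 * (2 ^ k / k) : ℝ) := by
          congr 1
          ring
  · calc (m.divisors.card : ℝ) * (g : ℝ) ^ (-(1 / 4) : ℝ)
        ≤ (2 : ℝ) ^ (0.017 * E : ℝ) * (2 : ℝ) ^ (-(0.074 * E) : ℝ) :=
          mul_le_mul hd1 hg3 (by positivity) (by positivity)
      _ = (2 : ℝ) ^ (0.017 * E + -(0.074 * E) : ℝ) := by
          rw [Real.rpow_add (by norm_num)]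
      _ ≤ (2 : ℝ) ^ (-(57 / 1000) * E : ℝ) := by
          apply Real.rpow_le_rpow_of_exponent_le (by norm_num)
          linarith

end Vale.Agent.P012
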