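import Mathlib

/-!
# P012, part I: the lower bound `N(b-1,b) ≫ log log b` (Erdos)

If `k` unit fractions have sum `< 1`, the sum is at most `1 - 1 / (2k)^(2^k)`.
-/

namespace Vale.Agent.P012

open Finset

/-- Quantitative gap lemma. If `r = a / d > ∑_{n ∈ s} 1 / n` with `|s| = k`, then the difference is at
least `1 / (G d)^(2^k)`, for every `G ≥ max 2 (2k)`. -/
theorem unit_gap (G : ℕ) (hG : 2 ≤ G) : ∀ k : ℕ, 2 * k ≤ G → ∀ (d : ℕ) (a : ℤ), 0 < d →
    ∀ s : Finset ℕ, s.card = k → (∀ n ∈ s, 0 < n) →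
      ∑ n ∈ s, (1 : ℚ) / n < (a : ℚ) / d →
      1 / ((G : ℚ) * d) ^ (2 ^ k) ≤ (a : ℚ) / d - ∑ n ∈ s, (1 : ℚ) / n := by
  intro k
  induction k with
  | zero =>
    intro _ d a hd s hs _ hlt
    have hs0 : s = ∅ := Finset.card_eq_zero.mp hs
    subst hs0
    simp only [Finset.sum_empty, pow_zero, pow_one, sub_zero] at *
    have hdq : (0 : ℚ) < d := by exact_mod_cast hd
    have hapos : (0 : ℚ) < a := by
      by_contra hcon
      push Not at hcon
      have : (a : ℚ) / d ≤ 0 := div_nonpos_of_nonpos_of_nonneg hcon hdq.le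
      linarith
    have ha1 : (1 : ℚ) ≤ a := by
      have : (0 : ℤ) < a := by exact_mod_cast hapos
      exact_mod_cast this
    have hGq : (1 : ℚ) ≤ G := by
      have : 1 ≤ G := by omega
      exact_mod_cast this
    rw [div_le_div_iff₀ (by positivity) hdq, one_mul]
    calc (d : ℚ) ≤ (G : ℚ) * d := le_mul_of_one_le_left hdq.le hGq
      _ ≤ (a : ℚ) * ((G : ℚ) * d) := le_mul_of_one_le_left (by positivity) ha1
  | succ k ih =>
    intro hkG d a hd s hs hpos hlt
    have hdq : (0 : ℚ) < d := by exact_mod_cast hd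
    have hGq : (2 : ℚ) ≤ G := by exact_mod_cast hG
    have hd1 : (1 : ℚ) ≤ d := by exact_mod_cast hd
    have hGd : (2 : ℚ) ≤ (G : ℚ) * d := by nlinarith
    have hsum0 : (0 : ℚ) ≤ ∑ n ∈ s, (1 : ℚ) / n := Finset.sum_nonneg (fun n _ => by positivity)
    have hapos : (0 : ℚ) < a := by
      by_contra hcon
      push Not at hcon
      have : (a : ℚ) / d ≤ 0 := div_nonpos_of_nonpos_of_nonneg hcon hdq.le
      linarith
    have ha1 : (1 : ℚ) ≤ a := by
      have : (0 : ℤ) < a := by exact_mod_cast hapos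
      exact_mod_cast this
    have hrd : 1 / (d : ℚ) ≤ (a : ℚ) / d := by
      rw [div_le_div_iff_of_pos_right hdq]; exact ha1
    by_cases hcase : ∑ n ∈ s, (1 : ℚ) / n ≤ (a : ℚ) / d / 2
    · -- the difference is at least `r / 2`
      have h1 : (a : ℚ) / d / 2 ≤ (a : ℚ) / d - ∑ n ∈ s, (1 : ℚ) / n := by linarith
      have h2 : 1 / ((G : ℚ) * d) ^ (2 ^ (k + 1)) ≤ 1 / ((G : ℚ) * d) := by
        apply one_div_le_one_div_of_le (by positivity)
        calc (G : ℚ) * d = ((G : ℚ) * d) ^ 1 := (pow_one _).symm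
          _ ≤ ((G : ℚ) * d) ^ (2 ^ (k + 1)) :=
            pow_le_pow_right₀ (by linarith) Nat.one_le_two_pow
      have h3 : 1 / ((G : ℚ) * d) ≤ (a : ℚ) / d / 2 := by
        have : 1 / ((G : ℚ) * d) = 1 / G * (1 / d) := by
          field_simp
        rw [this]
        have hG' : 1 / (G : ℚ) ≤ 1 / 2 := one_div_le_one_div_of_le (by norm_num) hGq
        have hd' : (0 : ℚ) ≤ 1 / d := by positivity
        nlinarith
      linarith
    · push Not at hcase
      have hne : s.Nonempty := by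
        rw [← Finset.card_pos]; omega
      set m := s.min' hne with hm
      have hms : m ∈ s := Finset.min'_mem s hne
      have hmpos : 0 < m := hpos m hms
      have hmq : (0 : ℚ) < m := by exact_mod_cast hmpos
      -- bound on the sum
      have hsumle : ∑ n ∈ s, (1 : ℚ) / n ≤ ((k : ℚ) + 1) / m := by
        have : ∑ n ∈ s, (1 : ℚ) / n ≤ s.card • ((1 : ℚ) / m) := by
          apply Finset.sum_le_card_nsmul
          intro n hn
          apply one_div_le_one_div_of_le hmq
          exact_mod_cast Finset.min'_le s n hn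
        rw [hs, nsmul_eq_mul] at this
        push_cast at this
        calc _ ≤ _ := this
          _ = _ := by ring
      have hmlt : (m : ℚ) ≤ (G : ℚ) * d := by
        have h1 : (a : ℚ) / d / 2 < ((k : ℚ) + 1) / m := lt_of_lt_of_le hcase hsumle
        have h2 : 1 / (d : ℚ) / 2 < ((k : ℚ) + 1) / m := by
          have : 1 / (d : ℚ) / 2 ≤ (a : ℚ) / d / 2 := by linarith
          linarith
        have h3 : (m : ℚ) < 2 * ((k : ℚ) + 1) * d := by
          rw [div_div, div_lt_div_iff₀ (by positivity) hmq] at h2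
          nlinarith
        have h4 : 2 * ((k : ℚ) + 1) ≤ G := by
          have : 2 * (k + 1) ≤ G := hkG
          exact_mod_cast this
        nlinarith
      -- pass to the smaller set
      have hcard : (s.erase m).card = k := by
        rw [Finset.card_erase_of_mem hms, hs]; rfl
      have hsum : ∑ n ∈ s, (1 : ℚ) / n = (1 : ℚ) / m + ∑ n ∈ s.erase m, (1 : ℚ) / n :=
        (Finset.add_sum_erase s (fun n : ℕ => (1 : ℚ) / n) hms).symm
      have hfrac : ((a * m - d : ℤ) : ℚ) / ((d * m : ℕ) : ℚ) = (a : ℚ) / d - 1 / m := by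
        push_cast
        field_simp
      have hlt' : ∑ n ∈ s.erase m, (1 : ℚ) / n < ((a * m - d : ℤ) : ℚ) / ((d * m : ℕ) : ℚ) := by
        rw [hfrac]; linarith
      have hih := ih (by omega) (d * m) (a * m - d) (Nat.mul_pos hd hmpos) (s.erase m) hcard
        (fun n hn => hpos n (Finset.mem_of_mem_erase hn)) hlt'
      rw [hfrac] at hih
      have hfin : 1 / ((G : ℚ) * d) ^ (2 ^ (k + 1)) ≤ 1 / ((G : ℚ) * ((d * m : ℕ) : ℚ)) ^ (2 ^ k) := by
        apply one_div_le_one_div_of_le
        · have : (0 : ℚ) < ((d * m : ℕ) : ℚ) := by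
            exact_mod_cast Nat.mul_pos hd hmpos
          positivity
        · rw [pow_succ 2 k, mul_comm (2 ^ k) 2, pow_mul]
          apply pow_le_pow_left₀ (by positivity)
          push_cast
          nlinarith [mul_le_mul_of_nonneg_left hmlt (by positivity : (0 : ℚ) ≤ (G : ℚ) * d)]
      calc _ ≤ _ := hfin
        _ ≤ _ := hih
        _ = _ := by rw [hsum]; ring

/-- I1. `(b-1)/b` needs `≫ log log b` unit fractions. -/
theorem lower_bound : ∃ (c : ℝ) (b₀ : ℕ), 0 < c ∧ ∀ b ≥ b₀, ∀ s : Finset ℕ, (∀ n ∈ s, 2 ≤ n) →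
    ((b - 1 : ℕ) : ℚ) / b = ∑ n ∈ s, (1 : ℚ) / n → c * Real.log (Real.log b) ≤ (s.card : ℝ) := by
  refine ⟨1 / 3, 3, by norm_num, ?_⟩
  intro b hb s hs hsum
  have hbq : (3 : ℚ) ≤ b := by exact_mod_cast hb
  have hb1 : ((b - 1 : ℕ) : ℚ) = (b : ℚ) - 1 := by
    rw [Nat.cast_sub (by omega)]; simp
  rw [hb1] at hsum
  -- `s` is nonempty
  have hk : 1 ≤ s.card := by
    rw [Nat.one_le_iff_ne_zero]
    intro h0
    have : s = ∅ := Finset.card_eq_zero.mp h0
    subst this
    simp only [Finset.sum_empty] at hsum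
    have hbne : (b : ℚ) ≠ 0 := by linarith
    rw [div_eq_zero_iff] at hsum
    rcases hsum with h | h
    · linarith
    · exact hbne h
  set k := s.card with hkdef
  have hlt : ∑ n ∈ s, (1 : ℚ) / n < ((1 : ℤ) : ℚ) / ((1 : ℕ) : ℚ) := by
    rw [← hsum]
    push_cast
    rw [div_one, div_lt_one (by linarith)]
    linarith
  have hgap := unit_gap (2 * k) (by omega) k le_rfl 1 1 one_pos s hkdef.symm
    (fun n hn => by have := hs n hn; omega) hlt
  rw [← hsum] at hgap
  have hle : (b : ℚ) ≤ ((2 * k : ℕ) : ℚ) ^ (2 ^ k) := by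
    have h1 : ((1 : ℤ) : ℚ) / ((1 : ℕ) : ℚ) - ((b : ℚ) - 1) / b = 1 / b := by
      have hbne : (b : ℚ) ≠ 0 := by linarith
      push_cast
      field_simp
      ring
    rw [h1, Nat.cast_one, mul_one] at hgap
    have hpos : (0 : ℚ) < ((2 * k : ℕ) : ℚ) ^ (2 ^ k) := by
      have : (0 : ℚ) < ((2 * k : ℕ) : ℚ) := by
        have : 0 < 2 * k := by omega
        exact_mod_cast this
      positivity
    exact (one_div_le_one_div hpos (by linarith)).mp hgap
  have hleR : (b : ℝ) ≤ ((2 * k : ℕ) : ℝ) ^ (2 ^ k) := by exact_mod_cast hle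
  have hbR : (3 : ℝ) ≤ b := by exact_mod_cast hb
  have hkR : (1 : ℝ) ≤ (k : ℝ) := by exact_mod_cast hk
  have h2k : (2 : ℝ) ≤ ((2 * k : ℕ) : ℝ) := by push_cast; linarith
  -- `log b ≤ 2 ^ k * log (2 k)`
  have hlogb : Real.log b ≤ 2 ^ k * Real.log ((2 * k : ℕ) : ℝ) := by
    have := Real.log_le_log (by linarith) hleR
    rw [Real.log_pow] at this
    push_cast at this ⊢
    exact this
  have hlog2k : 0 < Real.log ((2 * k : ℕ) : ℝ) := Real.log_pos (by linarith)
  have hlogbpos : 0 < Real.log b := Real.log_pos (by linarith)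
  have hll : Real.log (Real.log b) ≤ k * Real.log 2 + Real.log (Real.log ((2 * k : ℕ) : ℝ)) := by
    have h := Real.log_le_log hlogbpos hlogb
    rw [Real.log_mul (by positivity) hlog2k.ne', Real.log_pow] at h
    exact h
  have h1 : Real.log (Real.log ((2 * k : ℕ) : ℝ)) ≤ Real.log ((2 * k : ℕ) : ℝ) - 1 :=
    Real.log_le_sub_one_of_pos hlog2k
  have h2 : Real.log ((2 * k : ℕ) : ℝ) ≤ ((2 * k : ℕ) : ℝ) - 1 :=
    Real.log_le_sub_one_of_pos (by linarith)
  have h3 : Real.log 2 ≤ 1 := by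
    have := Real.log_le_sub_one_of_pos (show (0 : ℝ) < 2 by norm_num)
    linarith
  push_cast at h2 hll h1
  have h4 : (k : ℝ) * Real.log 2 ≤ k := by nlinarith
  linarith

end Vale.Agent.P012
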