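import Vale.Agent.Lib.P012.Defs
import Vale.Agent.Lib.P012.Distinct

/-! H2: from good numbers to the theorem. -/

namespace Vale.Agent.P012

open Finset

/-- reciprocal sum of a multiset -/
def rs (D : Multiset ℕ) : ℚ := (D.map (fun n : ℕ => (1 : ℚ) / n)).sum

theorem rs_zero : rs 0 = 0 := by simp [rs]

theorem rs_cons (n : ℕ) (D : Multiset ℕ) : rs (n ::ₘ D) = 1 / (n : ℚ) + rs D := by
  simp [rs]

theorem rs_add (D E : Multiset ℕ) : rs (D + E) = rs D + rs E := by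
  simp [rs]

theorem closing {G Q K : ℕ} (hG : Good G Q K) (hG0 : 0 < G) {M q : ℕ} (hM : 0 < M)
    (hGM : G ∣ M) (hq : q ≤ Q) :
    ∃ D : Multiset ℕ, (∀ n ∈ D, 0 < n) ∧ Multiset.card D ≤ K ∧ rs D = (q : ℚ) / M := by
  rcases Nat.eq_zero_or_pos q with rfl | hq0
  · exact ⟨0, by simp, by simp, by simp [rs]⟩
  obtain ⟨D, hD0, hDK, hDG, f, hf⟩ := hG q hq0 hq
  have hdpos : ∀ d ∈ D, 0 < d := fun d hd => Nat.pos_of_dvd_of_pos (hDG d hd) hG0
  have hsum : 0 < D.sum := by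
    obtain ⟨d, hd⟩ := Multiset.exists_mem_of_ne_zero hD0
    exact lt_of_lt_of_le (hdpos d hd) (Multiset.le_sum_of_mem hd)
  have hf0 : 0 < f := by
    rcases Nat.eq_zero_or_pos f with rfl | h
    · simp [hf] at hsum
    · exact h
  refine ⟨D.map (fun d => f * (M / d)), ?_, by simpa using hDK, ?_⟩
  · intro n hn
    obtain ⟨d, hd, rfl⟩ := Multiset.mem_map.mp hn
    have hdM : d ∣ M := (hDG d hd).trans hGM
    exact Nat.mul_pos hf0 (Nat.div_pos (Nat.le_of_dvd hM hdM) (hdpos d hd))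
  · unfold rs
    rw [Multiset.map_map]
    have hfQ : (f : ℚ) ≠ 0 := by exact_mod_cast hf0.ne'
    have hMQ : (M : ℚ) ≠ 0 := by exact_mod_cast hM.ne'
    have hqQ : (q : ℚ) ≠ 0 := by exact_mod_cast hq0.ne'
    have h1 : D.map ((fun n : ℕ => (1 : ℚ) / n) ∘ fun d => f * (M / d))
        = D.map (fun d : ℕ => (d : ℚ) * (1 / (f * M))) := by
      apply Multiset.map_congr rfl
      intro d hd
      have hdM : d ∣ M := (hDG d hd).trans hGM
      have hdQ : (d : ℚ) ≠ 0 := by exact_mod_cast (hdpos d hd).ne'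
      simp only [Function.comp]
      rw [Nat.cast_mul, Nat.cast_div hdM hdQ]
      field_simp
    rw [h1, Multiset.sum_map_mul_right]
    have h2 : (D.map (fun d : ℕ => (d : ℚ))).sum = (D.sum : ℚ) := by
      rw [Nat.cast_multiset_sum]
    rw [h2, hf]
    push_cast
    field_simp

theorem chain {G Q K b : ℕ} (hG : Good G Q K) (hG0 : 0 < G) (hb : 0 < b) :
    ∀ (Ms : List ℕ) (P r : ℕ), (∀ M ∈ Ms, 0 < M ∧ M ≤ Q) → 0 < P → G ∣ P → r < b →
      ∃ (D : Multiset ℕ) (r' : ℕ), (∀ n ∈ D, 0 < n) ∧ Multiset.card D ≤ Ms.length * K ∧ r' < b ∧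
        (r : ℚ) / (b * P) = rs D + r' / (b * (P * Ms.prod : ℕ)) := by
  intro Ms
  induction Ms with
  | nil =>
    intro P r _ hP hGP hr
    exact ⟨0, r, by simp, by simp, hr, by simp [rs]⟩
  | cons M Ms ih =>
    intro P r hMs hP hGP hr
    have hM := hMs M (by simp)
    set n := r * M / b with hn
    set r1 := r * M % b with hr1
    have hnM : n < M := by
      rw [hn, Nat.div_lt_iff_lt_mul hb]
      rw [mul_comm M b]
      exact Nat.mul_lt_mul_of_pos_right hr hM.1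
    have hPM : 0 < P * M := Nat.mul_pos hP hM.1
    obtain ⟨D1, hD1a, hD1b, hD1c⟩ := closing hG hG0 hPM (hGP.mul_right M)
      (q := n) (by omega)
    obtain ⟨D2, r', hD2a, hD2b, hr', hD2c⟩ := ih (P * M) r1
      (fun M' hM' => hMs M' (by simp [hM'])) hPM (hGP.mul_right M) (Nat.mod_lt _ hb)
    refine ⟨D1 + D2, r', ?_, ?_, hr', ?_⟩
    · intro m hm
      rcases Multiset.mem_add.mp hm with h | h
      · exact hD1a m h
      · exact hD2a m h
    · rw [Multiset.card_add, List.length_cons]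
      nlinarith
    · rw [rs_add, hD1c, List.prod_cons, ← mul_assoc P M, add_assoc, ← hD2c]
      have hdm : (b : ℚ) * n + r1 = r * M := by
        have := Nat.div_add_mod (r * M) b
        exact_mod_cast this
      have hbQ : (b : ℚ) ≠ 0 := by exact_mod_cast hb.ne'
      have hPQ : (P : ℚ) ≠ 0 := by exact_mod_cast hP.ne'
      have hMQ : (M : ℚ) ≠ 0 := by exact_mod_cast hM.1.ne'
      push_cast
      field_simp
      linarith

theorem factor_groups (R : ℕ) (hR : 1 ≤ R) : ∀ n : ℕ, 0 < n →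
    (∀ l : ℕ, l.Prime → l ∣ n → l ≤ R) →
    ∃ (h : ℕ) (T : List ℕ), 0 < h ∧ h ≤ R ^ 2 ∧ (∀ M ∈ T, R ≤ M ∧ M ≤ R ^ 2) ∧
      h * T.prod = n := by
  intro n
  induction n using induction_on_primes with
  | zero => intro h; exact absurd h (lt_irrefl _)
  | one =>
    intro _ _
    exact ⟨1, [], one_pos, Nat.one_le_pow _ _ hR, by simp, by simp⟩
  | prime_mul p a hp ih =>
    intro hpa hl
    have ha : 0 < a := Nat.pos_of_mul_pos_left hpa |> fun h => by
      rcases Nat.eq_zero_or_pos a with h0 | h0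
      · simp [h0] at hpa
      · exact h0
    obtain ⟨h, T, hh0, hhR, hT, hprod⟩ := ih ha (fun l hl1 hl2 => hl l hl1 (hl2.mul_left p))
    have hpR : p ≤ R := hl p hp (dvd_mul_right p a)
    by_cases hc : h * p ≤ R ^ 2
    · exact ⟨h * p, T, Nat.mul_pos hh0 hp.pos, hc, hT, by rw [← hprod]; ring⟩
    · have hRh : R ≤ h := by
        by_contra hlt
        apply hc
        rw [pow_two]
        exact Nat.mul_le_mul (by omega) hpR
      refine ⟨p, h :: T, hp.pos, ?_, ?_, ?_⟩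
      · calc p ≤ R := hpR
          _ ≤ R ^ 2 := Nat.le_self_pow (by norm_num) R
      · intro M hM
        rcases List.mem_cons.mp hM with rfl | hM
        · exact ⟨hRh, hhR⟩
        · exact hT M hM
      · rw [List.prod_cons, ← hprod]

theorem pow_length_le (R : ℕ) (T : List ℕ) (hT : ∀ M ∈ T, R ≤ M) : R ^ T.length ≤ T.prod := by
  induction T with
  | nil => simp
  | cons M T ih =>
    rw [List.length_cons, List.prod_cons, pow_succ, mul_comm]
    exact Nat.mul_le_mul (hT M (by simp)) (ih (fun M' hM' => hT M' (by simp [hM'])))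

/-- one greedy step -/
theorem greedy_step (t a b : ℕ) (ht : 1 ≤ t) (ha : 0 < a) (hab : t * a < b) :
    ∃ e a' : ℕ, 2 ≤ e ∧ e ≤ b ∧ a' < a ∧ t * (t + 1) * a' < b * e ∧
      (a : ℚ) / b = 1 / e + a' / (b * e : ℕ) := by
  set e := (b + a - 1) / a with he
  have hb : 0 < b := lt_of_le_of_lt (Nat.zero_le _) hab
  have h1 : a * e ≤ b + a - 1 := Nat.mul_div_le _ _
  have h2 : b + a - 1 < a * (e + 1) := Nat.lt_mul_div_succ _ ha
  have h3 : b ≤ a * e := by
    have : a * (e + 1) = a * e + a := by ring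
    omega
  have hte : t + 1 ≤ e := by
    by_contra hcon
    have : e ≤ t := by omega
    have : a * e ≤ a * t := Nat.mul_le_mul_left a this
    rw [mul_comm a t] at this
    omega
  have heb : e ≤ b := by
    rw [he]
    apply Nat.le_of_lt_succ
    rw [Nat.div_lt_iff_lt_mul ha, Nat.succ_mul]
    have : b * 1 ≤ b * a := Nat.mul_le_mul_left b ha
    omega
  obtain ⟨a', ha'⟩ := Nat.exists_eq_add_of_le h3
  have ha'a : a' < a := by omega
  have key : (e - 1) * a' < b := by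
    obtain ⟨e', he'⟩ : ∃ e', e = e' + 1 := ⟨e - 1, by omega⟩
    rw [he', Nat.add_sub_cancel]
    have h5 : a * e' < b := by
      have : a * (e' + 1) = a * e' + a := by ring
      rw [he'] at ha' h1
      omega
    calc e' * a' ≤ e' * a := Nat.mul_le_mul_left _ ha'a.le
      _ = a * e' := mul_comm _ _
      _ < b := h5
  refine ⟨e, a', by omega, heb, ha'a, ?_, ?_⟩
  · have h8 : t * a' ≤ (e - 1) * a' := Nat.mul_le_mul_right _ (by omega)
    have h9 : t * a' < b := lt_of_le_of_lt h8 key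
    have : t * (t + 1) * a' = (t * a') * (t + 1) := by ring
    rw [this]
    calc (t * a') * (t + 1) ≤ (t * a') * e := Nat.mul_le_mul_left _ hte
      _ < b * e := Nat.mul_lt_mul_of_pos_right h9 (by omega)
  · have hbQ : (b : ℚ) ≠ 0 := by exact_mod_cast hb.ne'
    have heQ : (e : ℚ) ≠ 0 := by
      have : 0 < e := by omega
      exact_mod_cast this.ne'
    have haQ : (a : ℚ) * e = b + a' := by exact_mod_cast ha'
    push_cast
    field_simp
    linarith

theorem greedy (B : ℕ) : ∀ (n t a b : ℕ), 1 ≤ t → 0 < a → t * a < b → b < B →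
    B ≤ t ^ (2 ^ n) →
    ∃ (D : Multiset ℕ) (a' b' : ℕ), (∀ d ∈ D, 0 < d) ∧ Multiset.card D ≤ n ∧ a' ≤ a ∧ 0 < b' ∧
      (a : ℚ) / b = rs D + a' / b' ∧ (a' = 0 ∨ (B ≤ b' ∧ b' ≤ B ^ 2)) := by
  intro n
  induction n with
  | zero =>
    intro t a b ht ha hab hbB hB
    exfalso
    simp at hB
    have : t * 1 ≤ t * a := Nat.mul_le_mul_left t ha
    omega
  | succ n ih =>
    intro t a b ht ha hab hbB hB
    obtain ⟨e, a', he2, heb, ha'a, hta', heq⟩ := greedy_step t a b ht ha hab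
    have hb : 0 < b := lt_of_le_of_lt (Nat.zero_le _) hab
    rcases Nat.eq_zero_or_pos a' with h0 | h0
    · subst h0
      refine ⟨{e}, 0, b * e, ?_, by simp, by omega, by positivity, ?_, Or.inl rfl⟩
      · intro d hd
        rw [Multiset.mem_singleton] at hd
        omega
      · rw [heq]
        simp [rs]
    by_cases hBb : B ≤ b * e
    · refine ⟨{e}, a', b * e, ?_, by simp, by omega, by positivity, ?_, Or.inr ⟨hBb, ?_⟩⟩
      · intro d hd
        rw [Multiset.mem_singleton] at hd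
        omega
      · rw [heq]
        simp [rs]
      · rw [pow_two]
        exact Nat.mul_le_mul (by omega) (by omega)
    · have hstep := ih (t * (t + 1)) a' (b * e) (Nat.mul_pos ht (by omega)) h0 hta' (by omega) ?_
      · obtain ⟨D, a2, b2, hD1, hD2, ha2, hb2, heq2, hor⟩ := hstep
        refine ⟨e ::ₘ D, a2, b2, ?_, ?_, by omega, hb2, ?_, hor⟩
        · intro d hd
          rcases Multiset.mem_cons.mp hd with rfl | hd
          · omega
          · exact hD1 d hd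
        · rw [Multiset.card_cons]
          omega
        · rw [heq, heq2, rs_cons]
          ring
      · calc B ≤ t ^ (2 ^ (n + 1)) := hB
          _ = (t ^ 2) ^ (2 ^ n) := by rw [← pow_mul, pow_succ, mul_comm]
          _ ≤ (t * (t + 1)) ^ (2 ^ n) := by
            apply Nat.pow_le_pow_left
            rw [pow_two]
            exact Nat.mul_le_mul_left t (by omega)

theorem greedy_start (n a b : ℕ) (ha : 0 < a) (hab : a < b) (hB : b ^ 2 ≤ 2 ^ (2 ^ n)) :
    ∃ (D : Multiset ℕ) (a' b' : ℕ), (∀ d ∈ D, 0 < d) ∧ Multiset.card D ≤ n + 1 ∧ a' ≤ a ∧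
      0 < b' ∧ (a : ℚ) / b = rs D + a' / b' ∧ (a' = 0 ∨ (b ^ 2 ≤ b' ∧ b' ≤ b ^ 4)) := by
  obtain ⟨e, a', he2, heb, ha'a, hta', heq⟩ := greedy_step 1 a b le_rfl ha (by omega)
  have hb : 0 < b := by omega
  rcases Nat.eq_zero_or_pos a' with h0 | h0
  · subst h0
    refine ⟨{e}, 0, b * e, ?_, by simp, by omega, by positivity, ?_, Or.inl rfl⟩
    · intro d hd
      rw [Multiset.mem_singleton] at hd
      omega
    · rw [heq]
      simp [rs]
  have hbe : b * e ≤ b ^ 2 := by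
    rw [pow_two]
    exact Nat.mul_le_mul_left b heb
  have hb24 : b ^ 2 ≤ b ^ 4 := Nat.pow_le_pow_right hb (by norm_num)
  by_cases hBb : b ^ 2 ≤ b * e
  · refine ⟨{e}, a', b * e, ?_, by simp, by omega, by positivity, ?_, Or.inr ⟨hBb, by omega⟩⟩
    · intro d hd
      rw [Multiset.mem_singleton] at hd
      omega
    · rw [heq]
      simp [rs]
  · obtain ⟨D, a2, b2, hD1, hD2, ha2, hb2, heq2, hor⟩ :=
      greedy (b ^ 2) n 2 a' (b * e) (by norm_num) h0 (by omega) (by omega) hB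
    refine ⟨e ::ₘ D, a2, b2, ?_, ?_, by omega, hb2, ?_, ?_⟩
    · intro d hd
      rcases Multiset.mem_cons.mp hd with rfl | hd
      · omega
      · exact hD1 d hd
    · rw [Multiset.card_cons]
      omega
    · rw [heq, heq2, rs_cons]
      ring
    · rcases hor with h | ⟨h1, h2⟩
      · exact Or.inl h
      · refine Or.inr ⟨h1, ?_⟩
        rw [← pow_mul] at h2
        exact h2

/-- the core combinatorial estimate -/
theorem core (C₀ k₀ : ℕ)
    (hG : ∀ k ≥ k₀, ∃ G : ℕ, 0 < G ∧ G ≤ 2 ^ (C₀ * 2 ^ k) ∧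
      (∀ ℓ : ℕ, ℓ.Prime → ℓ ∣ G → ℓ ^ k ≤ 2 ^ (C₀ * 2 ^ k)) ∧ Good G (2 ^ (2 ^ k)) (C₀ * k))
    (k b a : ℕ) (hk1 : k₀ + (C₀ + 3) + 1 ≤ k) (hk2 : C₀ * 2 ^ (C₀ + 4) ≤ k)
    (hb1 : 2 ^ (2 ^ (k - 1)) < b ^ 4) (hb2 : b ^ 4 ≤ 2 ^ (2 ^ k)) (ha : 1 ≤ a) (hab : a < b) :
    ∃ D : Multiset ℕ, (∀ n ∈ D, 0 < n) ∧ rs D = (a : ℚ) / b ∧
      Multiset.card D ≤ (2 + (C₀ * 2 ^ (C₀ + 4) + 2) * C₀) * k := by
  have hb : 0 < b := by omega
  obtain ⟨D1, a', b', hD1, hD1c, ha'a, hb', heq1, hor⟩ := greedy_start k a b ha hab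
    (le_trans (Nat.pow_le_pow_right hb (by norm_num)) hb2)
  rcases Nat.eq_zero_or_pos a' with h0 | h0
  · subst h0
    refine ⟨D1, hD1, by rw [heq1]; simp, hD1c.trans ?_⟩
    have : k + 1 ≤ 2 * k := by omega
    calc k + 1 ≤ 2 * k := this
      _ ≤ _ := Nat.mul_le_mul_right k (Nat.le_add_right _ _)
  have hor' : b ^ 2 ≤ b' ∧ b' ≤ b ^ 4 := by
    rcases hor with h | h
    · omega
    · exact h
  obtain ⟨k1, hk1'⟩ : ∃ k1, k = k1 + 1 + (C₀ + 3) := ⟨k - 1 - (C₀ + 3), by omega⟩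
  -- the two good numbers
  obtain ⟨G1, hG1p, hG1le, -, hG1⟩ := hG (k1 + 1) (by omega)
  obtain ⟨G2, hG2p, hG2le, hG2l, hG2⟩ := hG k (by omega)
  set R := 2 ^ (2 ^ k1) with hR
  have hR1 : 1 ≤ R := Nat.one_le_two_pow
  have hRQ : R ^ 2 = 2 ^ (2 ^ (k1 + 1)) := by
    rw [hR, ← pow_mul, pow_succ]
  -- G1 < b
  have hG1b : G1 < b := by
    have h1 : G1 ^ 4 ≤ 2 ^ (2 ^ (k - 1)) := by
      calc G1 ^ 4 ≤ (2 ^ (C₀ * 2 ^ (k1 + 1))) ^ 4 := Nat.pow_le_pow_left hG1le 4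
        _ = 2 ^ (C₀ * 2 ^ (k1 + 1) * 4) := by rw [← pow_mul]
        _ ≤ 2 ^ (2 ^ (k - 1)) := by
          apply Nat.pow_le_pow_right (by norm_num)
          have h2 : k - 1 = C₀ + (k1 + 3) := by omega
          rw [h2, pow_add 2 C₀ (k1 + 3)]
          have h3 : C₀ ≤ 2 ^ C₀ := Nat.lt_two_pow_self.le
          have h4 : C₀ * 2 ^ (k1 + 1) * 4 = C₀ * 2 ^ (k1 + 3) := by
            rw [mul_assoc]
            congr 1
            rw [show k1 + 3 = (k1 + 1) + 2 by omega, pow_add 2 (k1 + 1) 2]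
            norm_num
          rw [h4]
          exact Nat.mul_le_mul_right _ h3
    by_contra hcon
    have : b ^ 4 ≤ G1 ^ 4 := Nat.pow_le_pow_left (by omega) 4
    omega
  -- prime factors of G2
  have hprime : ∀ l : ℕ, l.Prime → l ∣ G2 → l ≤ R := by
    intro l hl hld
    by_contra hcon
    have h1 := hG2l l hl hld
    have hk0 : k ≠ 0 := by omega
    have h2 : R ^ k < l ^ k := Nat.pow_lt_pow_left (by omega) hk0
    have h3 : R ^ k = 2 ^ (2 ^ k1 * k) := by rw [hR, ← pow_mul]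
    have h4 : C₀ * 2 ^ k ≤ 2 ^ k1 * k := by
      have h5 : (2 : ℕ) ^ k = 2 ^ (C₀ + 4) * 2 ^ k1 := by
        rw [← pow_add]
        congr 1
        omega
      rw [h5]
      calc C₀ * (2 ^ (C₀ + 4) * 2 ^ k1) = 2 ^ k1 * (C₀ * 2 ^ (C₀ + 4)) := by ring
        _ ≤ 2 ^ k1 * k := Nat.mul_le_mul_left _ hk2
    have h6 : 2 ^ (C₀ * 2 ^ k) ≤ 2 ^ (2 ^ k1 * k) := Nat.pow_le_pow_right (by norm_num) h4
    omega
  obtain ⟨h, T, hh0, hhR, hT, hprod⟩ := factor_groups R hR1 G2 hG2p hprime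
  have hlen : T.length ≤ C₀ * 2 ^ (C₀ + 4) := by
    have h1 : R ^ T.length ≤ T.prod := pow_length_le R T (fun M hM => (hT M hM).1)
    have h2 : T.prod ≤ G2 := by
      rw [← hprod]
      exact Nat.le_mul_of_pos_left _ hh0
    have h3 : 2 ^ (2 ^ k1 * T.length) ≤ 2 ^ (C₀ * 2 ^ k) := by
      calc 2 ^ (2 ^ k1 * T.length) = R ^ T.length := by rw [hR, ← pow_mul]
        _ ≤ 2 ^ (C₀ * 2 ^ k) := h1.trans (h2.trans hG2le)
    have h4 : 2 ^ k1 * T.length ≤ C₀ * 2 ^ k := (Nat.pow_le_pow_iff_right (by norm_num)).mp h3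
    have h5 : (2 : ℕ) ^ k = 2 ^ (C₀ + 4) * 2 ^ k1 := by
      rw [← pow_add]
      congr 1
      omega
    rw [h5] at h4
    have h6 : 2 ^ k1 * T.length ≤ 2 ^ k1 * (C₀ * 2 ^ (C₀ + 4)) := by
      calc 2 ^ k1 * T.length ≤ C₀ * (2 ^ (C₀ + 4) * 2 ^ k1) := h4
        _ = 2 ^ k1 * (C₀ * 2 ^ (C₀ + 4)) := by ring
    exact Nat.le_of_mul_le_mul_left h6 (by positivity)
  -- chain
  have hr : a' * G1 < b' := by
    calc a' * G1 < b * b := Nat.mul_lt_mul'' (by omega) hG1b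
      _ = b ^ 2 := by ring
      _ ≤ b' := hor'.1
  obtain ⟨D2, r', hD2, hD2c, hr', heq2⟩ := chain hG1 hG1p hb' (h :: T) G1 (a' * G1)
    (by
      intro M hM
      rw [← hRQ]
      rcases List.mem_cons.mp hM with rfl | hM
      · exact ⟨hh0, hhR⟩
      · exact ⟨lt_of_lt_of_le hR1 (hT M hM).1, (hT M hM).2⟩)
    hG1p dvd_rfl hr
  rw [List.prod_cons, hprod] at heq2
  -- final closing
  obtain ⟨D3, hD3, hD3c, heq3⟩ := closing hG2 hG2p (M := b' * (G1 * G2)) (q := r')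
    (by positivity) (Dvd.intro_left _ (by ring : b' * G1 * G2 = _))
    (by omega)
  refine ⟨D1 + (D2 + D3), ?_, ?_, ?_⟩
  · intro n hn
    rcases Multiset.mem_add.mp hn with hn | hn
    · exact hD1 n hn
    rcases Multiset.mem_add.mp hn with hn | hn
    · exact hD2 n hn
    · exact hD3 n hn
  · rw [rs_add, rs_add, heq3, heq1]
    have hG1Q : (G1 : ℚ) ≠ 0 := by exact_mod_cast hG1p.ne'
    have hb'Q : (b' : ℚ) ≠ 0 := by exact_mod_cast hb'.ne'
    have h1 : ((a' * G1 : ℕ) : ℚ) / (b' * G1) = a' / b' := by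
      push_cast
      field_simp
    rw [h1] at heq2
    rw [heq2]
    push_cast
    ring
  · rw [Multiset.card_add, Multiset.card_add]
    rw [List.length_cons] at hD2c
    have h1 : (T.length + 1) * (C₀ * (k1 + 1)) ≤ (C₀ * 2 ^ (C₀ + 4) + 1) * (C₀ * k) :=
      Nat.mul_le_mul (by omega) (Nat.mul_le_mul_left _ (by omega))
    have h2 : (2 + (C₀ * 2 ^ (C₀ + 4) + 2) * C₀) * k
        = 2 * k + ((C₀ * 2 ^ (C₀ + 4) + 1) * (C₀ * k) + C₀ * k) := by ring
    rw [h2]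
    have h3 : Multiset.card D1 ≤ 2 * k := by omega
    have h4 := hD2c.trans h1
    omega

/-- H2. From good numbers to the theorem. -/
theorem main_of_good
    (hG : ∃ C₀ k₀ : ℕ, ∀ k ≥ k₀, ∃ G : ℕ, 0 < G ∧ G ≤ 2 ^ (C₀ * 2 ^ k) ∧
      (∀ ℓ : ℕ, ℓ.Prime → ℓ ∣ G → ℓ ^ k ≤ 2 ^ (C₀ * 2 ^ k)) ∧ Good G (2 ^ (2 ^ k)) (C₀ * k)) :
    ∃ (C : ℝ) (b₀ : ℕ), ∀ b ≥ b₀, ∀ a : ℕ, 1 ≤ a → a < b →
      ∃ s : Finset ℕ, (∀ n ∈ s, 2 ≤ n) ∧ (a : ℚ) / b = ∑ n ∈ s, (1 : ℚ) / n ∧
        (s.card : ℝ) ≤ C * Real.log (Real.log b) := by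
  obtain ⟨C₀, k₀, hG⟩ := hG
  set K := 2 + (C₀ * 2 ^ (C₀ + 4) + 2) * C₀ with hK
  set K0 := k₀ + (C₀ + 3) + 1 + C₀ * 2 ^ (C₀ + 4) with hK0
  refine ⟨6 * (K : ℝ), 2 ^ (2 ^ K0), ?_⟩
  intro b hb a ha hab
  have hb1 : 1 < b := by omega
  -- minimal k
  have hex : ∃ k : ℕ, b ^ 4 ≤ 2 ^ (2 ^ k) := by
    refine ⟨b ^ 4, ?_⟩
    have h1 : b ^ 4 < 2 ^ (b ^ 4) := Nat.lt_two_pow_self
    have h2 : 2 ^ (b ^ 4) < 2 ^ (2 ^ (b ^ 4)) := Nat.pow_lt_pow_right (by norm_num) h1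
    omega
  classical
  set k := Nat.find hex with hk
  have hk2 : b ^ 4 ≤ 2 ^ (2 ^ k) := Nat.find_spec hex
  have hkK0 : K0 + 1 ≤ k := by
    by_contra hcon
    have hkK : k ≤ K0 := by omega
    have h1 : 2 ^ (2 ^ k) ≤ b := le_trans (Nat.pow_le_pow_right (by norm_num)
      (Nat.pow_le_pow_right (by norm_num) hkK)) hb
    have h2 : b ^ 1 < b ^ 4 := Nat.pow_lt_pow_right hb1 (by norm_num)
    rw [pow_one] at h2
    exact absurd (h2.trans_le (hk2.trans h1)) (lt_irrefl _)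
  have hk1 : 2 ^ (2 ^ (k - 1)) < b ^ 4 := by
    by_contra hcon
    have := Nat.find_min' hex (m := k - 1) (by omega)
    omega
  obtain ⟨D, hD, hDs, hDc⟩ := core C₀ k₀ hG k b a (by omega) (by omega) hk1 hk2 ha hab
  have hx1 : (a : ℚ) / b < 1 := by
    rw [div_lt_one (by exact_mod_cast (by omega : 0 < b))]
    exact_mod_cast hab
  obtain ⟨s, hs1, hs2, hs3⟩ := distinct_of_multiset ((a : ℚ) / b) hx1 D hD hDs
  refine ⟨s, hs1, hs2.symm, ?_⟩
  -- k ≤ 6 log log b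
  have hlog2 : 0.6931471803 < Real.log 2 := Real.log_two_gt_d9
  have hbR : (1 : ℝ) < b := by exact_mod_cast hb1
  have hlogb : 11 < Real.log b := by
    have h1 : (2 : ℝ) ^ 16 ≤ b := by
      have h2 : 2 ^ 16 ≤ b := by
        calc 2 ^ 16 = 2 ^ (2 ^ 4) := by norm_num
          _ ≤ 2 ^ (2 ^ K0) := Nat.pow_le_pow_right (by norm_num)
              (Nat.pow_le_pow_right (by norm_num) (by omega))
          _ ≤ b := hb
      exact_mod_cast h2
    have h3 : Real.log ((2 : ℝ) ^ 16) ≤ Real.log b := Real.log_le_log (by positivity) h1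
    rw [Real.log_pow] at h3
    push_cast at h3
    linarith
  have hy1 : 1 ≤ Real.log (Real.log b) := by
    rw [Real.le_log_iff_exp_le (by linarith)]
    have := Real.exp_one_lt_d9
    linarith
  have hkR : (k : ℝ) ≤ 6 * Real.log (Real.log b) := by
    have h1 : ((2 : ℝ) ^ (2 ^ (k - 1))) < (b : ℝ) ^ 4 := by exact_mod_cast hk1
    have h2 := Real.log_lt_log (by positivity) h1
    rw [Real.log_pow, Real.log_pow] at h2
    push_cast at h2
    have h3 : (2 : ℝ) ^ (k - 1) < 8 * Real.log b := by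
      by_contra hcon
      push Not at hcon
      nlinarith
    have h4 := Real.log_lt_log (by positivity) h3
    rw [Real.log_pow, Real.log_mul (by norm_num) (by linarith)] at h4
    have h5 : Real.log 8 = 3 * Real.log 2 := by
      rw [show (8 : ℝ) = 2 ^ 3 by norm_num, Real.log_pow]
      norm_num
    rw [h5] at h4
    have h6 : ((k - 1 : ℕ) : ℝ) = (k : ℝ) - 1 := by
      rw [Nat.cast_sub (by omega)]
      norm_num
    rw [h6] at h4
    by_contra hcon
    push Not at hcon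
    nlinarith
  calc (s.card : ℝ) ≤ (Multiset.card D : ℝ) := by exact_mod_cast hs3
    _ ≤ (K * k : ℕ) := by exact_mod_cast hDc
    _ = (K : ℝ) * k := by push_cast; ring
    _ ≤ (K : ℝ) * (6 * Real.log (Real.log b)) := by
      apply mul_le_mul_of_nonneg_left hkR (by positivity)
    _ = 6 * (K : ℝ) * Real.log (Real.log b) := by ring

end Vale.Agent.P012
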