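import Vale.Agent.Lib.P012.Defs
import Vale.Agent.Lib.P012.KapAvg

/-! A4: random multiplier. -/

namespace Vale.Agent.P012

open Finset
open scoped Nat

/-- A4 with A1 as a hypothesis. -/
theorem N_avg_of_fact_count (P : Finset ℕ) (w s q h : ℕ) (hP : ∀ p ∈ P, p.Prime ∧ p < 2 ^ w)
    (hfact : ∀ c : ℕ, ((Fintype.piFinset (fun _ : Fin s => P)).filter
      (fun n => ∏ i, n i = c)).card ≤ s !)
    (hq : 2 ^ (w * s) ≤ q) (hcop : h.Coprime q) (Φ : ℕ → ℝ) (hΦ : ∀ u, 0 ≤ Φ u)
    (hper : ∀ u, Φ (u % q) = Φ u) :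
    ∑ n ∈ Fintype.piFinset (fun _ : Fin s => P), Φ (h * ∏ i, n i)
      ≤ s ! * ∑ u ∈ range q, Φ u := by
  classical
  have hq0 : 0 < q := lt_of_lt_of_le (by positivity) hq
  -- fibres are small
  have hfib : ∀ u ∈ range q, ((Fintype.piFinset (fun _ : Fin s => P)).filter
      (fun n => (h * ∏ i, n i) % q = u)).card ≤ s ! := by
    intro u _
    rcases Nat.eq_zero_or_pos s with rfl | hs
    · calc ((Fintype.piFinset (fun _ : Fin 0 => P)).filter
          (fun n => (h * ∏ i, n i) % q = u)).card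
          ≤ (Fintype.piFinset (fun _ : Fin 0 => P)).card := Finset.card_filter_le _ _
        _ ≤ 0 ! := by simp
    · by_cases hex : ((Fintype.piFinset (fun _ : Fin s => P)).filter
          (fun n => (h * ∏ i, n i) % q = u)).Nonempty
      · obtain ⟨n₀, hn₀⟩ := hex
        refine le_trans (Finset.card_le_card ?_) (hfact (∏ i, n₀ i))
        intro n hn
        rw [Finset.mem_filter] at hn hn₀ ⊢
        refine ⟨hn.1, ?_⟩
        have hlt : ∀ n ∈ Fintype.piFinset (fun _ : Fin s => P), ∏ i, n i < q := by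
          intro n hn
          refine lt_of_lt_of_le ?_ hq
          have h1 : ∏ i, n i < ∏ _i : Fin s, 2 ^ w := by
            apply Finset.prod_lt_prod_of_nonempty
            · intro i _
              exact (hP _ (Fintype.mem_piFinset.1 hn i)).1.pos
            · intro i _
              exact (hP _ (Fintype.mem_piFinset.1 hn i)).2
            · exact ⟨⟨0, hs⟩, Finset.mem_univ _⟩
          rwa [Finset.prod_const, Finset.card_univ, Fintype.card_fin, ← pow_mul] at h1
        have hmod : h * ∏ i, n i ≡ h * ∏ i, n₀ i [MOD q] := by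
          unfold Nat.ModEq
          rw [hn.2, hn₀.2]
        have hmod2 : ∏ i, n i ≡ ∏ i, n₀ i [MOD q] :=
          Nat.ModEq.cancel_left_of_coprime (by
            rw [Nat.coprime_comm] at hcop
            exact hcop) hmod
        exact Nat.ModEq.eq_of_lt_of_lt hmod2 (hlt n hn.1) (hlt n₀ hn₀.1)
      · rw [Finset.not_nonempty_iff_eq_empty] at hex
        rw [hex]
        simp
  calc ∑ n ∈ Fintype.piFinset (fun _ : Fin s => P), Φ (h * ∏ i, n i)
      = ∑ n ∈ Fintype.piFinset (fun _ : Fin s => P), Φ ((h * ∏ i, n i) % q) := by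
        apply Finset.sum_congr rfl
        intro n _
        rw [hper]
    _ = ∑ u ∈ range q, ∑ n ∈ (Fintype.piFinset (fun _ : Fin s => P)).filter
          (fun n => (h * ∏ i, n i) % q = u), Φ ((h * ∏ i, n i) % q) := by
        rw [Finset.sum_fiberwise_of_maps_to]
        intro n _
        exact Finset.mem_range.2 (Nat.mod_lt _ hq0)
    _ = ∑ u ∈ range q, (((Fintype.piFinset (fun _ : Fin s => P)).filter
          (fun n => (h * ∏ i, n i) % q = u)).card : ℝ) * Φ u := by
        apply Finset.sum_congr rfl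
        intro u _
        rw [← nsmul_eq_mul, ← Finset.sum_const]
        apply Finset.sum_congr rfl
        intro n hn
        rw [(Finset.mem_filter.1 hn).2]
    _ ≤ ∑ u ∈ range q, (s ! : ℝ) * Φ u := by
        apply Finset.sum_le_sum
        intro u hu
        apply mul_le_mul_of_nonneg_right _ (hΦ u)
        exact_mod_cast hfib u hu
    _ = s ! * ∑ u ∈ range q, Φ u := by rw [Finset.mul_sum]

/-- A4. Random multiplier. -/
theorem N_avg (P : Finset ℕ) (w s q h : ℕ) (hP : ∀ p ∈ P, p.Prime ∧ p < 2 ^ w)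
    (hq : 2 ^ (w * s) ≤ q) (hcop : h.Coprime q) (Φ : ℕ → ℝ) (hΦ : ∀ u, 0 ≤ Φ u)
    (hper : ∀ u, Φ (u % q) = Φ u) :
    ∑ n ∈ Fintype.piFinset (fun _ : Fin s => P), Φ (h * ∏ i, n i)
      ≤ s ! * ∑ u ∈ range q, Φ u := by
  refine N_avg_of_fact_count P w s q h hP (fun c => ?_) hq hcop Φ hΦ hper
  have := fact_count (ι := Fin s) P (fun p hp => (hP p hp).1) c
  rwa [Fintype.card_fin] at this

end Vale.Agent.P012
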