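import Vale.Agent.Lib.P012.Basic

/-! C3 `kapStar_le` and C2 `P_avg` (the latter in the form `P_avg_of_count`, which takes the
conclusion of C1 `P_count` as a hypothesis). -/

namespace Vale.Agent.P012

open Finset
open scoped Nat

section
variable {ι : Type*} [Fintype ι] [DecidableEq ι]

/-- C3. `kapStar` in terms of `kap`. -/
theorem kapStar_le (p : ι → ℕ) (D m : ℕ) (hm : 0 < m) :
    kapStar p D m ≤ ∑ g ∈ m.divisors.filter (fun g => m ≤ D * g), kap p g := by
  unfold kapStar kap
  rw [← Finset.sum_div]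
  apply div_le_div_of_nonneg_right _ (by positivity)
  norm_cast
  calc (univ.filter (fun A : Finset ι × Finset ι => m ≤ D * Int.gcd (dif p A) m)).card
      ≤ ((m.divisors.filter (fun g => m ≤ D * g)).biUnion
          (fun g => univ.filter (fun A : Finset ι × Finset ι => (g : ℤ) ∣ dif p A))).card := by
        apply Finset.card_le_card
        intro A hA
        rw [Finset.mem_filter] at hA
        rw [Finset.mem_biUnion]
        refine ⟨Int.gcd (dif p A) m, ?_, ?_⟩
        · rw [Finset.mem_filter, Nat.mem_divisors]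
          refine ⟨⟨?_, hm.ne'⟩, hA.2⟩
          have := Int.gcd_dvd_right (dif p A) (m : ℤ)
          exact_mod_cast this
        · rw [Finset.mem_filter]
          exact ⟨Finset.mem_univ _, Int.gcd_dvd_left (dif p A) (m : ℤ)⟩
    _ ≤ _ := Finset.card_biUnion_le

omit [DecidableEq ι] in
theorem kapStar_nonneg (p : ι → ℕ) (D m : ℕ) : 0 ≤ kapStar p D m := by
  unfold kapStar
  positivity

theorem conj_e (x : ℝ) : (starRingEnd ℂ) (e x) = e (-x) := by
  unfold e
  rw [← Complex.exp_conj]
  congr 1
  simp only [map_mul, Complex.conj_ofReal, Complex.conj_I]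
  rw [show (starRingEnd ℂ) 2 = 2 from Complex.conj_ofNat 2]
  push_cast
  ring

omit [DecidableEq ι] in
/-- the squared modulus of `fS` as an average of characters. -/
theorem normSq_fS (p : ι → ℕ) (θ : ℝ) :
    ((‖fS p θ‖ ^ 2 : ℝ) : ℂ)
      = (∑ A : Finset ι × Finset ι, e ((dif p A : ℝ) * θ)) / 4 ^ Fintype.card ι := by
  have h1 : ((‖fS p θ‖ ^ 2 : ℝ) : ℂ) = fS p θ * (starRingEnd ℂ) (fS p θ) := by
    rw [Complex.mul_conj, Complex.normSq_eq_norm_sq]
  rw [h1]
  unfold fS
  rw [map_div₀, map_sum, div_mul_div_comm, Finset.sum_mul_sum, ← Finset.sum_product']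
  have h2 : (starRingEnd ℂ) (2 ^ Fintype.card ι) = 2 ^ Fintype.card ι := by
    rw [map_pow]
    congr 1
    exact Complex.conj_ofNat 2
  rw [h2, ← mul_pow]
  congr 1
  · rw [Finset.univ_product_univ]
    apply Finset.sum_congr rfl
    intro A _
    rw [conj_e, ← e_add]
    congr 1
    unfold dif
    push_cast
    ring
  · norm_num

theorem e_nat_mul (u : ℕ) (x : ℝ) : e ((u : ℝ) * x) = e x ^ u := by
  induction u with
  | zero => simp [e_zero]
  | succ u ih =>
    rw [pow_succ, ← ih, ← e_add]
    congr 1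
    push_cast
    ring

theorem e_eq_one_iff (x : ℝ) : e x = 1 ↔ ∃ n : ℤ, x = n := by
  unfold e
  rw [Complex.exp_eq_one_iff]
  constructor
  · rintro ⟨n, hn⟩
    refine ⟨n, ?_⟩
    have h2 : (2 * Real.pi * Complex.I : ℂ) ≠ 0 := by
      have := Real.pi_ne_zero
      simp [this]
    have h3 : (x : ℂ) = (n : ℂ) := by
      apply mul_left_cancel₀ h2
      rw [hn]
      ring
    exact_mod_cast h3
  · rintro ⟨n, rfl⟩
    exact ⟨n, by push_cast; ring⟩

/-- orthogonality. -/
theorem sum_e (q : ℕ) (hq : 0 < q) (N : ℤ) :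
    ∑ u ∈ range q, e ((N : ℝ) * ((u : ℝ) / q)) = if (q : ℤ) ∣ N then (q : ℂ) else 0 := by
  have hqR : (q : ℝ) ≠ 0 := by exact_mod_cast hq.ne'
  have h1 : ∀ u ∈ range q, e ((N : ℝ) * ((u : ℝ) / q)) = e ((N : ℝ) / q) ^ u := by
    intro u _
    rw [← e_nat_mul]
    congr 1
    ring
  rw [Finset.sum_congr rfl h1]
  split_ifs with h
  · obtain ⟨c, rfl⟩ := h
    have : e ((((q : ℤ) * c : ℤ) : ℝ) / q) = 1 := by
      rw [e_eq_one_iff]
      exact ⟨c, by push_cast; field_simp⟩
    rw [this]
    simp
  · have hne : e ((N : ℝ) / q) ≠ 1 := by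
      intro h2
      rw [e_eq_one_iff] at h2
      obtain ⟨n, hn⟩ := h2
      apply h
      refine ⟨n, ?_⟩
      rw [div_eq_iff hqR] at hn
      have : (N : ℝ) = ((q * n : ℤ) : ℝ) := by push_cast; rw [hn]; ring
      exact_mod_cast this
    rw [geom_sum_eq hne]
    have : e ((N : ℝ) / q) ^ q = 1 := by
      rw [← e_nat_mul, e_eq_one_iff]
      exact ⟨N, by field_simp⟩
    rw [this]
    simp

/-- expansion of the product of the squared moduli and orthogonality. -/
theorem sum_prod_normSq (p : ι → ℕ) (n q : ℕ) (hq : 0 < q) (lam : Fin n → ℕ) :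
    ∑ u ∈ range q, ∏ i, ‖fS p ((u : ℝ) * (lam i : ℝ) / q)‖ ^ 2
      = q * ((univ.filter (fun A : Fin n → Finset ι × Finset ι =>
          (q : ℤ) ∣ ∑ i, (lam i : ℤ) * dif p (A i))).card : ℝ) / (4 ^ Fintype.card ι) ^ n := by
  have key : ((∑ u ∈ range q, ∏ i, ‖fS p ((u : ℝ) * (lam i : ℝ) / q)‖ ^ 2 : ℝ) : ℂ)
      = ((q * ((univ.filter (fun A : Fin n → Finset ι × Finset ι =>
          (q : ℤ) ∣ ∑ i, (lam i : ℤ) * dif p (A i))).card : ℝ) / (4 ^ Fintype.card ι) ^ n : ℝ) : ℂ) := by
    rw [Complex.ofReal_sum]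
    have h1 : ∀ u ∈ range q, ((∏ i, ‖fS p ((u : ℝ) * (lam i : ℝ) / q)‖ ^ 2 : ℝ) : ℂ)
        = (∑ A : Fin n → Finset ι × Finset ι,
            e (((∑ i, (lam i : ℤ) * dif p (A i) : ℤ) : ℝ) * ((u : ℝ) / q)))
            / (4 ^ Fintype.card ι) ^ n := by
      intro u _
      rw [Complex.ofReal_prod]
      have h2 : ∀ i ∈ (univ : Finset (Fin n)), ((‖fS p ((u : ℝ) * (lam i : ℝ) / q)‖ ^ 2 : ℝ) : ℂ)
          = (∑ A : Finset ι × Finset ι, e ((dif p A : ℝ) * ((u : ℝ) * (lam i : ℝ) / q)))
            / 4 ^ Fintype.card ι := by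
        intro i _
        exact normSq_fS p _
      rw [Finset.prod_congr rfl h2, Finset.prod_div_distrib, Finset.prod_const, Finset.card_univ,
        Fintype.card_fin, Finset.prod_univ_sum, Fintype.piFinset_univ]
      congr 1
      apply Finset.sum_congr rfl
      intro A _
      have h3 : ∀ s : Finset (Fin n), ∏ i ∈ s, e ((dif p (A i) : ℝ) * ((u : ℝ) * (lam i : ℝ) / q))
          = e (((∑ i ∈ s, (lam i : ℤ) * dif p (A i) : ℤ) : ℝ) * ((u : ℝ) / q)) := by
        intro s
        induction s using Finset.induction_on with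
        | empty => simp [e_zero]
        | insert a s ha ih =>
          rw [Finset.prod_insert ha, Finset.sum_insert ha, ih, ← e_add]
          congr 1
          push_cast
          ring
      exact h3 univ
    rw [Finset.sum_congr rfl h1, ← Finset.sum_div, Finset.sum_comm]
    have h4 : ∀ A ∈ (univ : Finset (Fin n → Finset ι × Finset ι)),
        ∑ u ∈ range q, e (((∑ i, (lam i : ℤ) * dif p (A i) : ℤ) : ℝ) * ((u : ℝ) / q))
          = if (q : ℤ) ∣ ∑ i, (lam i : ℤ) * dif p (A i) then (q : ℂ) else 0 := by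
      intro A _
      exact sum_e q hq _
    rw [Finset.sum_congr rfl h4, ← Finset.sum_filter, Finset.sum_const, nsmul_eq_mul]
    push_cast
    ring
  exact_mod_cast key

/-- number of tuples with at least `k` bad coordinates. -/
theorem card_many_bad {X : Type*} [Fintype X] [DecidableEq X] (bad : X → Prop) [DecidablePred bad]
    (n k : ℕ) :
    (univ.filter (fun A : Fin n → X => k ≤ (univ.filter (fun i => bad (A i))).card)).card
      ≤ n.choose k * (univ.filter bad).card ^ k * Fintype.card X ^ (n - k) := by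
  calc (univ.filter (fun A : Fin n → X => k ≤ (univ.filter (fun i => bad (A i))).card)).card
      ≤ ((powersetCard k (univ : Finset (Fin n))).biUnion
          (fun I => univ.filter (fun A : Fin n → X => ∀ i ∈ I, bad (A i)))).card := by
        apply Finset.card_le_card
        intro A hA
        rw [Finset.mem_filter] at hA
        obtain ⟨I, hI, hIc⟩ := Finset.exists_subset_card_eq hA.2
        rw [Finset.mem_biUnion]
        refine ⟨I, ?_, ?_⟩
        · rw [Finset.mem_powersetCard]
          exact ⟨Finset.subset_univ _, hIc⟩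
        · rw [Finset.mem_filter]
          refine ⟨Finset.mem_univ _, fun i hi => ?_⟩
          exact (Finset.mem_filter.1 (hI hi)).2
    _ ≤ ∑ I ∈ powersetCard k (univ : Finset (Fin n)),
          (univ.filter (fun A : Fin n → X => ∀ i ∈ I, bad (A i))).card := Finset.card_biUnion_le
    _ = ∑ I ∈ powersetCard k (univ : Finset (Fin n)),
          (univ.filter bad).card ^ k * Fintype.card X ^ (n - k) := by
        apply Finset.sum_congr rfl
        intro I hI
        rw [Finset.mem_powersetCard] at hI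
        have h1 : (univ.filter (fun A : Fin n → X => ∀ i ∈ I, bad (A i)))
            = Fintype.piFinset (fun i => if i ∈ I then univ.filter bad else univ) := by
          ext A
          rw [Finset.mem_filter, Fintype.mem_piFinset]
          constructor
          · rintro ⟨_, h⟩ i
            split_ifs with hi
            · rw [Finset.mem_filter]
              exact ⟨Finset.mem_univ _, h i hi⟩
            · exact Finset.mem_univ _
          · intro h
            refine ⟨Finset.mem_univ _, fun i hi => ?_⟩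
            have := h i
            rw [if_pos hi, Finset.mem_filter] at this
            exact this.2
        rw [h1, Fintype.card_piFinset]
        have h2 : ∀ i : Fin n, (if i ∈ I then univ.filter bad else (univ : Finset X)).card
            = if i ∈ I then (univ.filter bad).card else Fintype.card X := by
          intro i
          split_ifs <;> rfl
        simp_rw [h2]
        rw [Finset.prod_ite, Finset.prod_const, Finset.prod_const]
        have h3 : (univ.filter (fun i : Fin n => i ∈ I)) = I := by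
          ext i
          simp
        have h4 : (univ.filter (fun i : Fin n => i ∉ I)).card = n - k := by
          rw [Finset.filter_not, h3, Finset.card_sdiff_of_subset (Finset.subset_univ _), hI.2,
            Finset.card_univ, Fintype.card_fin]
        rw [h3, h4, hI.2]
    _ = _ := by
        rw [Finset.sum_const, Finset.card_powersetCard, Finset.card_univ, Fintype.card_fin,
          smul_eq_mul, mul_assoc]

/-- C2 from C1. Average over `P` of the `L²` mass of the product of the `fS`. Use it as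
`P_avg_of_count p Q t v m q hq hmq (P_count Q t v m hm hQ) κ hκ`. -/
theorem P_avg_of_count (p : ι → ℕ) (Q : Finset ℕ)
    (t v m q : ℕ) (hq : 0 < q) (hmq : m ∣ q)
    (hcount : ∀ z : Fin (4 * t) → ℤ,
      2 * t ≤ (univ.filter (fun i => 2 ^ (2 * t * v) * Int.gcd (z i) m < m)).card →
      ((Fintype.piFinset (fun _ : Fin (4 * t) => Q)).filter
        (fun P => (m : ℤ) ∣ ∑ i, (∏ j ∈ univ.erase i, (P j : ℤ)) * z i)).card
        ≤ t ! * Q.card ^ (3 * t)) (κ : ℝ)
    (hκ : kapStar p (2 ^ (2 * t * v)) m ≤ κ) :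
    ∑ P ∈ Fintype.piFinset (fun _ : Fin (4 * t) => Q), ∑ u ∈ range q,
        ∏ i, ‖fS p ((u : ℝ) * ((∏ j ∈ univ.erase i, P j : ℕ) : ℝ) / q)‖ ^ 2
      ≤ q * (Q.card : ℝ) ^ (4 * t) * (2 ^ (4 * t) * κ ^ (2 * t) + t ! / (Q.card : ℝ) ^ t) := by
  set N : ℕ := 4 ^ Fintype.card ι with hN
  have hNpos : (0 : ℝ) < (N : ℝ) := by rw [hN]; positivity
  have hcardX : Fintype.card (Finset ι × Finset ι) = N := by
    rw [Fintype.card_prod, Fintype.card_finset, ← mul_pow, hN]
    norm_num
  -- the bad pairs
  let bad : Finset ι × Finset ι → Prop := fun A => m ≤ 2 ^ (2 * t * v) * Int.gcd (dif p A) m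
  let B : ℕ := (univ.filter (fun A : Finset ι × Finset ι =>
    m ≤ 2 ^ (2 * t * v) * Int.gcd (dif p A) m)).card
  have hB : (B : ℝ) / N = kapStar p (2 ^ (2 * t * v)) m := by
    unfold kapStar
    rw [hN]
    push_cast
    rfl
  -- for each `P`: the number of tuples of pairs
  have h1 : ∀ P ∈ Fintype.piFinset (fun _ : Fin (4 * t) => Q),
      ∑ u ∈ range q, ∏ i, ‖fS p ((u : ℝ) * ((∏ j ∈ univ.erase i, P j : ℕ) : ℝ) / q)‖ ^ 2
        ≤ q * ((univ.filter (fun A : Fin (4 * t) → Finset ι × Finset ι =>
          (m : ℤ) ∣ ∑ i, (∏ j ∈ univ.erase i, (P j : ℤ)) * dif p (A i))).card : ℝ)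
            / (N : ℝ) ^ (4 * t) := by
    intro P _
    rw [sum_prod_normSq p (4 * t) q hq (fun i => ∏ j ∈ univ.erase i, P j)]
    rw [hN]
    push_cast
    apply div_le_div_of_nonneg_right _ (by positivity)
    apply mul_le_mul_of_nonneg_left _ (by positivity)
    norm_cast
    apply Finset.card_le_card
    intro A hA
    rw [Finset.mem_filter] at hA ⊢
    refine ⟨Finset.mem_univ _, ?_⟩
    refine dvd_trans (by exact_mod_cast hmq) hA.2
  -- double counting
  have h2 : ∑ P ∈ Fintype.piFinset (fun _ : Fin (4 * t) => Q),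
      (univ.filter (fun A : Fin (4 * t) → Finset ι × Finset ι =>
          (m : ℤ) ∣ ∑ i, (∏ j ∈ univ.erase i, (P j : ℤ)) * dif p (A i))).card
      = ∑ A : Fin (4 * t) → Finset ι × Finset ι,
        ((Fintype.piFinset (fun _ : Fin (4 * t) => Q)).filter
      (fun P => (m : ℤ) ∣ ∑ i, (∏ j ∈ univ.erase i, (P j : ℤ)) * dif p (A i))).card := by
    simp_rw [Finset.card_filter]
    rw [Finset.sum_comm]
  have h3 : ∀ A : Fin (4 * t) → Finset ι × Finset ι,
        ((Fintype.piFinset (fun _ : Fin (4 * t) => Q)).filter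
      (fun P => (m : ℤ) ∣ ∑ i, (∏ j ∈ univ.erase i, (P j : ℤ)) * dif p (A i))).card
      ≤ t ! * Q.card ^ (3 * t)
        + if 2 * t ≤ (univ.filter (fun i => bad (A i))).card then Q.card ^ (4 * t) else 0 := by
    intro A
    split_ifs with hA
    · refine le_trans (Finset.card_filter_le _ _) ?_
      rw [Fintype.card_piFinset, Finset.prod_const, Finset.card_univ, Fintype.card_fin]
      exact Nat.le_add_left _ _
    · rw [Nat.add_zero]
      apply hcount (fun i => dif p (A i))
      have h5 : (univ.filter (fun i => bad (A i))).card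
          + (univ.filter (fun i => ¬ bad (A i))).card = 4 * t := by
        rw [Finset.card_filter_add_card_filter_not, Finset.card_univ, Fintype.card_fin]
      have h6 : (univ.filter (fun i : Fin (4 * t) =>
          2 ^ (2 * t * v) * Int.gcd (dif p (A i)) m < m)).card
          = (univ.filter (fun i => ¬ bad (A i))).card := by
        congr 1
        apply Finset.filter_congr
        intro i _
        exact not_le.symm
      rw [h6]
      omega
  have h4 : ∑ P ∈ Fintype.piFinset (fun _ : Fin (4 * t) => Q),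
      (univ.filter (fun A : Fin (4 * t) → Finset ι × Finset ι =>
          (m : ℤ) ∣ ∑ i, (∏ j ∈ univ.erase i, (P j : ℤ)) * dif p (A i))).card
      ≤ N ^ (4 * t) * (t ! * Q.card ^ (3 * t))
        + ((4 * t).choose (2 * t) * B ^ (2 * t) * N ^ (2 * t)) * Q.card ^ (4 * t) := by
    rw [h2]
    refine le_trans (Finset.sum_le_sum (fun A _ => h3 A)) ?_
    rw [Finset.sum_add_distrib, Finset.sum_const, Finset.card_univ, ← Finset.sum_filter,
      Finset.sum_const]
    have hc : Fintype.card (Fin (4 * t) → Finset ι × Finset ι) = N ^ (4 * t) := by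
      rw [Fintype.card_fun, hcardX, Fintype.card_fin]
    rw [hc]
    simp only [smul_eq_mul]
    apply Nat.add_le_add_left
    apply Nat.mul_le_mul_right
    have := card_many_bad bad (4 * t) (2 * t)
    rw [hcardX] at this
    have h7 : 4 * t - 2 * t = 2 * t := by omega
    rw [h7] at this
    exact this
  have h4' : (∑ P ∈ Fintype.piFinset (fun _ : Fin (4 * t) => Q),
      ((univ.filter (fun A : Fin (4 * t) → Finset ι × Finset ι =>
          (m : ℤ) ∣ ∑ i, (∏ j ∈ univ.erase i, (P j : ℤ)) * dif p (A i))).card : ℝ))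
      ≤ (N : ℝ) ^ (4 * t) * (t ! * (Q.card : ℝ) ^ (3 * t))
        + (((4 * t).choose (2 * t) : ℝ) * (B : ℝ) ^ (2 * t) * (N : ℝ) ^ (2 * t))
          * (Q.card : ℝ) ^ (4 * t) := by
    exact_mod_cast h4
  have hbin : ((4 * t).choose (2 * t) : ℝ) ≤ 2 ^ (4 * t) := by
    have : (4 * t).choose (2 * t) ≤ 2 ^ (4 * t) := Nat.choose_le_two_pow _ _
    exact_mod_cast this
  have hk0 : 0 ≤ kapStar p (2 ^ (2 * t * v)) m := kapStar_nonneg _ _ _
  calc ∑ P ∈ Fintype.piFinset (fun _ : Fin (4 * t) => Q), ∑ u ∈ range q,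
        ∏ i, ‖fS p ((u : ℝ) * ((∏ j ∈ univ.erase i, P j : ℕ) : ℝ) / q)‖ ^ 2
      ≤ ∑ P ∈ Fintype.piFinset (fun _ : Fin (4 * t) => Q),
        q * ((univ.filter (fun A : Fin (4 * t) → Finset ι × Finset ι =>
          (m : ℤ) ∣ ∑ i, (∏ j ∈ univ.erase i, (P j : ℤ)) * dif p (A i))).card : ℝ)
            / (N : ℝ) ^ (4 * t) := Finset.sum_le_sum h1
    _ = q / (N : ℝ) ^ (4 * t) * ∑ P ∈ Fintype.piFinset (fun _ : Fin (4 * t) => Q),
        ((univ.filter (fun A : Fin (4 * t) → Finset ι × Finset ι =>
          (m : ℤ) ∣ ∑ i, (∏ j ∈ univ.erase i, (P j : ℤ)) * dif p (A i))).card : ℝ) := by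
        rw [Finset.mul_sum]
        apply Finset.sum_congr rfl
        intro P _
        ring
    _ ≤ q / (N : ℝ) ^ (4 * t) * ((N : ℝ) ^ (4 * t) * (t ! * (Q.card : ℝ) ^ (3 * t))
        + (((4 * t).choose (2 * t) : ℝ) * (B : ℝ) ^ (2 * t) * (N : ℝ) ^ (2 * t))
          * (Q.card : ℝ) ^ (4 * t)) := by
        apply mul_le_mul_of_nonneg_left h4' (by positivity)
    _ = q * (t ! * (Q.card : ℝ) ^ (3 * t)
        + ((4 * t).choose (2 * t) : ℝ) * ((B : ℝ) / N) ^ (2 * t) * (Q.card : ℝ) ^ (4 * t)) := by
        have e1 : (N : ℝ) ^ (4 * t) = (N : ℝ) ^ (2 * t) * (N : ℝ) ^ (2 * t) := by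
          rw [← pow_add]
          congr 1
          omega
        rw [div_pow, e1]
        have e2 : (N : ℝ) ^ (2 * t) ≠ 0 := by positivity
        field_simp
    _ ≤ q * (t ! * (Q.card : ℝ) ^ (3 * t)
        + 2 ^ (4 * t) * κ ^ (2 * t) * (Q.card : ℝ) ^ (4 * t)) := by
        apply mul_le_mul_of_nonneg_left _ (by positivity)
        apply add_le_add_right
        apply mul_le_mul_of_nonneg_right _ (by positivity)
        rw [hB]
        apply mul_le_mul hbin _ (by positivity) (by positivity)
        exact pow_le_pow_left₀ hk0 hκ _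
    _ = q * (Q.card : ℝ) ^ (4 * t) * (2 ^ (4 * t) * κ ^ (2 * t) + t ! / (Q.card : ℝ) ^ t) := by
        have e3 : (Q.card : ℝ) ^ (4 * t) * (t ! / (Q.card : ℝ) ^ t)
            = t ! * (Q.card : ℝ) ^ (3 * t) := by
          rcases Nat.eq_zero_or_pos t with ht | ht
          · subst ht
            simp
          · by_cases hQ0 : (Q.card : ℝ) = 0
            · rw [hQ0, zero_pow (by omega : 4 * t ≠ 0), zero_pow (by omega : 3 * t ≠ 0)]
              simp
            · have : (Q.card : ℝ) ^ (4 * t) = (Q.card : ℝ) ^ (3 * t) * (Q.card : ℝ) ^ t := by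
                rw [← pow_add]
                congr 1
                omega
              rw [this]
              field_simp
        rw [← e3]
        ring

end

end Vale.Agent.P012
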