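import Vale.Agent.Lib.P012.KapAvg

/-! P012, C1: the additive counting lemma. -/

namespace Vale.Agent.P012

open Finset
open scoped Nat

/-- Equal sums of reciprocals of large primes force equal products. -/
lemma prod_eq_of_sum_inv_eq (Q : Finset ℕ) (t : ℕ) (hQ : ∀ p ∈ Q, p.Prime ∧ t < p)
    (P P' : Fin t → ℕ) (hP : ∀ i, P i ∈ Q) (hP' : ∀ i, P' i ∈ Q)
    (h : ∑ i, (1 : ℚ) / P i = ∑ i, (1 : ℚ) / P' i) : ∏ i, P i = ∏ i, P' i := by
  classical
  -- multiplicities
  set a : ℕ → ℕ := fun q => (univ.filter (fun i => P i = q)).card with ha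
  set b : ℕ → ℕ := fun q => (univ.filter (fun i => P' i = q)).card with hb
  have hpos : ∀ q ∈ Q, (q : ℚ) ≠ 0 := fun q hq => by
    exact_mod_cast (hQ q hq).1.ne_zero
  have h1 : ∀ (R : Fin t → ℕ), (∀ i, R i ∈ Q) →
      ∑ i, (1 : ℚ) / R i = ∑ q ∈ Q, ((univ.filter (fun i => R i = q)).card : ℚ) / q := by
    intro R hR
    rw [← sum_fiberwise_of_maps_to (s := univ) (t := Q) (g := R) (fun i _ => hR i)]
    refine sum_congr rfl fun q _ => ?_
    rw [sum_congr rfl (g := fun _ => (1 : ℚ) / q)]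
    · rw [sum_const, nsmul_eq_mul]; ring
    · intro i hi
      rw [(mem_filter.1 hi).2]
  have h2 : ∀ (R : Fin t → ℕ), (∀ i, R i ∈ Q) →
      ∏ i, R i = ∏ q ∈ Q, q ^ (univ.filter (fun i => R i = q)).card := by
    intro R hR
    rw [← prod_fiberwise_of_maps_to (s := univ) (t := Q) (g := R) (fun i _ => hR i)]
    refine prod_congr rfl fun q _ => ?_
    rw [prod_congr rfl (g := fun _ => q)]
    · rw [prod_const]
    · intro i hi
      exact (mem_filter.1 hi).2
  have h3 : ∑ q ∈ Q, ((a q : ℚ) - b q) / q = 0 := by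
    have : ∑ q ∈ Q, ((a q : ℚ) - b q) / q = (∑ q ∈ Q, (a q : ℚ) / q) - ∑ q ∈ Q, (b q : ℚ) / q := by
      rw [← sum_sub_distrib]
      exact sum_congr rfl fun q _ => by ring
    rw [this, ← h1 P hP, ← h1 P' hP', h, sub_self]
  -- clear denominators
  have h4 : ∑ q ∈ Q, ((a q : ℤ) - b q) * ∏ q' ∈ Q.erase q, (q' : ℤ) = 0 := by
    have : ((∑ q ∈ Q, ((a q : ℤ) - b q) * ∏ q' ∈ Q.erase q, (q' : ℤ) : ℤ) : ℚ)
        = (∏ q ∈ Q, (q : ℚ)) * ∑ q ∈ Q, ((a q : ℚ) - b q) / q := by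
      push_cast
      rw [mul_sum]
      refine sum_congr rfl fun q hq => ?_
      rw [← mul_prod_erase Q (fun q => (q : ℚ)) hq]
      have := hpos q hq
      field_simp
    have h5 : ((∑ q ∈ Q, ((a q : ℤ) - b q) * ∏ q' ∈ Q.erase q, (q' : ℤ) : ℤ) : ℚ) = 0 := by
      rw [this, h3, mul_zero]
    exact_mod_cast h5
  have h5 : ∀ p ∈ Q, a p = b p := by
    intro p hp
    have hpp : Prime (p : ℤ) := Nat.prime_iff_prime_int.1 (hQ p hp).1
    rw [← add_sum_erase _ _ hp] at h4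
    have hdvd : (p : ℤ) ∣ ∑ q ∈ Q.erase p, ((a q : ℤ) - b q) * ∏ q' ∈ Q.erase q, (q' : ℤ) := by
      refine dvd_sum fun q hq => ?_
      refine Dvd.dvd.mul_left ?_ _
      refine dvd_prod_of_mem (fun q' : ℕ => (q' : ℤ)) ?_
      rw [mem_erase] at hq ⊢
      exact ⟨fun h => hq.1 h.symm, hp⟩
    have hdvd2 : (p : ℤ) ∣ ((a p : ℤ) - b p) * ∏ q' ∈ Q.erase p, (q' : ℤ) := by
      have : ((a p : ℤ) - b p) * ∏ q' ∈ Q.erase p, (q' : ℤ)
        = -(∑ q ∈ Q.erase p, ((a q : ℤ) - b q) * ∏ q' ∈ Q.erase q, (q' : ℤ)) := by linarith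
      rw [this]
      exact (dvd_neg).2 hdvd
    have hdvd3 : (p : ℤ) ∣ (a p : ℤ) - b p := by
      rcases hpp.dvd_or_dvd hdvd2 with h | h
      · exact h
      · exfalso
        obtain ⟨q, hq, hpq⟩ := (Prime.dvd_finsetProd_iff hpp _).1 h
        rw [mem_erase] at hq
        have h6 : p ∣ q := by exact_mod_cast hpq
        exact hq.1 ((Nat.prime_dvd_prime_iff_eq (hQ p hp).1 (hQ q hq.2).1).1 h6).symm
    have hcarda : a p ≤ t := by
      simpa using card_filter_le (univ : Finset (Fin t)) (fun i => P i = p)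
    have hcardb : b p ≤ t := by
      simpa using card_filter_le (univ : Finset (Fin t)) (fun i => P' i = p)
    have htp := (hQ p hp).2
    have h7 : (a p : ℤ) - b p = 0 := by
      refine Int.eq_zero_of_abs_lt_dvd hdvd3 ?_
      rw [abs_lt]
      constructor <;> omega
    omega
  rw [h2 P hP, h2 P' hP']
  exact prod_congr rfl fun q hq => by rw [show (univ.filter (fun i => P i = q)).card = a q from rfl, h5 q hq]

section fourier

variable {m : ℕ} [NeZero m]

lemma addChar_sum {A : Type*} [AddCommMonoid A] {ι : Type*} (ψ : AddChar A ℂ) (s : Finset ι)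
    (f : ι → A) : ψ (∑ i ∈ s, f i) = ∏ i ∈ s, ψ (f i) := by
  classical
  induction s using Finset.induction_on with
  | empty => simp
  | insert a s ha ih => rw [sum_insert ha, prod_insert ha, AddChar.map_add_eq_mul, ih]

/-- Exponential sum over inverses of primes. -/
noncomputable def phi (Q : Finset ℕ) (m : ℕ) [NeZero m] (x : ZMod m) : ℂ :=
  ∑ p ∈ Q, ZMod.stdAddChar (x * (p : ZMod m)⁻¹)

lemma fourier_count {ι : Type*} [Fintype ι] [DecidableEq ι] (Q : Finset ℕ) (c : ι → ZMod m) :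
    (((Fintype.piFinset (fun _ : ι => Q)).filter
      (fun P => ∑ i, c i * (P i : ZMod m)⁻¹ = 0)).card : ℂ) * m
      = ∑ h : ZMod m, ∏ i, phi Q m (h * c i) := by
  unfold phi
  simp_rw [prod_univ_sum]
  rw [sum_comm, card_filter]
  push_cast
  rw [sum_mul]
  refine sum_congr rfl fun P _ => ?_
  have h1 : ∀ h : ZMod m, ∏ i, (ZMod.stdAddChar (h * c i * (P i : ZMod m)⁻¹) : ℂ)
      = ZMod.stdAddChar (h * ∑ i, c i * (P i : ZMod m)⁻¹) := by
    intro h
    rw [mul_sum, addChar_sum]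
    exact prod_congr rfl fun i _ => by rw [mul_assoc]
  simp_rw [h1]
  rw [AddChar.sum_mulShift _ (ZMod.isPrimitive_stdAddChar m), ZMod.card]
  split_ifs <;> simp

lemma phi_neg (Q : Finset ℕ) (x : ZMod m) : phi Q m (-x) = (starRingEnd ℂ) (phi Q m x) := by
  unfold phi
  rw [map_sum]
  refine sum_congr rfl fun p _ => ?_
  rw [neg_mul, AddChar.map_neg_eq_conj]

lemma norm_phi_le (Q : Finset ℕ) (x : ZMod m) : ‖phi Q m x‖ ≤ Q.card := by
  unfold phi
  refine (norm_sum_le _ _).trans ?_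
  rw [sum_congr rfl (g := fun _ => (1:ℝ))]
  · simp
  · intro p _
    exact AddChar.norm_apply _ _

end fourier

/-- In the good case the moment of `phi` is small. -/
lemma moment_le (Q : Finset ℕ) (t v m : ℕ) [NeZero m] (ht : 0 < t)
    (hQ : ∀ p ∈ Q, p.Prime ∧ t < p ∧ p < 2 ^ v ∧ p.Coprime m) (z : ℤ)
    (hz : 2 ^ (2 * t * v) * Int.gcd z m < m) :
    ∑ h : ZMod m, ‖phi Q m (h * z)‖ ^ (2 * t) ≤ m * (t ! * (Q.card : ℝ) ^ t) := by
  classical
  -- the Fourier identity
  have h1 := fourier_count (m := m) (ι := Fin t ⊕ Fin t) Q (Sum.elim (fun _ => (z : ZMod m)) (fun _ => -(z : ZMod m)))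
  have h2 : ∀ h : ZMod m, ∏ i, phi Q m (h * (Sum.elim (fun _ => (z : ZMod m)) (fun _ => -(z : ZMod m)) : Fin t ⊕ Fin t → ZMod m) i)
      = ((‖phi Q m (h * z)‖ ^ (2 * t) : ℝ) : ℂ) := by
    intro h
    rw [Fintype.prod_sum_type]
    simp only [Sum.elim_inl, Sum.elim_inr, prod_const, card_univ, Fintype.card_fin, mul_neg, phi_neg]
    rw [← mul_pow, Complex.mul_conj, Complex.normSq_eq_norm_sq]
    push_cast
    rw [← pow_mul]
  rw [sum_congr rfl (fun h _ => h2 h)] at h1
  have h3 : ∑ h : ZMod m, ‖phi Q m (h * z)‖ ^ (2 * t) =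
      (((Fintype.piFinset (fun _ : Fin t ⊕ Fin t => Q)).filter
      (fun P => ∑ i, (Sum.elim (fun _ => (z : ZMod m)) (fun _ => -(z : ZMod m)) : Fin t ⊕ Fin t → ZMod m) i * (P i : ZMod m)⁻¹ = 0)).card : ℝ) * m := by
    have : ((∑ h : ZMod m, ‖phi Q m (h * z)‖ ^ (2 * t) : ℝ) : ℂ) = (((((Fintype.piFinset (fun _ : Fin t ⊕ Fin t => Q)).filter
      (fun P => ∑ i, (Sum.elim (fun _ => (z : ZMod m)) (fun _ => -(z : ZMod m)) : Fin t ⊕ Fin t → ZMod m) i * (P i : ZMod m)⁻¹ = 0)).card : ℝ) * m : ℝ) : ℂ) := by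
      push_cast
      rw [h1]
      push_cast
      rfl
    exact_mod_cast this
  rw [h3, mul_comm]
  refine mul_le_mul_of_nonneg_left ?_ (Nat.cast_nonneg m)
  -- counting
  have key : ∀ P : Fin t ⊕ Fin t → ℕ, (∀ i, P i ∈ Q) →
      ∑ i, (Sum.elim (fun _ => (z : ZMod m)) (fun _ => -(z : ZMod m)) : Fin t ⊕ Fin t → ZMod m) i * (P i : ZMod m)⁻¹ = 0 →
      ∏ i, P (Sum.inr i) = ∏ i, P (Sum.inl i) := by
    intro P hP hsum
    symm
    apply prod_eq_of_sum_inv_eq Q t (fun p hp => ⟨(hQ p hp).1, (hQ p hp).2.1⟩)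
      (fun i => P (Sum.inl i)) (fun i => P (Sum.inr i)) (fun i => hP _) (fun i => hP _)
    -- the integer N
    set A : ℕ := ∏ i, P (Sum.inl i) with hA
    set B : ℕ := ∏ i, P (Sum.inr i) with hB
    set N : ℤ := (∑ i, (B : ℤ) * ∏ j ∈ univ.erase i, (P (Sum.inl j) : ℤ))
      - ∑ i, (A : ℤ) * ∏ j ∈ univ.erase i, (P (Sum.inr j) : ℤ) with hN
    have hinv : ∀ i, (P i : ZMod m) * (P i : ZMod m)⁻¹ = 1 := fun i =>
      ZMod.coe_mul_inv_eq_one _ (hQ _ (hP i)).2.2.2
    have hNm : ((z * N : ℤ) : ZMod m) = 0 := by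
      have e1 : ((N : ℤ) : ZMod m) = (A : ZMod m) * B *
          ((∑ i, (P (Sum.inl i) : ZMod m)⁻¹) - ∑ i, (P (Sum.inr i) : ZMod m)⁻¹) := by
        rw [hN]
        push_cast
        rw [mul_sub, mul_sum, mul_sum]
        congr 1
        · refine sum_congr rfl fun i _ => ?_
          rw [hA, ← mul_prod_erase univ (fun j => P (Sum.inl j)) (mem_univ i)]
          push_cast
          have := hinv (Sum.inl i)
          linear_combination (-(B : ZMod m) * ∏ j ∈ univ.erase i, (P (Sum.inl j) : ZMod m)) * this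
        · refine sum_congr rfl fun i _ => ?_
          rw [hB, ← mul_prod_erase univ (fun j => P (Sum.inr j)) (mem_univ i)]
          push_cast
          have := hinv (Sum.inr i)
          linear_combination (-(A : ZMod m) * ∏ j ∈ univ.erase i, (P (Sum.inr j) : ZMod m)) * this
      have e2 : (z : ZMod m) * ((∑ i, (P (Sum.inl i) : ZMod m)⁻¹) - ∑ i, (P (Sum.inr i) : ZMod m)⁻¹) = 0 := by
        rw [Fintype.sum_sum_type] at hsum
        simp only [Sum.elim_inl, Sum.elim_inr] at hsum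
        rw [← mul_sum, ← mul_sum] at hsum
        linear_combination hsum
      push_cast
      rw [e1]
      linear_combination ((A : ZMod m) * B) * e2
    have hdvd : (m : ℤ) ∣ z * N := (ZMod.intCast_zmod_eq_zero_iff_dvd _ m).1 hNm |>.trans (dvd_refl _)
    have hAB : (A : ℤ) * B < 2 ^ (2 * t * v) := by
      have e1 : A < 2 ^ (v * t) := by
        rw [hA, pow_mul]
        calc ∏ i, P (Sum.inl i) < ∏ i : Fin t, 2 ^ v := by
              refine prod_lt_prod_of_nonempty (fun i _ => (hQ _ (hP _)).1.pos) (fun i _ => (hQ _ (hP _)).2.2.1) ?_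
              exact ⟨⟨0, ht⟩, mem_univ _⟩
          _ = (2 ^ v) ^ t := by simp
      have e2 : B < 2 ^ (v * t) := by
        rw [hB, pow_mul]
        calc ∏ i, P (Sum.inr i) < ∏ i : Fin t, 2 ^ v := by
              refine prod_lt_prod_of_nonempty (fun i _ => (hQ _ (hP _)).1.pos) (fun i _ => (hQ _ (hP _)).2.2.1) ?_
              exact ⟨⟨0, ht⟩, mem_univ _⟩
          _ = (2 ^ v) ^ t := by simp
      have e3 : A * B < 2 ^ (2 * t * v) := by
        calc A * B < 2 ^ (v * t) * 2 ^ (v * t) := Nat.mul_lt_mul'' e1 e2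
          _ = 2 ^ (2 * t * v) := by rw [← pow_add]; congr 1; ring
      exact_mod_cast e3
    -- rational form of N
    have hNq : (N : ℚ) = (A : ℚ) * B * ((∑ i, (1:ℚ) / P (Sum.inl i)) - ∑ i, (1:ℚ) / P (Sum.inr i)) := by
      rw [hN]
      push_cast
      rw [mul_sub, mul_sum, mul_sum]
      congr 1
      · refine sum_congr rfl fun i _ => ?_
        rw [hA, ← mul_prod_erase univ (fun j => P (Sum.inl j)) (mem_univ i)]
        push_cast
        have : (P (Sum.inl i) : ℚ) ≠ 0 := by exact_mod_cast (hQ _ (hP _)).1.ne_zero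
        field_simp
      · refine sum_congr rfl fun i _ => ?_
        rw [hB, ← mul_prod_erase univ (fun j => P (Sum.inr j)) (mem_univ i)]
        push_cast
        have : (P (Sum.inr i) : ℚ) ≠ 0 := by exact_mod_cast (hQ _ (hP _)).1.ne_zero
        field_simp
    have hApos : (0:ℚ) < A := by
      rw [hA]; push_cast
      exact prod_pos fun i _ => by exact_mod_cast (hQ _ (hP _)).1.pos
    have hBpos : (0:ℚ) < B := by
      rw [hB]; push_cast
      exact prod_pos fun i _ => by exact_mod_cast (hQ _ (hP _)).1.pos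
    have hsum1 : ∀ g : Fin t → Fin t ⊕ Fin t, 0 ≤ ∑ i, (1:ℚ) / P (g i) ∧ ∑ i, (1:ℚ) / P (g i) ≤ 1 := by
      intro g
      refine ⟨sum_nonneg fun i _ => by positivity, ?_⟩
      calc ∑ i, (1:ℚ) / P (g i) ≤ ∑ i : Fin t, (1:ℚ) / t := by
            refine sum_le_sum fun i _ => ?_
            have h5 : (t:ℚ) ≤ P (g i) := by exact_mod_cast (hQ _ (hP _)).2.1.le
            have h6 : (0:ℚ) < t := by exact_mod_cast ht
            exact one_div_le_one_div_of_le h6 h5
        _ = 1 := by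
            rw [sum_const, card_univ, Fintype.card_fin, nsmul_eq_mul]
            have h6 : (t:ℚ) ≠ 0 := by exact_mod_cast ht.ne'
            field_simp
    have hNabs : |N| ≤ (A : ℤ) * B := by
      have : |(N : ℚ)| ≤ (A : ℚ) * B := by
        rw [hNq, abs_mul, abs_of_pos (mul_pos hApos hBpos)]
        have e1 := hsum1 Sum.inl
        have e2 := hsum1 Sum.inr
        have e3 : |(∑ i, (1:ℚ) / P (Sum.inl i)) - ∑ i, (1:ℚ) / P (Sum.inr i)| ≤ 1 := by
          rw [abs_le]; constructor <;> linarith [e1.1, e1.2, e2.1, e2.2]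
        exact mul_le_of_le_one_right (mul_pos hApos hBpos).le e3
      exact_mod_cast this
    have hN0 : N = 0 := by
      have hgpos : 0 < Int.gcd z m :=
        Int.gcd_pos_of_ne_zero_right _ (by exact_mod_cast NeZero.ne m)
      obtain ⟨z', m', hcop, hz', hm'⟩ := Int.exists_gcd_one hgpos
      set g := Int.gcd z m with hg
      have hg0 : (g : ℤ) ≠ 0 := by exact_mod_cast hgpos.ne'
      have hgp : (0 : ℤ) < g := by exact_mod_cast hgpos
      have e1 : m' ∣ N := by
        have h5 : m' * g ∣ (z' * N) * g := by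
          have : (z' * N) * g = z * N := by rw [hz']; ring
          rw [this, ← hm']
          exact hdvd
        have h6 : m' ∣ z' * N := Int.dvd_of_mul_dvd_mul_right hg0 h5
        have hcop' : IsCoprime m' z' := by
          rw [Int.isCoprime_iff_gcd_eq_one, Int.gcd_comm]
          exact hcop
        exact hcop'.dvd_of_dvd_mul_left h6
      refine Int.eq_zero_of_abs_lt_dvd e1 ?_
      have h7 : (2:ℤ) ^ (2 * t * v) * g < m' * g := by
        rw [← hm']
        exact_mod_cast hz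
      have h8 : (2:ℤ) ^ (2 * t * v) < m' := lt_of_mul_lt_mul_right h7 hgp.le
      linarith
    have : (A : ℚ) * B * ((∑ i, (1:ℚ) / P (Sum.inl i)) - ∑ i, (1:ℚ) / P (Sum.inr i)) = 0 := by
      rw [← hNq, hN0]; simp
    rcases mul_eq_zero.1 this with h | h
    · exact absurd h (mul_pos hApos hBpos).ne'
    · linarith
  have hcard : ((Fintype.piFinset (fun _ : Fin t ⊕ Fin t => Q)).filter
      (fun P => ∑ i, (Sum.elim (fun _ => (z : ZMod m)) (fun _ => -(z : ZMod m)) : Fin t ⊕ Fin t → ZMod m) i * (P i : ZMod m)⁻¹ = 0)).card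
      ≤ ((Fintype.piFinset (fun _ : Fin t => Q)).sigma (fun P1 =>
        (Fintype.piFinset (fun _ : Fin t => Q)).filter (fun P2 => ∏ i, P2 i = ∏ i, P1 i))).card := by
    refine card_le_card_of_injOn (fun P => ⟨fun i => P (Sum.inl i), fun i => P (Sum.inr i)⟩) ?_ ?_
    · intro P hP
      have hP' := mem_filter.1 hP
      have hPQ := Fintype.mem_piFinset.1 hP'.1
      simp only [coe_sigma, Set.mem_sigma_iff, mem_coe, Fintype.mem_piFinset, mem_filter]
      exact ⟨fun i => hPQ _, fun i => hPQ _, key P hPQ hP'.2⟩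
    · intro P _ P' _ h
      simp only [Sigma.mk.injEq] at h
      obtain ⟨h1, h2⟩ := h
      have h2 := eq_of_heq h2
      funext i
      rcases i with i | i
      · exact congrFun h1 i
      · exact congrFun h2 i
  have hcard2 : ((Fintype.piFinset (fun _ : Fin t => Q)).sigma (fun P1 =>
        (Fintype.piFinset (fun _ : Fin t => Q)).filter (fun P2 => ∏ i, P2 i = ∏ i, P1 i))).card
      ≤ t ! * Q.card ^ t := by
    rw [card_sigma]
    calc _ ≤ ∑ P1 ∈ Fintype.piFinset (fun _ : Fin t => Q), t ! := by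
          refine sum_le_sum fun P1 _ => ?_
          have := fact_count (ι := Fin t) Q (fun p hp => (hQ p hp).1) (∏ i, P1 i)
          simpa using this
      _ = t ! * Q.card ^ t := by
          rw [sum_const, smul_eq_mul, Fintype.card_piFinset_const, mul_comm]
  exact_mod_cast hcard.trans hcard2

/-- AM-GM. -/
lemma prod_le_avg {ι : Type*} (I : Finset ι) (n : ℕ) (hn : 0 < n) (hI : I.card = n) (x : ι → ℝ)
    (hx : ∀ i ∈ I, 0 ≤ x i) : ∏ i ∈ I, x i ≤ (n : ℝ)⁻¹ * ∑ i ∈ I, x i ^ n := by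
  have h := Real.geom_mean_le_arith_mean_weighted (s := I) (fun _ => (n : ℝ)⁻¹) (fun i => x i ^ n)
    (fun _ _ => by positivity) (by
      rw [sum_const, hI, nsmul_eq_mul]
      have : (n:ℝ) ≠ 0 := by exact_mod_cast hn.ne'
      field_simp) (fun i hi => pow_nonneg (hx i hi) n)
  rw [mul_sum]
  refine le_trans (le_of_eq ?_) h
  refine prod_congr rfl fun i hi => ?_
  rw [Real.pow_rpow_inv_natCast (hx i hi) hn.ne']

/-- C1. For good `z`, few prime tuples `P` give `m ∣ ∑ (∏_{j≠i} P_j) z_i`. -/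
theorem P_count (Q : Finset ℕ) (t v m : ℕ) (hm : 0 < m)
    (hQ : ∀ p ∈ Q, p.Prime ∧ t < p ∧ p < 2 ^ v ∧ p.Coprime m) (z : Fin (4 * t) → ℤ)
    (hz : 2 * t ≤ (univ.filter (fun i => 2 ^ (2 * t * v) * Int.gcd (z i) m < m)).card) :
    ((Fintype.piFinset (fun _ : Fin (4 * t) => Q)).filter
      (fun P => (m : ℤ) ∣ ∑ i, (∏ j ∈ univ.erase i, (P j : ℤ)) * z i)).card
      ≤ t ! * Q.card ^ (3 * t) := by
  classical
  have : NeZero m := ⟨hm.ne'⟩
  rcases Nat.eq_zero_or_pos t with rfl | ht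
  · refine (card_filter_le _ _).trans ?_
    rw [Fintype.card_piFinset_const]
    simp
  obtain ⟨I, hIsub, hIcard⟩ := exists_subset_card_eq hz
  -- Step 1: pass to the reciprocal sums
  have hsub : ((Fintype.piFinset (fun _ : Fin (4 * t) => Q)).filter
      (fun P => (m : ℤ) ∣ ∑ i, (∏ j ∈ univ.erase i, (P j : ℤ)) * z i)) ⊆
      ((Fintype.piFinset (fun _ : Fin (4 * t) => Q)).filter
      (fun P => ∑ i, (z i : ZMod m) * (P i : ZMod m)⁻¹ = 0)) := by
    intro P hP
    rw [mem_filter] at hP ⊢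
    refine ⟨hP.1, ?_⟩
    have hPQ := Fintype.mem_piFinset.1 hP.1
    have h0 := (ZMod.intCast_zmod_eq_zero_iff_dvd _ m).2 hP.2
    have hinv : ∀ i, (P i : ZMod m) * (P i : ZMod m)⁻¹ = 1 := fun i =>
      ZMod.coe_mul_inv_eq_one _ (hQ _ (hPQ i)).2.2.2
    push_cast at h0
    have h1 : (∏ j, (P j : ZMod m)⁻¹) * ∑ i, (∏ j ∈ univ.erase i, (P j : ZMod m)) * (z i : ZMod m)
        = ∑ i, (z i : ZMod m) * (P i : ZMod m)⁻¹ := by
      rw [mul_sum]
      refine sum_congr rfl fun i _ => ?_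
      rw [← mul_prod_erase univ (fun j => (P j : ZMod m)⁻¹) (mem_univ i)]
      have h2 : (∏ j ∈ univ.erase i, (P j : ZMod m)⁻¹) * ∏ j ∈ univ.erase i, (P j : ZMod m) = 1 := by
        rw [← prod_mul_distrib]
        exact prod_eq_one fun j _ => by rw [mul_comm]; exact hinv j
      linear_combination ((P i : ZMod m)⁻¹ * (z i : ZMod m)) * h2
    rw [← h1, h0, mul_zero]
  refine (card_le_card hsub).trans ?_
  -- Step 2: Fourier
  have h1 := fourier_count (m := m) Q (fun i => (z i : ZMod m))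
  have h2 : ((((Fintype.piFinset (fun _ : Fin (4 * t) => Q)).filter
      (fun P => ∑ i, (z i : ZMod m) * (P i : ZMod m)⁻¹ = 0)).card : ℝ)) * m
      ≤ ∑ h : ZMod m, ∏ i, ‖phi Q m (h * z i)‖ := by
    have h3 := congrArg norm h1
    rw [norm_mul, Complex.norm_natCast, Complex.norm_natCast] at h3
    rw [h3]
    refine (norm_sum_le _ _).trans (sum_le_sum fun h _ => ?_)
    rw [norm_prod]
  have h3 : ∀ h : ZMod m, ∏ i, ‖phi Q m (h * z i)‖
      ≤ (Q.card : ℝ) ^ (2 * t) * (((2 * t : ℕ) : ℝ)⁻¹ * ∑ i ∈ I, ‖phi Q m (h * z i)‖ ^ (2 * t)) := by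
    intro h
    have hcompl : (univ \ I).card = 2 * t := by
      rw [card_sdiff_of_subset (subset_univ I), hIcard, card_univ, Fintype.card_fin]
      omega
    rw [← prod_sdiff (subset_univ I)]
    refine mul_le_mul ?_ (prod_le_avg I (2 * t) (by omega) hIcard _ fun _ _ => norm_nonneg _)
      (prod_nonneg fun _ _ => norm_nonneg _) (by positivity)
    calc ∏ i ∈ univ \ I, ‖phi Q m (h * z i)‖ ≤ ∏ i ∈ univ \ I, (Q.card : ℝ) :=
          prod_le_prod (fun _ _ => norm_nonneg _) (fun i _ => norm_phi_le Q _)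
      _ = _ := by rw [prod_const, hcompl]
  have h4 : ∑ h : ZMod m, ∏ i, ‖phi Q m (h * z i)‖ ≤ (m : ℝ) * (t ! * (Q.card : ℝ) ^ (3 * t)) := by
    calc ∑ h : ZMod m, ∏ i, ‖phi Q m (h * z i)‖
        ≤ ∑ h : ZMod m, (Q.card : ℝ) ^ (2 * t) *
            (((2 * t : ℕ) : ℝ)⁻¹ * ∑ i ∈ I, ‖phi Q m (h * z i)‖ ^ (2 * t)) :=
          sum_le_sum fun h _ => h3 h
      _ = (Q.card : ℝ) ^ (2 * t) * (((2 * t : ℕ) : ℝ)⁻¹ *
            ∑ i ∈ I, ∑ h : ZMod m, ‖phi Q m (h * z i)‖ ^ (2 * t)) := by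
          rw [← mul_sum, ← mul_sum, sum_comm]
      _ ≤ (Q.card : ℝ) ^ (2 * t) * (((2 * t : ℕ) : ℝ)⁻¹ *
            ∑ i ∈ I, (m : ℝ) * (t ! * (Q.card : ℝ) ^ t)) := by
          have : ∑ i ∈ I, ∑ h : ZMod m, ‖phi Q m (h * z i)‖ ^ (2 * t)
              ≤ ∑ i ∈ I, (m : ℝ) * (t ! * (Q.card : ℝ) ^ t) := by
            refine sum_le_sum fun i hi => ?_
            exact moment_le Q t v m ht hQ (z i) (mem_filter.1 (hIsub hi)).2
          gcongr
      _ = _ := by
          rw [sum_const, hIcard, nsmul_eq_mul]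
          have : ((2 * t : ℕ) : ℝ) ≠ 0 := by
            have : 2 * t ≠ 0 := by omega
            exact_mod_cast this
          rw [inv_mul_cancel_left₀ this, show 3 * t = 2 * t + t by ring, pow_add]
          ring
  have hmpos : (0:ℝ) < m := by exact_mod_cast hm
  have h5 : (((Fintype.piFinset (fun _ : Fin (4 * t) => Q)).filter
      (fun P => ∑ i, (z i : ZMod m) * (P i : ZMod m)⁻¹ = 0)).card : ℝ)
      ≤ t ! * (Q.card : ℝ) ^ (3 * t) := by
    have := h2.trans h4
    rw [mul_comm] at this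
    exact le_of_mul_le_mul_left this hmpos
  exact_mod_cast h5

end Vale.Agent.P012
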