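import Vale.Agent.Lib.P012.Defs

/-! D1: selection of `t` independent units. -/

namespace Vale.Agent.P012

open Finset

/-- D1. Selection of `t` independent units. -/
theorem selection {U X : Type*} (Us : Finset U) (hU : Us.Nonempty) (Xs : Finset X)
    (F : U → X → ℝ) (hF : ∀ u x, 0 ≤ F u x) (δ : ℝ) (hδ0 : 0 ≤ δ)
    (hδ : ∀ x ∈ Xs, ∑ u ∈ Us, F u x ≤ δ * Us.card) (t : ℕ) :
    ∃ u : Fin t → U, (∀ i, u i ∈ Us) ∧ ∀ x ∈ Xs, ∏ i, F (u i) x ≤ Xs.card * δ ^ t := by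
  classical
  have hne : (Fintype.piFinset (fun _ : Fin t => Us)).Nonempty := by
    obtain ⟨u, hu⟩ := hU
    exact ⟨fun _ => u, by simp [Fintype.mem_piFinset, hu]⟩
  have hcard : ((Fintype.piFinset (fun _ : Fin t => Us)).card : ℝ) = (Us.card : ℝ) ^ t := by
    rw [Fintype.card_piFinset_const]
    push_cast
    simp
  have hUs0 : (0 : ℝ) < (Us.card : ℝ) := by exact_mod_cast hU.card_pos
  have hsum : ∑ u ∈ Fintype.piFinset (fun _ : Fin t => Us), (∑ x ∈ Xs, ∏ i, F (u i) x)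
      ≤ ∑ _u ∈ Fintype.piFinset (fun _ : Fin t => Us), (Xs.card * δ ^ t : ℝ) := by
    rw [Finset.sum_comm, Finset.sum_const, nsmul_eq_mul, hcard]
    have h1 : ∀ x ∈ Xs, ∑ u ∈ Fintype.piFinset (fun _ : Fin t => Us), ∏ i, F (u i) x
        ≤ (δ * Us.card) ^ t := by
      intro x hx
      rw [Finset.sum_prod_piFinset Us (fun _ j => F j x)]
      rw [Finset.prod_const, Finset.card_univ, Fintype.card_fin]
      exact pow_le_pow_left₀ (Finset.sum_nonneg (fun u _ => hF u x)) (hδ x hx) t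
    calc ∑ x ∈ Xs, ∑ u ∈ Fintype.piFinset (fun _ : Fin t => Us), ∏ i, F (u i) x
        ≤ ∑ x ∈ Xs, (δ * Us.card) ^ t := Finset.sum_le_sum h1
      _ = (Us.card : ℝ) ^ t * (Xs.card * δ ^ t) := by
          rw [Finset.sum_const, nsmul_eq_mul, mul_pow]; ring
  obtain ⟨u, hu, hle⟩ := Finset.exists_le_of_sum_le hne hsum
  refine ⟨u, fun i => (Fintype.mem_piFinset.1 hu) i, fun x hx => ?_⟩
  refine le_trans ?_ hle
  exact Finset.single_le_sum (f := fun x => ∏ i, F (u i) x)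
    (fun y _ => Finset.prod_nonneg (fun i _ => hF (u i) y)) hx

end Vale.Agent.P012
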