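import Vale.Agent.Lib.P012.Basic
import Vale.Agent.Lib.P012.NAvg
import Vale.Agent.Lib.P012.Selection
import Vale.Agent.Lib.P012.PAvg
import Vale.Agent.Lib.P012.PCount

/-! One scale: structural part. -/

namespace Vale.Agent.P012

open Finset
open scoped Nat

section
variable {ι : Type*} [Fintype ι] [DecidableEq ι]

/-- multiplier of the `i`-th term of a unit. -/
def mult {t s : ℕ} (u : (Fin (4 * t) → ℕ) × (Fin s → ℕ)) (i : Fin (4 * t)) : ℕ :=
  (∏ j, u.2 j) * ∏ j ∈ univ.erase i, u.1 j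

/-- squared modulus attached to a unit. -/
noncomputable def unitF (p : ι → ℕ) {t s : ℕ} (u : (Fin (4 * t) → ℕ) × (Fin s → ℕ))
    (x : ℕ × ℕ) : ℝ :=
  ∏ i, ‖fS p ((mult u i : ℝ) * ((x.2 : ℝ) / x.1))‖ ^ 2

theorem unitF_nonneg (p : ι → ℕ) {t s : ℕ} (u : (Fin (4 * t) → ℕ) × (Fin s → ℕ))
    (x : ℕ × ℕ) : 0 ≤ unitF p u x := by
  unfold unitF
  positivity

/-- the average over the units. -/
theorem unitF_avg (p : ι → ℕ) (P Q : Finset ℕ) (w s t v m q h : ℕ) (κ : ℝ)
    (hP : ∀ x ∈ P, x.Prime ∧ x < 2 ^ w) (hPne : P.Nonempty)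
    (hws : 2 ^ (w * s) ≤ q) (hq : 0 < q) (hmq : m ∣ q)
    (hQ : ∀ x ∈ Q, x.Prime ∧ t < x ∧ x < 2 ^ v ∧ x.Coprime m)
    (hκ : kapStar p (2 ^ (2 * t * v)) m ≤ κ) (hh : h.Coprime q) :
    ∑ u ∈ (Fintype.piFinset (fun _ : Fin (4 * t) => Q)) ×ˢ
        (Fintype.piFinset (fun _ : Fin s => P)), unitF p u (q, h)
      ≤ (q * s ! / (P.card : ℝ) ^ s) * (2 ^ (4 * t) * κ ^ (2 * t) + t ! / (Q.card : ℝ) ^ t)
        * ((Fintype.piFinset (fun _ : Fin (4 * t) => Q)) ×ˢ
        (Fintype.piFinset (fun _ : Fin s => P))).card := by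
  have hPc : (0 : ℝ) < P.card := by exact_mod_cast hPne.card_pos
  have hqR : (q : ℝ) ≠ 0 := by exact_mod_cast hq.ne'
  rw [Finset.sum_product]
  have step : ∀ PP ∈ Fintype.piFinset (fun _ : Fin (4 * t) => Q),
      ∑ n ∈ Fintype.piFinset (fun _ : Fin s => P), unitF p (PP, n) (q, h)
        ≤ s ! * ∑ u ∈ range q,
          ∏ i, ‖fS p ((u : ℝ) * ((∏ j ∈ univ.erase i, PP j : ℕ) : ℝ) / q)‖ ^ 2 := by
    intro PP _
    have := N_avg P w s q h hP hws hh
      (fun u => ∏ i, ‖fS p ((u : ℝ) * ((∏ j ∈ univ.erase i, PP j : ℕ) : ℝ) / q)‖ ^ 2)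
      (fun u => by positivity)
      (fun u => by
        apply Finset.prod_congr rfl
        intro i _
        congr 2
        obtain ⟨d, hd⟩ : ∃ d, u / q = d := ⟨_, rfl⟩
        obtain ⟨c, hc⟩ : ∃ c, u % q = c := ⟨_, rfl⟩
        have hu : (u : ℝ) = (c : ℝ) + (q : ℝ) * (d : ℝ) := by
          rw [← hd, ← hc]
          exact_mod_cast (Nat.mod_add_div u q).symm
        rw [hu, hc]
        rw [show ((c : ℝ) + (q : ℝ) * (d : ℝ))
            * ((∏ j ∈ univ.erase i, PP j : ℕ) : ℝ) / q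
            = (c : ℝ) * ((∏ j ∈ univ.erase i, PP j : ℕ) : ℝ) / q
              + (((d * (∏ j ∈ univ.erase i, PP j) : ℕ) : ℤ) : ℝ) by
          push_cast
          field_simp]
        rw [fS_add_int])
    refine le_trans (le_of_eq ?_) this
    apply Finset.sum_congr rfl
    intro n _
    unfold unitF mult
    apply Finset.prod_congr rfl
    intro i _
    congr 3
    push_cast
    ring
  calc ∑ PP ∈ Fintype.piFinset (fun _ : Fin (4 * t) => Q),
        ∑ n ∈ Fintype.piFinset (fun _ : Fin s => P), unitF p (PP, n) (q, h)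
      ≤ ∑ PP ∈ Fintype.piFinset (fun _ : Fin (4 * t) => Q), s ! * ∑ u ∈ range q,
          ∏ i, ‖fS p ((u : ℝ) * ((∏ j ∈ univ.erase i, PP j : ℕ) : ℝ) / q)‖ ^ 2 :=
        Finset.sum_le_sum step
    _ = s ! * ∑ PP ∈ Fintype.piFinset (fun _ : Fin (4 * t) => Q), ∑ u ∈ range q,
          ∏ i, ‖fS p ((u : ℝ) * ((∏ j ∈ univ.erase i, PP j : ℕ) : ℝ) / q)‖ ^ 2 := by
        rw [Finset.mul_sum]
    _ ≤ s ! * (q * (Q.card : ℝ) ^ (4 * t) *
          (2 ^ (4 * t) * κ ^ (2 * t) + t ! / (Q.card : ℝ) ^ t)) := by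
        apply mul_le_mul_of_nonneg_left _ (by positivity)
        exact P_avg_of_count p Q t v m q hq hmq
          (P_count Q t v m (Nat.pos_of_dvd_of_pos hmq hq) hQ) κ hκ
    _ = _ := by
        rw [Finset.card_product, Fintype.card_piFinset, Fintype.card_piFinset]
        simp only [Finset.prod_const, Finset.card_univ, Fintype.card_fin]
        push_cast
        field_simp

end

/-- One scale: structural statement. -/
theorem scale_core {r : ℕ} (p : Fin r → ℕ) (P Q : Finset ℕ) (w s t v E E' : ℕ) (κ : ℝ)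
    (hκ0 : 0 ≤ κ)
    (hP : ∀ x ∈ P, x.Prime ∧ x < 2 ^ w) (hPne : P.Nonempty) (hQne : Q.Nonempty)
    (hws : w * s ≤ E')
    (hQ : ∀ x ∈ Q, x.Prime ∧ t < x ∧ x < 2 ^ v)
    (M : ℕ → ℕ → Prop)
    (hM : ∀ q, 2 ^ E' ≤ q → q ≤ 2 ^ E → ∀ m, M q m →
      m ∣ q ∧ (∀ x ∈ Q, x.Coprime m) ∧ kapStar p (2 ^ (2 * t * v)) m ≤ κ) (n : ℕ) :
    ∃ (L : List (Multiset ℕ)) (H : ℕ), 0 < H ∧ H ≤ 2 ^ (n * (E' + v * (4 * t))) ∧
      (∀ ℓ : ℕ, ℓ.Prime → ℓ ∣ H → ℓ ∈ P ∨ ℓ ∈ Q) ∧
      Fam L (H * ∏ i, p i) ∧ L.length = n * (4 * t) ∧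
      ∀ q : ℕ, 2 ^ E' ≤ q → q ≤ 2 ^ E → ∀ m, M q m →
      ∀ h : ℕ, h.Coprime q → (pA L ((h : ℝ) / q)) ^ 2 ≤
        (2 : ℝ) ^ (2 * E + 1) * ((2 : ℝ) ^ E * s ! / (P.card : ℝ) ^ s *
          (2 ^ (4 * t) * κ ^ (2 * t) + t ! / (Q.card : ℝ) ^ t)) ^ n := by
  classical
  set Us := (Fintype.piFinset (fun _ : Fin (4 * t) => Q)) ×ˢ
        (Fintype.piFinset (fun _ : Fin s => P)) with hUs
  have hUne : Us.Nonempty := by
    rw [hUs]
    apply Finset.Nonempty.product
    · exact Fintype.piFinset_nonempty.2 (fun _ => hQne)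
    · exact Fintype.piFinset_nonempty.2 (fun _ => hPne)
  set Xs := ((range (2 ^ E + 1)) ×ˢ (range (2 ^ E))).filter
    (fun x : ℕ × ℕ => 2 ^ E' ≤ x.1 ∧ x.2.Coprime x.1 ∧ ∃ m, M x.1 m) with hXs
  set δ := (2 : ℝ) ^ E * s ! / (P.card : ℝ) ^ s *
          (2 ^ (4 * t) * κ ^ (2 * t) + t ! / (Q.card : ℝ) ^ t) with hδ
  have hPc : (0 : ℝ) < P.card := by exact_mod_cast hPne.card_pos
  have hQc : (0 : ℝ) < Q.card := by exact_mod_cast hQne.card_pos
  have hδ0 : 0 ≤ δ := by rw [hδ]; positivity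
  have havg : ∀ x ∈ Xs, ∑ u ∈ Us, unitF p u x ≤ δ * Us.card := by
    rintro ⟨q, h⟩ hx
    rw [hXs, Finset.mem_filter, Finset.mem_product, Finset.mem_range, Finset.mem_range] at hx
    obtain ⟨⟨hq1, hh1⟩, hq2, hcop, m, hm⟩ := hx
    simp only at hq1 hh1 hq2 hcop hm
    have hq : 0 < q := lt_of_lt_of_le (by positivity) hq2
    have hqE : q ≤ 2 ^ E := by omega
    obtain ⟨hmq, hcQ, hkap⟩ := hM q hq2 hqE m hm
    have h1 := unitF_avg p P Q w s t v m q h κ hP hPne
      (le_trans (Nat.pow_le_pow_right (by norm_num) hws) hq2) hq hmq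
      (fun x hx => ⟨(hQ x hx).1, (hQ x hx).2.1, (hQ x hx).2.2, hcQ x hx⟩) hkap hcop
    refine le_trans h1 ?_
    apply mul_le_mul_of_nonneg_right _ (by positivity)
    rw [hδ]
    apply mul_le_mul_of_nonneg_right _ (by positivity)
    apply div_le_div_of_nonneg_right _ (by positivity)
    apply mul_le_mul_of_nonneg_right _ (by positivity)
    exact_mod_cast hqE
  obtain ⟨u, huU, hu⟩ := selection Us hUne Xs (fun u x => unitF p u x)
    (fun u x => unitF_nonneg p u x) δ hδ0 havg n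
  set L : List (Multiset ℕ) :=
    (List.ofFn (fun a : Fin n => List.ofFn (fun i : Fin (4 * t) =>
      subProds p (mult (u a) i)))).flatten with hL
  set H : ℕ := ∏ a : Fin n, ((∏ j, (u a).2 j) * ∏ j, (u a).1 j) with hH
  have hmem1 : ∀ a j, (u a).1 j ∈ Q := by
    intro a j
    have := (Finset.mem_product.1 (huU a)).1
    exact (Fintype.mem_piFinset.1 this) j
  have hmem2 : ∀ a j, (u a).2 j ∈ P := by
    intro a j
    have := (Finset.mem_product.1 (huU a)).2
    exact (Fintype.mem_piFinset.1 this) j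
  refine ⟨L, H, ?_, ?_, ?_, ?_, ?_, ?_⟩
  · rw [hH]
    apply Finset.prod_pos
    intro a _
    apply Nat.mul_pos
    · exact Finset.prod_pos (fun j _ => (hP _ (hmem2 a j)).1.pos)
    · exact Finset.prod_pos (fun j _ => (hQ _ (hmem1 a j)).1.pos)
  · rw [hH]
    calc ∏ a : Fin n, ((∏ j, (u a).2 j) * ∏ j, (u a).1 j)
        ≤ ∏ a : Fin n, (2 ^ (E' + v * (4 * t))) := by
          apply Finset.prod_le_prod'
          intro a _
          rw [pow_add]
          apply Nat.mul_le_mul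
          · calc ∏ j, (u a).2 j ≤ ∏ j : Fin s, 2 ^ w :=
                  Finset.prod_le_prod' (fun j _ => (hP _ (hmem2 a j)).2.le)
              _ = 2 ^ (w * s) := by rw [Finset.prod_const, Finset.card_univ, Fintype.card_fin, ← pow_mul]
              _ ≤ 2 ^ E' := Nat.pow_le_pow_right (by norm_num) hws
          · calc ∏ j, (u a).1 j ≤ ∏ j : Fin (4 * t), 2 ^ v :=
                  Finset.prod_le_prod' (fun j _ => (hQ _ (hmem1 a j)).2.2.le)
              _ = 2 ^ (v * (4 * t)) := by rw [Finset.prod_const, Finset.card_univ, Fintype.card_fin, ← pow_mul]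
      _ = 2 ^ (n * (E' + v * (4 * t))) := by
          rw [Finset.prod_const, Finset.card_univ, Fintype.card_fin, ← pow_mul]
          congr 1
          ring
  · intro ℓ hℓ hdvd
    rw [hH] at hdvd
    obtain ⟨a, _, ha⟩ := (Prime.dvd_finsetProd_iff hℓ.prime _).1 hdvd
    rcases (Nat.Prime.dvd_mul hℓ).1 ha with h1 | h1
    · obtain ⟨j, _, hj⟩ := (Prime.dvd_finsetProd_iff hℓ.prime _).1 h1
      left
      rw [(Nat.prime_dvd_prime_iff_eq hℓ (hP _ (hmem2 a j)).1).1 hj]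
      exact hmem2 a j
    · obtain ⟨j, _, hj⟩ := (Prime.dvd_finsetProd_iff hℓ.prime _).1 h1
      right
      rw [(Nat.prime_dvd_prime_iff_eq hℓ (hQ _ (hmem1 a j)).1).1 hj]
      exact hmem1 a j
  · intro T hT
    rw [hL, List.mem_flatten] at hT
    obtain ⟨l, hl, hTl⟩ := hT
    rw [List.mem_ofFn] at hl
    obtain ⟨a, rfl⟩ := hl
    rw [List.mem_ofFn] at hTl
    obtain ⟨i, rfl⟩ := hTl
    refine ⟨subProds_ne_zero _ _, fun d hd => ?_⟩
    refine (dvd_of_mem_subProds hd).trans ?_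
    apply Nat.mul_dvd_mul_right
    rw [hH]
    refine Dvd.dvd.trans ?_ (Finset.dvd_prod_of_mem _ (Finset.mem_univ a))
    unfold mult
    apply Nat.mul_dvd_mul_left
    exact Finset.prod_dvd_prod_of_subset _ _ _ (Finset.erase_subset _ _)
  · rw [hL, List.length_flatten, List.map_ofFn]
    simp only [Function.comp_def, List.length_ofFn, List.sum_ofFn, Finset.sum_const,
      Finset.card_univ, Fintype.card_fin, smul_eq_mul]
  · intro q hq1 hq2 m hm h hcop
    have hq : 0 < q := lt_of_lt_of_le (by positivity) hq1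
    have hqR : (q : ℝ) ≠ 0 := by exact_mod_cast hq.ne'
    have hpA : (pA L ((h : ℝ) / q)) ^ 2 = ∏ a, unitF p (u a) (q, h % q) := by
      unfold pA
      rw [hL, List.map_flatten, List.prod_flatten, List.map_ofFn, List.map_ofFn, List.prod_ofFn,
        ← Finset.prod_pow]
      apply Finset.prod_congr rfl
      intro a _
      simp only [Function.comp_def, List.map_ofFn, List.prod_ofFn]
      rw [← Finset.prod_pow]
      unfold unitF
      apply Finset.prod_congr rfl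
      intro i _
      rw [avgE_subProds]
      congr 2
      simp only
      obtain ⟨d, hd⟩ : ∃ d, h / q = d := ⟨_, rfl⟩
      obtain ⟨c, hc⟩ : ∃ c, h % q = c := ⟨_, rfl⟩
      have hu : (h : ℝ) = (c : ℝ) + (q : ℝ) * (d : ℝ) := by
        rw [← hd, ← hc]
        exact_mod_cast (Nat.mod_add_div h q).symm
      rw [hu, hc]
      rw [show (mult (u a) i : ℝ) * (((c : ℝ) + (q : ℝ) * (d : ℝ)) / q)
          = (mult (u a) i : ℝ) * ((c : ℝ) / q) + (((mult (u a) i * d : ℕ) : ℤ) : ℝ) by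
        push_cast
        field_simp]
      rw [fS_add_int]
    rw [hpA]
    have hx : (q, h % q) ∈ Xs := by
      rw [hXs, Finset.mem_filter, Finset.mem_product, Finset.mem_range, Finset.mem_range]
      refine ⟨⟨by simp only; omega, ?_⟩, hq1, ?_, m, hm⟩
      · simp only
        exact lt_of_lt_of_le (Nat.mod_lt _ hq) hq2
      · simp only
        have := hcop
        rw [Nat.coprime_comm] at this ⊢
        unfold Nat.Coprime at this ⊢
        rw [← this, Nat.gcd_comm q (h % q), ← Nat.gcd_rec]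
    refine le_trans (hu _ hx) ?_
    apply mul_le_mul_of_nonneg_right _ (by positivity)
    have hc : Xs.card ≤ 2 ^ (2 * E + 1) := by
      calc Xs.card ≤ ((range (2 ^ E + 1)) ×ˢ (range (2 ^ E))).card := Finset.card_filter_le _ _
        _ = (2 ^ E + 1) * 2 ^ E := by rw [Finset.card_product, Finset.card_range, Finset.card_range]
        _ ≤ (2 ^ E + 2 ^ E) * 2 ^ E := by
            apply Nat.mul_le_mul_right
            have : 1 ≤ 2 ^ E := Nat.one_le_two_pow
            omega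
        _ = 2 ^ (2 * E + 1) := by ring
    exact_mod_cast hc

end Vale.Agent.P012
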