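import Mathlib

/-! Numerical inequality for one scale. -/

namespace Vale.Agent.P012

open Finset
open scoped Nat

theorem pow_four_le_two_pow (k : ℕ) (hk : 16 ≤ k) : k ^ 4 ≤ 2 ^ k := by
  induction k, hk using Nat.le_induction with
  | base => norm_num
  | succ n hn ih =>
    have h1 : (n + 1) ^ 4 ≤ 2 * n ^ 4 := by
      have e1 : 16 * n ^ 3 ≤ n ^ 4 := by
        calc 16 * n ^ 3 ≤ n * n ^ 3 := Nat.mul_le_mul_right _ hn
          _ = n ^ 4 := by ring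
      have e2 : 16 * n ^ 2 ≤ n ^ 3 := by
        calc 16 * n ^ 2 ≤ n * n ^ 2 := Nat.mul_le_mul_right _ hn
          _ = n ^ 3 := by ring
      have e3 : 16 * n ≤ n ^ 2 := by
        calc 16 * n ≤ n * n := Nat.mul_le_mul_right _ hn
          _ = n ^ 2 := by ring
      have e4 : (n + 1) ^ 4 = n ^ 4 + 4 * n ^ 3 + 6 * n ^ 2 + 4 * n + 1 := by ring
      rw [e4]
      omega
    calc (n + 1) ^ 4 ≤ 2 * n ^ 4 := h1
      _ ≤ 2 * 2 ^ n := Nat.mul_le_mul_left _ ih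
      _ = 2 ^ (n + 1) := by ring

/-- combinatorial facts on the parameters -/
theorem scale_params (k E r₁ t v : ℕ) (hk : 1000 ≤ k) (hE : 50000 * k ≤ E) (hE2 : E ≤ 2 ^ k)
    (hr : r₁ = 64 * 2 ^ k / k + 1) (ht : t = E / r₁ + 1) (hv : v = E / (10 * t)) :
    1 ≤ t ∧ t ≤ k ∧ 50000 * k * t ≤ E ∧ 10 * t * v ≤ E ∧ E < 10 * t * (v + 1) ∧ 4999 * k ≤ v ∧
      E < r₁ * t ∧ r₁ * k ≤ 64 * 2 ^ k + k := by
  have hk0 : 0 < k := by omega
  have ht1 : 1 ≤ t := by rw [ht]; exact Nat.succ_le_succ (Nat.zero_le _)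
  have h4 : k ^ 4 ≤ 2 ^ k := pow_four_le_two_pow k (by omega)
  have hr0 : 0 < r₁ := by rw [hr]; exact Nat.succ_pos _
  -- r₁ * k bounds
  have hr1 : 64 * 2 ^ k < r₁ * k := by
    rw [hr, Nat.mul_comm _ k]
    exact Nat.lt_mul_div_succ (64 * 2 ^ k) hk0
  have hr2 : r₁ * k ≤ 64 * 2 ^ k + k := by
    rw [hr, Nat.add_mul, Nat.one_mul]
    have := Nat.div_mul_le_self (64 * 2 ^ k) k
    omega
  have htE : (t - 1) * r₁ ≤ E := by
    have : t - 1 = E / r₁ := by omega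
    rw [this]
    exact Nat.div_mul_le_self E r₁
  have htE2 : E < r₁ * t := by
    rw [ht]
    exact Nat.lt_mul_div_succ E hr0
  have hF : 50000 * k * t ≤ E := by
    rcases Nat.eq_or_lt_of_le ht1 with h | h
    · rw [← h, Nat.mul_one]; exact hE
    · -- t ≥ 2, t ≤ 2 (t-1)
      have h2 : t ≤ 2 * (t - 1) := by omega
      have h3 : 100000 * k * k ≤ 64 * 2 ^ k := by
        have : 1000 * 1000 * (k * k) ≤ k ^ 4 := by
          calc 1000 * 1000 * (k * k) ≤ k * k * (k * k) :=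
                Nat.mul_le_mul_right _ (Nat.mul_le_mul hk hk)
            _ = k ^ 4 := by ring
        nlinarith
      have h5 : 100000 * k ≤ r₁ := by
        by_contra hcon
        push Not at hcon
        have : r₁ * k ≤ 100000 * k * k := Nat.mul_le_mul_right _ hcon.le
        omega
      calc 50000 * k * t ≤ 50000 * k * (2 * (t - 1)) := Nat.mul_le_mul_left _ h2
        _ = (t - 1) * (100000 * k) := by ring
        _ ≤ (t - 1) * r₁ := Nat.mul_le_mul_left _ h5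
        _ ≤ E := htE
  have htk : t ≤ k := by
    by_contra hcon
    push Not at hcon
    have h1 : k ≤ t - 1 := by omega
    have h2 : k * r₁ ≤ E := le_trans (Nat.mul_le_mul_right _ h1) htE
    rw [Nat.mul_comm] at h2
    have : 2 ^ k ≤ 64 * 2 ^ k := by omega
    omega
  have hv1 : 10 * t * v ≤ E := by
    rw [hv]
    exact Nat.mul_div_le E (10 * t)
  have hv2 : E < 10 * t * (v + 1) := by
    rw [hv]
    exact Nat.lt_mul_div_succ E (by omega)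
  have hv3 : 4999 * k ≤ v := by
    have h1 : 50000 * k * t < 10 * t * (v + 1) := lt_of_le_of_lt hF hv2
    have h2 : (10 * t) * (5000 * k) < (10 * t) * (v + 1) := by
      calc (10 * t) * (5000 * k) = 50000 * k * t := by ring
        _ < _ := h1
    have h3 := Nat.lt_of_mul_lt_mul_left h2
    omega
  exact ⟨ht1, htk, hF, hv1, hv2, hv3, htE2, hr2⟩

/-- first factor -/
theorem scale_num_A (k E s cP : ℕ) (hk : 1000 ≤ k) (hE : 50000 * k ≤ E) (hE2 : E ≤ 2 ^ k)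
    (hs : s = (E - E / 200) / (400 * k)) (hcP : 2 ^ (399 * k) ≤ cP) :
    (2 : ℝ) ^ E * s ! / (cP : ℝ) ^ s ≤ (2 : ℝ) ^ (0.018 * E : ℝ) := by
  have hER : (50000 : ℝ) * k ≤ E := by exact_mod_cast hE
  have hkR : (1000 : ℝ) ≤ k := by exact_mod_cast hk
  have hsE : s * (400 * k) ≤ E := by
    rw [hs]
    exact le_trans (Nat.div_mul_le_self _ _) (Nat.sub_le _ _)
  have hs2 : E - E / 200 < 400 * k * (s + 1) := by
    rw [hs]
    exact Nat.lt_mul_div_succ _ (by omega)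
  have hs3 : (0.995 : ℝ) * E < 400 * k * (s + 1) := by
    have h1 : 199 * E ≤ 200 * (E - E / 200) := by omega
    have h2 : 199 * E < 200 * (400 * k * (s + 1)) := by omega
    have h3 : (199 : ℝ) * E < 200 * (400 * k * (s + 1)) := by exact_mod_cast h2
    linarith
  have hfac : s ! ≤ 2 ^ (k * s) := by
    have h1 : s ≤ 2 ^ k := by
      calc s = s * 1 := by ring
        _ ≤ s * (400 * k) := Nat.mul_le_mul_left _ (by omega)
        _ ≤ 2 ^ k := le_trans hsE hE2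
    calc s ! ≤ s ^ s := Nat.factorial_le_pow s
      _ ≤ (2 ^ k) ^ s := Nat.pow_le_pow_left h1 s
      _ = 2 ^ (k * s) := by rw [← pow_mul]
  have hcPR : (2 : ℝ) ^ (399 * k) ≤ cP := by exact_mod_cast hcP
  have h1 : (2 : ℝ) ^ (399 * k * s) ≤ (cP : ℝ) ^ s := by
    rw [pow_mul]
    exact pow_le_pow_left₀ (by positivity) hcPR s
  have h2 : ((s ! : ℕ) : ℝ) ≤ (2 : ℝ) ^ (k * s) := by exact_mod_cast hfac
  have h3 : (0 : ℝ) < (2 : ℝ) ^ (399 * k * s) := by positivity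
  calc (2 : ℝ) ^ E * s ! / (cP : ℝ) ^ s ≤ (2 : ℝ) ^ E * 2 ^ (k * s) / (2 : ℝ) ^ (399 * k * s) := by
        gcongr
    _ = (2 : ℝ) ^ ((E : ℝ) + (k * s : ℝ) - (399 * k * s : ℝ)) := by
        rw [Real.rpow_sub (by norm_num), Real.rpow_add (by norm_num)]
        have e1 : (2 : ℝ) ^ (E : ℝ) = (2 : ℝ) ^ E := Real.rpow_natCast _ _
        have e2 : (2 : ℝ) ^ (k * s : ℝ) = (2 : ℝ) ^ (k * s) := by
          rw [← Real.rpow_natCast]; push_cast; rfl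
        have e3 : (2 : ℝ) ^ (399 * k * s : ℝ) = (2 : ℝ) ^ (399 * k * s) := by
          rw [← Real.rpow_natCast]; push_cast; rfl
        rw [e1, e2, e3]
    _ ≤ (2 : ℝ) ^ (0.018 * E : ℝ) := by
        apply Real.rpow_le_rpow_of_exponent_le (by norm_num)
        have h5 : 400 * (k : ℝ) * (s + 1) = 400 * (k * s) + 400 * k := by ring
        rw [h5] at hs3
        have h6 : 399 * (k : ℝ) * s = 399 * (k * s) := by ring
        rw [h6]
        linarith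

/-- second factor, first part -/
theorem scale_num_B1 (k E r₁ t v : ℕ) (hk : 1000 ≤ k) (hE : 50000 * k ≤ E) (hE2 : E ≤ 2 ^ k)
    (hr : r₁ = 64 * 2 ^ k / k + 1) (ht : t = E / r₁ + 1) (hv : v = E / (10 * t)) :
    (2 : ℝ) ^ (4 * t) * ((2 : ℝ) ^ (1 - 59 / 10 * (2 ^ k / k) : ℝ)
        + (2 : ℝ) ^ (-(57 / 1000) * E : ℝ)) ^ (2 * t) ≤ (2 : ℝ) ^ (-(0.1 * E) : ℝ) := by
  obtain ⟨ht1, htk, hF, hv1, hv2, hv3, htE, hrk⟩ := scale_params k E r₁ t v hk hE hE2 hr ht hv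
  have hkR : (1000 : ℝ) ≤ k := by exact_mod_cast hk
  have hk0R : (0 : ℝ) < k := by linarith
  have ht1R : (1 : ℝ) ≤ t := by exact_mod_cast ht1
  have hFR : (50000 : ℝ) * k * t ≤ E := by exact_mod_cast hF
  have hkt : (1000 : ℝ) * t ≤ k * t := mul_le_mul_of_nonneg_right hkR (by linarith)
  have htE3 : (50000000 : ℝ) * t ≤ E := by linarith
  have hE0 : (0 : ℝ) < E := by linarith
  obtain ⟨X, hX⟩ : ∃ X : ℝ, X = 2 ^ k / k := ⟨_, rfl⟩
  rw [← hX]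
  have hkX : (k : ℝ) * X = 2 ^ k := by
    rw [hX]; field_simp
  have htE2 : (E : ℝ) ≤ (64 * X + 1) * t := by
    have h1 : (E : ℝ) ≤ r₁ * t := by exact_mod_cast htE.le
    have h2 : (r₁ : ℝ) * k ≤ 64 * 2 ^ k + k := by exact_mod_cast hrk
    have h3 : (r₁ : ℝ) ≤ 64 * X + 1 := by
      rw [← hkX] at h2
      have : (r₁ : ℝ) * k ≤ (64 * X + 1) * k := by linarith
      exact le_of_mul_le_mul_right this hk0R
    exact le_trans h1 (mul_le_mul_of_nonneg_right h3 (by linarith))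
  have hpart1 : ∀ y : ℝ, y ≤ 59 / 10 * X → y ≤ 57 / 1000 * E → 0.1 * E + 8 * t ≤ 2 * t * y →
      (2 : ℝ) ^ (4 * t) * ((2 : ℝ) ^ (1 - 59 / 10 * X : ℝ)
        + (2 : ℝ) ^ (-(57 / 1000) * E : ℝ)) ^ (2 * t) ≤ (2 : ℝ) ^ (-(0.1 * E) : ℝ) := by
    intro y hy1 hy2 hy3
    have h1 : (2 : ℝ) ^ (1 - 59 / 10 * X : ℝ) + (2 : ℝ) ^ (-(57 / 1000) * E : ℝ)
        ≤ (2 : ℝ) ^ (2 - y : ℝ) := by
      have e1 : (2 : ℝ) ^ (1 - 59 / 10 * X : ℝ) ≤ (2 : ℝ) ^ (1 - y : ℝ) :=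
        Real.rpow_le_rpow_of_exponent_le (by norm_num) (by linarith)
      have e2 : (2 : ℝ) ^ (-(57 / 1000) * E : ℝ) ≤ (2 : ℝ) ^ (1 - y : ℝ) :=
        Real.rpow_le_rpow_of_exponent_le (by norm_num) (by linarith)
      have e3 : (2 : ℝ) ^ (2 - y : ℝ) = 2 * (2 : ℝ) ^ (1 - y : ℝ) := by
        rw [show (2 - y : ℝ) = 1 + (1 - y) by ring, Real.rpow_add (by norm_num), Real.rpow_one]
      linarith
    calc (2 : ℝ) ^ (4 * t) * ((2 : ℝ) ^ (1 - 59 / 10 * X : ℝ)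
        + (2 : ℝ) ^ (-(57 / 1000) * E : ℝ)) ^ (2 * t)
        ≤ (2 : ℝ) ^ (4 * t) * ((2 : ℝ) ^ (2 - y : ℝ)) ^ (2 * t) := by
          gcongr
      _ = (2 : ℝ) ^ ((4 * t : ℝ) + (2 - y) * (2 * t) : ℝ) := by
          rw [Real.rpow_add (by norm_num), Real.rpow_mul (by norm_num) (2 - y) (2 * t)]
          have e1 : (2 : ℝ) ^ (4 * t : ℝ) = (2 : ℝ) ^ (4 * t) := by
            rw [← Real.rpow_natCast]; push_cast; rfl
          have e2 : ((2 : ℝ) ^ (2 - y : ℝ)) ^ (2 * t : ℝ) = ((2 : ℝ) ^ (2 - y : ℝ)) ^ (2 * t) := by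
            rw [← Real.rpow_natCast]; push_cast; rfl
          rw [e1, e2]
      _ ≤ (2 : ℝ) ^ (-(0.1 * E) : ℝ) := by
          apply Real.rpow_le_rpow_of_exponent_le (by norm_num)
          have e4 : (2 - y) * (2 * t) = 4 * t - 2 * t * y := by ring
          rw [e4]
          linarith
  rcases le_total (59 / 10 * X) (57 / 1000 * E) with h | h
  · refine hpart1 (59 / 10 * X) le_rfl h ?_
    have h8 : (64 * X + 1) * t = 64 * (t * X) + t := by ring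
    have h9 : 2 * t * (59 / 10 * X) = 59 / 5 * (t * X) := by ring
    rw [h9]
    rw [h8] at htE2
    linarith
  · refine hpart1 (57 / 1000 * E) h le_rfl ?_
    have h8 : (1 : ℝ) * E ≤ t * E := mul_le_mul_of_nonneg_right ht1R hE0.le
    have h9 : 2 * (t : ℝ) * (57 / 1000 * E) = 57 / 500 * (t * E) := by ring
    rw [h9]
    linarith

/-- the number of small primes is positive -/
theorem scale_num_Q (k E r₁ t v cQ : ℕ) (hk : 1000 ≤ k) (hE : 50000 * k ≤ E) (hE2 : E ≤ 2 ^ k)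
    (hr : r₁ = 64 * 2 ^ k / k + 1) (ht : t = E / r₁ + 1) (hv : v = E / (10 * t))
    (hcQ : 2 ^ v ≤ 8 * v * (cQ + t + 1)) : 2 ^ v ≤ 16 * v * cQ ∧ 0 < cQ := by
  obtain ⟨ht1, htk, hF, hv1, hv2, hv3, htE, hrk⟩ := scale_params k E r₁ t v hk hE hE2 hr ht hv
  have hv4 : v ^ 4 ≤ 2 ^ v := pow_four_le_two_pow v (by omega)
  have hQ2 : 2 ^ v ≤ 16 * v * cQ := by
    have h1 : t + 1 ≤ v := by omega
    have h2 : 16 * v * (t + 1) ≤ v ^ 4 := by
      have h16 : 16 ≤ v * v := le_trans (by norm_num) (Nat.mul_le_mul (show 4 ≤ v by omega) (show 4 ≤ v by omega))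
      calc 16 * v * (t + 1) ≤ (v * v) * v * v :=
            Nat.mul_le_mul (Nat.mul_le_mul h16 le_rfl) h1
        _ = v ^ 4 := by ring
    have h3 : 8 * v * (cQ + t + 1) * 2 = 16 * v * cQ + 16 * v * (t + 1) := by ring
    omega
  refine ⟨hQ2, ?_⟩
  rcases Nat.eq_zero_or_pos cQ with h | h
  · rw [h, Nat.mul_zero] at hQ2
    have : 0 < 2 ^ v := by positivity
    omega
  · exact h

/-- second factor, second part -/
theorem scale_num_B2 (k E r₁ t v cQ : ℕ) (hk : 1000 ≤ k) (hE : 50000 * k ≤ E) (hE2 : E ≤ 2 ^ k)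
    (hr : r₁ = 64 * 2 ^ k / k + 1) (ht : t = E / r₁ + 1) (hv : v = E / (10 * t))
    (hcQ : 2 ^ v ≤ 8 * v * (cQ + t + 1)) :
    (t ! : ℝ) / (cQ : ℝ) ^ t ≤ (2 : ℝ) ^ (-(0.08 * E) : ℝ) := by
  obtain ⟨ht1, htk, hF, hv1, hv2, hv3, htE, hrk⟩ := scale_params k E r₁ t v hk hE hE2 hr ht hv
  obtain ⟨hQ2, hQ0⟩ := scale_num_Q k E r₁ t v cQ hk hE hE2 hr ht hv hcQ
  have hkR : (1000 : ℝ) ≤ k := by exact_mod_cast hk
  have ht1R : (1 : ℝ) ≤ t := by exact_mod_cast ht1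
  have hFR : (50000 : ℝ) * k * t ≤ E := by exact_mod_cast hF
  have hkt : (1000 : ℝ) * t ≤ k * t := mul_le_mul_of_nonneg_right hkR (by linarith)
  have hv2R : (E : ℝ) < 10 * t * (v + 1) := by exact_mod_cast hv2
  have hQ0R : (0 : ℝ) < cQ := by exact_mod_cast hQ0
  have h1 : t ! * 2 ^ (v * t) ≤ 2 ^ ((k + 1) * t) * cQ ^ t := by
    calc t ! * 2 ^ (v * t) ≤ t ^ t * 2 ^ (v * t) := Nat.mul_le_mul_right _ (Nat.factorial_le_pow t)
      _ = (t * 2 ^ v) ^ t := by rw [pow_mul, ← mul_pow]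
      _ ≤ (2 ^ (k + 1) * cQ) ^ t := by
          apply Nat.pow_le_pow_left
          calc t * 2 ^ v ≤ t * (16 * v * cQ) := Nat.mul_le_mul_left _ hQ2
            _ = (16 * (t * v)) * cQ := by ring
            _ ≤ 2 ^ (k + 1) * cQ := by
                apply Nat.mul_le_mul_right
                have : 10 * (t * v) ≤ E := by rw [← Nat.mul_assoc]; exact hv1
                have h6 : 2 ^ (k + 1) = 2 * 2 ^ k := by ring
                omega
      _ = 2 ^ ((k + 1) * t) * cQ ^ t := by rw [mul_pow, ← pow_mul]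
  have h2 : (t ! : ℝ) * 2 ^ (v * t) ≤ 2 ^ ((k + 1) * t) * (cQ : ℝ) ^ t := by exact_mod_cast h1
  have h3 : (t ! : ℝ) / (cQ : ℝ) ^ t ≤ 2 ^ ((k + 1) * t) / 2 ^ (v * t) := by
    rw [div_le_div_iff₀ (by positivity) (by positivity)]
    exact h2
  refine le_trans h3 ?_
  calc (2 : ℝ) ^ ((k + 1) * t) / 2 ^ (v * t) = (2 : ℝ) ^ (((k + 1) * t : ℝ) - (v * t : ℝ)) := by
        rw [Real.rpow_sub (by norm_num)]
        have e1 : (2 : ℝ) ^ ((k + 1) * t : ℝ) = (2 : ℝ) ^ ((k + 1) * t) := by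
          rw [← Real.rpow_natCast]; push_cast; rfl
        have e2 : (2 : ℝ) ^ (v * t : ℝ) = (2 : ℝ) ^ (v * t) := by
          rw [← Real.rpow_natCast]; push_cast; rfl
        rw [e1, e2]
    _ ≤ (2 : ℝ) ^ (-(0.08 * E) : ℝ) := by
        apply Real.rpow_le_rpow_of_exponent_le (by norm_num)
        have e3 : (k + 1 : ℝ) * t = k * t + t := by ring
        have e4 : 10 * (t : ℝ) * (v + 1) = 10 * (v * t) + 10 * t := by ring
        rw [e3]
        rw [e4] at hv2R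
        linarith

theorem scale_numeric : ∃ k₀ : ℕ, ∀ k ≥ k₀, ∀ E : ℕ, 50000 * k ≤ E → E ≤ 2 ^ k →
    ∀ r₁ t v s : ℕ, r₁ = 64 * 2 ^ k / k + 1 → t = E / r₁ + 1 → v = E / (10 * t) →
    s = (E - E / 200) / (400 * k) →
    ∀ cP cQ : ℕ, 2 ^ (399 * k) ≤ cP → 2 ^ v ≤ 8 * v * (cQ + t + 1) →
    0 < cQ ∧ k ≤ v ∧
    ((2 : ℝ) ^ E * s ! / (cP : ℝ) ^ s) *
      (2 ^ (4 * t) * ((2 : ℝ) ^ (1 - 59 / 10 * (2 ^ k / k) : ℝ)
        + (2 : ℝ) ^ (-(57 / 1000) * E : ℝ)) ^ (2 * t) + t ! / (cQ : ℝ) ^ t)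
      ≤ (2 : ℝ) ^ (-(E / 20) : ℝ) := by
  refine ⟨1000, fun k hk E hE hE2 r₁ t v s hr ht hv hs cP cQ hcP hcQ => ?_⟩
  have hk' : 1000 ≤ k := hk
  obtain ⟨ht1, htk, hF, hv1, hv2, hv3, htE, hrk⟩ := scale_params k E r₁ t v hk' hE hE2 hr ht hv
  obtain ⟨hQ2, hQ0⟩ := scale_num_Q k E r₁ t v cQ hk' hE hE2 hr ht hv hcQ
  refine ⟨hQ0, by omega, ?_⟩
  have hA := scale_num_A k E s cP hk' hE hE2 hs hcP
  have hB1 := scale_num_B1 k E r₁ t v hk' hE hE2 hr ht hv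
  have hB2 := scale_num_B2 k E r₁ t v cQ hk' hE hE2 hr ht hv hcQ
  have hkR : (1000 : ℝ) ≤ k := by exact_mod_cast hk'
  have hER : (50000 : ℝ) * k ≤ E := by exact_mod_cast hE
  have hsum : (2 : ℝ) ^ (4 * t) * ((2 : ℝ) ^ (1 - 59 / 10 * (2 ^ k / k) : ℝ)
        + (2 : ℝ) ^ (-(57 / 1000) * E : ℝ)) ^ (2 * t) + t ! / (cQ : ℝ) ^ t
      ≤ (2 : ℝ) ^ (1 - 0.08 * E : ℝ) := by
    have e1 : (2 : ℝ) ^ (-(0.1 * E) : ℝ) ≤ (2 : ℝ) ^ (-(0.08 * E) : ℝ) :=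
      Real.rpow_le_rpow_of_exponent_le (by norm_num) (by linarith)
    have e3 : (2 : ℝ) ^ (1 - 0.08 * E : ℝ) = 2 * (2 : ℝ) ^ (-(0.08 * E) : ℝ) := by
      rw [show (1 - 0.08 * E : ℝ) = 1 + (-(0.08 * E)) by ring, Real.rpow_add (by norm_num),
        Real.rpow_one]
    linarith
  have hnn : 0 ≤ (2 : ℝ) ^ (4 * t) * ((2 : ℝ) ^ (1 - 59 / 10 * (2 ^ k / k) : ℝ)
        + (2 : ℝ) ^ (-(57 / 1000) * E : ℝ)) ^ (2 * t) + t ! / (cQ : ℝ) ^ t := by
    positivity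
  refine le_trans (mul_le_mul hA hsum hnn (by positivity)) ?_
  rw [← Real.rpow_add (by norm_num)]
  apply Real.rpow_le_rpow_of_exponent_le (by norm_num)
  linarith

end Vale.Agent.P012
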