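import Vale.Agent.Lib.P012.ScaleCore
import Vale.Agent.Lib.P012.ScaleNumeric
import Vale.Agent.Lib.P012.KapNumeric
import Vale.Agent.Lib.P012.DivBound

/-! One scale: final statement (E1). -/

namespace Vale.Agent.P012

open Finset
open scoped Nat

theorem se_pow_aux (n : ℕ) (hn : 100 ≤ n) : 8 * (400 * n) ≤ 2 ^ n := by
  induction n, hn using Nat.le_induction with
  | base => norm_num
  | succ n hn ih =>
    rw [pow_succ]
    omega

theorem se_sq_aux (n : ℕ) (hn : 100 ≤ n) : n * n ≤ 2 ^ n := by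
  induction n, hn using Nat.le_induction with
  | base => norm_num
  | succ n hn ih =>
    rw [pow_succ]
    nlinarith

theorem se_P_card (k : ℕ) (hk : 100 ≤ k) (c : ℕ) (h : 2 ^ (400 * k) ≤ 8 * (400 * k) * c) :
    2 ^ (399 * k) ≤ c := by
  have h2 : 8 * (400 * k) ≤ 2 ^ k := se_pow_aux k hk
  have h4 : 2 ^ k * 2 ^ (399 * k) ≤ 2 ^ k * c := by
    calc 2 ^ k * 2 ^ (399 * k) = 2 ^ (400 * k) := by rw [← pow_add]; congr 1; omega
      _ ≤ 8 * (400 * k) * c := h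
      _ ≤ 2 ^ k * c := Nat.mul_le_mul_right _ h2
  exact Nat.le_of_mul_le_mul_left h4 (by positivity)

theorem se_v_pos (k E r₁ t v : ℕ) (hk : 100 ≤ k) (hE1 : 50000 * k ≤ E)
    (hr₁ : r₁ = 64 * 2 ^ k / k + 1) (ht : t = E / r₁ + 1) (hv : v = E / (10 * t)) : 0 < v := by
  have hk2k : k ≤ 2 ^ k := Nat.lt_two_pow_self.le
  have ht1 : 1 ≤ t := by rw [ht]; exact Nat.le_add_left 1 _
  rw [hv]
  apply Nat.div_pos _ (by omega)
  have h5 : 20 ≤ r₁ := by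
    rw [hr₁]
    have : 64 * k / k ≤ 64 * 2 ^ k / k := Nat.div_le_div_right (Nat.mul_le_mul_left _ hk2k)
    rw [Nat.mul_div_cancel _ (by omega : 0 < k)] at this
    omega
  have h6 : E / r₁ ≤ E / 20 := Nat.div_le_div_left h5 (by norm_num)
  have h7 : t ≤ E / 20 + 1 := by rw [ht]; exact Nat.add_le_add_right h6 1
  omega

theorem se_vk (k E r₁ t v : ℕ) (hr₁ : r₁ = 64 * 2 ^ k / k + 1)
    (ht : t = E / r₁ + 1) (hv : v = E / (10 * t)) : v * k ≤ 65 * 2 ^ k := by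
  have hk2k : k ≤ 2 ^ k := Nat.lt_two_pow_self.le
  have ht1 : 0 < t := by rw [ht]; exact Nat.succ_pos _
  have hr0 : 0 < r₁ := by rw [hr₁]; exact Nat.succ_pos _
  have h1 : v * (10 * t) ≤ E := by rw [hv]; exact Nat.div_mul_le_self E (10 * t)
  have h2 : E < r₁ * t := by
    rw [ht]
    have := Nat.lt_mul_div_succ E hr0
    simpa [Nat.succ_eq_add_one] using this
  have h3 : v * 10 ≤ r₁ := by
    have : v * 10 * t ≤ r₁ * t := by
      calc v * 10 * t = v * (10 * t) := by ring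
        _ ≤ E := h1
        _ ≤ r₁ * t := h2.le
    exact Nat.le_of_mul_le_mul_right this ht1
  have h4 : (64 * 2 ^ k / k) * k ≤ 64 * 2 ^ k := Nat.div_mul_le_self _ _
  have h5 : r₁ * k ≤ 64 * 2 ^ k + k := by
    rw [hr₁, add_mul, one_mul]
    exact Nat.add_le_add_right h4 k
  have h6 : v * 10 * k ≤ r₁ * k := Nat.mul_le_mul_right _ h3
  nlinarith

theorem se_len (k E r₁ t : ℕ) (hk : 0 < k) (hr₁ : r₁ = 64 * 2 ^ k / k + 1)
    (ht : t = E / r₁ + 1) :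
    ((400 * (4 * t) : ℕ) : ℝ) ≤ (2000 : ℕ) * (1 + E * k / 2 ^ k) := by
  have hkR : (0 : ℝ) < k := by exact_mod_cast hk
  have h2kR : (0 : ℝ) < (2 : ℝ) ^ k := by positivity
  have hr1R : (64 * 2 ^ k : ℝ) / k ≤ r₁ := by
    rw [div_le_iff₀ hkR]
    have : 64 * 2 ^ k ≤ r₁ * k := by
      rw [hr₁]
      have := Nat.lt_mul_div_succ (64 * 2 ^ k) hk
      rw [mul_comm (64 * 2 ^ k / k + 1) k]
      exact this.le
    exact_mod_cast this
  have hr1pos : (0 : ℝ) < r₁ := lt_of_lt_of_le (by positivity) hr1R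
  have htR : (t : ℝ) ≤ E * k / (64 * 2 ^ k) + 1 := by
    rw [ht]
    push_cast
    have h1 : ((E / r₁ : ℕ) : ℝ) ≤ (E : ℝ) / r₁ := Nat.cast_div_le
    have h2 : (E : ℝ) / r₁ ≤ E / ((64 * 2 ^ k : ℝ) / k) :=
      div_le_div_of_nonneg_left (by positivity) (by positivity) hr1R
    have h3 : (E : ℝ) / ((64 * 2 ^ k : ℝ) / k) = E * k / (64 * 2 ^ k) := by
      field_simp
    linarith
  push_cast
  have hx : (0 : ℝ) ≤ E * k / 2 ^ k := by positivity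
  have hy : (E : ℝ) * k / (64 * 2 ^ k) = (E * k / 2 ^ k) / 64 := by
    field_simp
  rw [hy] at htR
  nlinarith

theorem se_final (E q : ℕ) (hE : 0 < E) (hq : 0 < q) (hqE : q ≤ 2 ^ E) (x δ : ℝ)
    (hδ0 : 0 ≤ δ) (hδ : δ ≤ (2 : ℝ) ^ (-(E / 20) : ℝ))
    (hx : x ^ 2 ≤ (2 : ℝ) ^ (2 * E + 1) * δ ^ 400) : x ≤ 1 / (q : ℝ) ^ 3 := by
  have hqR : (0 : ℝ) < q := by exact_mod_cast hq
  have hqE' : (q : ℝ) ≤ (2 : ℝ) ^ (E : ℝ) := by
    rw [Real.rpow_natCast]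
    exact_mod_cast hqE
  have hsq : x ^ 2 ≤ (1 / (q : ℝ) ^ 3) ^ 2 := by
    calc x ^ 2 ≤ _ := hx
      _ ≤ (2 : ℝ) ^ (2 * E + 1) * ((2 : ℝ) ^ (-(E / 20) : ℝ)) ^ 400 := by
        apply mul_le_mul_of_nonneg_left _ (by positivity)
        apply pow_le_pow_left₀ hδ0 hδ
      _ = (2 : ℝ) ^ ((2 * E + 1 : ℝ) + (-(E / 20) : ℝ) * 400) := by
        rw [Real.rpow_add (by norm_num), Real.rpow_mul (by norm_num)]
        congr 1
        · exact_mod_cast (Real.rpow_natCast (2 : ℝ) (2 * E + 1)).symm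
        · exact_mod_cast (Real.rpow_natCast ((2 : ℝ) ^ (-(E / 20) : ℝ)) 400).symm
      _ ≤ (2 : ℝ) ^ (-(6 * E : ℝ)) := by
        apply Real.rpow_le_rpow_of_exponent_le (by norm_num)
        have : (1 : ℝ) ≤ E := by exact_mod_cast hE
        linarith
      _ ≤ 1 / (q : ℝ) ^ 6 := by
        rw [Real.rpow_neg (by norm_num), ← one_div]
        apply one_div_le_one_div_of_le (by positivity)
        calc (q : ℝ) ^ 6 ≤ ((2 : ℝ) ^ (E : ℝ)) ^ 6 := pow_le_pow_left₀ hqR.le hqE' 6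
          _ = (2 : ℝ) ^ (6 * E : ℝ) := by
            rw [← Real.rpow_natCast, ← Real.rpow_mul (by norm_num)]
            push_cast
            ring_nf
      _ = (1 / (q : ℝ) ^ 3) ^ 2 := by
        rw [div_pow, one_pow, ← pow_mul]
  exact le_trans (le_abs_self x) (by
    have := sq_le_sq.1 hsq
    rwa [abs_of_nonneg (by positivity : (0 : ℝ) ≤ 1 / (q : ℝ) ^ 3)] at this)

/-- the bound for `kapStar`. -/
theorem se_kap (k E t v : ℕ) (r : ℕ) (p : Fin r → ℕ) (cls : ℕ → Bool) (σ : Bool)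
    (hp : ∀ g : ℕ, 2 ^ (1200 * k) ≤ g → g ≤ 2 ^ (2 ^ k) →
      (∀ ℓ : ℕ, ℓ.Prime → ℓ < 2 ^ (400 * k) → cls ℓ = σ → ℓ.Coprime g) →
        kap p g ≤ 2 * (2 : ℝ) ^ (-(8 * 2 ^ k / k : ℝ)) + (g : ℝ) ^ (-(1 / 4) : ℝ))
    (hE2 : E ≤ 2 ^ k) (κ : ℝ) (hκ0 : 0 ≤ κ) (q m : ℕ) (hq : 0 < q) (hq2 : q ≤ 2 ^ E)
    (hmq : m ∣ q) (hmσ : ∀ ℓ : ℕ, ℓ.Prime → cls ℓ = σ → ¬ ℓ ∣ m)
    (hN : ∀ g : ℕ, m ≤ 2 ^ (2 * t * v) * g → 2 ^ (1200 * k) ≤ g ∧
      (m.divisors.card : ℝ) * (2 * (2 : ℝ) ^ (-(8 * 2 ^ k / k : ℝ)) + (g : ℝ) ^ (-(1 / 4) : ℝ))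
        ≤ κ) :
    kapStar p (2 ^ (2 * t * v)) m ≤ κ := by
  have hm0 : 0 < m := Nat.pos_of_dvd_of_pos hmq hq
  have hmq' : m ≤ q := Nat.le_of_dvd hq hmq
  refine le_trans (kapStar_le p (2 ^ (2 * t * v)) m hm0) ?_
  by_cases hempty : (m.divisors.filter (fun g => m ≤ 2 ^ (2 * t * v) * g)) = ∅
  · rw [hempty, Finset.sum_empty]
    exact hκ0
  · obtain ⟨g₀, hg₀⟩ := Finset.nonempty_iff_ne_empty.2 hempty
    obtain ⟨g₁, hg₁, hmin⟩ := Finset.exists_min_image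
      (m.divisors.filter (fun g => m ≤ 2 ^ (2 * t * v) * g)) (fun g => g) ⟨g₀, hg₀⟩
    rw [Finset.mem_filter, Nat.mem_divisors] at hg₁
    have hb := (hN g₁ hg₁.2).2
    have hg1pos : 0 < g₁ := Nat.pos_of_dvd_of_pos hg₁.1.1 hm0
    refine le_trans ?_ hb
    calc ∑ g ∈ m.divisors.filter (fun g => m ≤ 2 ^ (2 * t * v) * g), kap p g
        ≤ ∑ g ∈ m.divisors.filter (fun g => m ≤ 2 ^ (2 * t * v) * g),
          (2 * (2 : ℝ) ^ (-(8 * 2 ^ k / k : ℝ)) + (g₁ : ℝ) ^ (-(1 / 4) : ℝ)) := by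
          apply Finset.sum_le_sum
          intro g hg
          have hg' := hmin g hg
          rw [Finset.mem_filter, Nat.mem_divisors] at hg
          have hgm : g ≤ m := Nat.le_of_dvd hm0 hg.1.1
          have hgb : g ≤ 2 ^ (2 ^ k) := by
            calc g ≤ q := hgm.trans hmq'
              _ ≤ 2 ^ E := hq2
              _ ≤ 2 ^ (2 ^ k) := Nat.pow_le_pow_right (by norm_num) hE2
          refine le_trans (hp g (hN g hg.2).1 hgb ?_) ?_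
          · intro ℓ hℓ _ hcl
            refine (Nat.Prime.coprime_iff_not_dvd hℓ).2 ?_
            intro hd
            exact hmσ ℓ hℓ hcl (hd.trans hg.1.1)
          · apply add_le_add le_rfl
            apply Real.rpow_le_rpow_of_nonpos
            · exact_mod_cast hg1pos
            · exact_mod_cast hg'
            · norm_num
      _ = ((m.divisors.filter (fun g => m ≤ 2 ^ (2 * t * v) * g)).card : ℝ) *
          (2 * (2 : ℝ) ^ (-(8 * 2 ^ k / k : ℝ)) + (g₁ : ℝ) ^ (-(1 / 4) : ℝ)) := by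
          rw [Finset.sum_const, nsmul_eq_mul]
      _ ≤ _ := by
          apply mul_le_mul_of_nonneg_right _ (by positivity)
          exact_mod_cast Finset.card_filter_le _ _

theorem se_Q_card (v t : ℕ) (cls : ℕ → Bool) (σ : Bool)
    (h : 2 ^ v ≤ 8 * v * ((range (2 ^ v)).filter (fun p => p.Prime ∧ cls p = σ)).card) :
    2 ^ v ≤ 8 * v * (((range (2 ^ v)).filter
      (fun x => x.Prime ∧ cls x = σ ∧ t < x)).card + t + 1) := by
  classical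
  refine le_trans h ?_
  apply Nat.mul_le_mul_left
  have hsub : (range (2 ^ v)).filter (fun x => x.Prime ∧ cls x = σ) ⊆
      (range (2 ^ v)).filter (fun x => x.Prime ∧ cls x = σ ∧ t < x) ∪ range (t + 1) := by
    intro x hx
    rw [Finset.mem_filter, Finset.mem_range] at hx
    rw [Finset.mem_union, Finset.mem_filter, Finset.mem_range, Finset.mem_range]
    by_cases h : t < x
    · left
      exact ⟨hx.1, hx.2.1, hx.2.2, h⟩
    · right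
      omega
  calc ((range (2 ^ v)).filter (fun x => x.Prime ∧ cls x = σ)).card
      ≤ _ := Finset.card_le_card hsub
    _ ≤ _ := Finset.card_union_le _ _
    _ = _ := by rw [Finset.card_range]; ring

theorem scale_exists' : ∃ k₀ C₁ : ℕ, ∀ k ≥ k₀, ∀ (cls : ℕ → Bool) (σ : Bool),
    (∀ v ≥ k, 2 ^ v ≤ 8 * v * ((range (2 ^ v)).filter (fun p => p.Prime ∧ cls p = σ)).card) →
    ∀ (r : ℕ) (p : Fin r → ℕ),
    (∀ g : ℕ, 2 ^ (1200 * k) ≤ g → g ≤ 2 ^ (2 ^ k) →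
      (∀ ℓ : ℕ, ℓ.Prime → ℓ < 2 ^ (400 * k) → cls ℓ = σ → ℓ.Coprime g) →
        kap p g ≤ 2 * (2 : ℝ) ^ (-(8 * 2 ^ k / k : ℝ)) + (g : ℝ) ^ (-(1 / 4) : ℝ)) →
    ∀ E : ℕ, 50000 * k ≤ E → E ≤ 2 ^ k →
    ∃ (L : List (Multiset ℕ)) (H : ℕ), 0 < H ∧ H ≤ 2 ^ (C₁ * E) ∧
      (∀ ℓ : ℕ, ℓ.Prime → ℓ ∣ H → ℓ ^ k ≤ 2 ^ (C₁ * 2 ^ k)) ∧
      Fam L (H * ∏ i, p i) ∧ (L.length : ℝ) ≤ C₁ * (1 + E * k / 2 ^ k) ∧
      ∀ q : ℕ, 2 ^ (E - E / 200) ≤ q → q ≤ 2 ^ E →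
      ∀ m : ℕ, m ∣ q → q ≤ m ^ 2 → (∀ ℓ : ℕ, ℓ.Prime → cls ℓ = σ → ¬ ℓ ∣ m) →
      ∀ h : ℕ, h.Coprime q → pA L ((h : ℝ) / q) ≤ 1 / (q : ℝ) ^ 3 := by
  classical
  obtain ⟨k₁, hN1⟩ := scale_numeric
  obtain ⟨k₂, hN2⟩ := kap_numeric_of divisor_bound
  refine ⟨max (max k₁ k₂) 100, 2000, ?_⟩
  intro k hk cls σ hcls r p hp E hE1 hE2
  have hk1 : k₁ ≤ k := le_trans (le_trans (le_max_left _ _) (le_max_left _ _)) hk
  have hk2 : k₂ ≤ k := le_trans (le_trans (le_max_right _ _) (le_max_left _ _)) hk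
  have hk3 : 100 ≤ k := le_trans (le_max_right _ _) hk
  have hEpos : 0 < E := by omega
  obtain ⟨r₁, hr₁⟩ : ∃ r₁, r₁ = 64 * 2 ^ k / k + 1 := ⟨_, rfl⟩
  obtain ⟨t, ht⟩ : ∃ t, t = E / r₁ + 1 := ⟨_, rfl⟩
  obtain ⟨v, hv⟩ : ∃ v, v = E / (10 * t) := ⟨_, rfl⟩
  obtain ⟨s, hs⟩ : ∃ s, s = (E - E / 200) / (400 * k) := ⟨_, rfl⟩
  obtain ⟨P, hP⟩ : ∃ P, P = (range (2 ^ (400 * k))).filter (fun x => x.Prime ∧ cls x = σ) :=
    ⟨_, rfl⟩
  obtain ⟨Q, hQ⟩ : ∃ Q, Q = (range (2 ^ v)).filter (fun x => x.Prime ∧ cls x = σ ∧ t < x) :=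
    ⟨_, rfl⟩
  have hPcard : 2 ^ (399 * k) ≤ P.card := by
    apply se_P_card k hk3
    rw [hP]
    exact hcls (400 * k) (by omega)
  have hPne : P.Nonempty := by
    rw [← Finset.card_pos]
    exact lt_of_lt_of_le (by positivity) hPcard
  have hv0 : 0 < v := se_v_pos k E r₁ t v hk3 hE1 hr₁ ht hv
  have hkv : k ≤ v := by
    refine (hN1 k hk1 E hE1 hE2 r₁ t v s hr₁ ht hv hs (2 ^ (399 * k)) (2 ^ v) le_rfl ?_).2.1
    calc 2 ^ v ≤ 1 * (2 ^ v + t + 1) := by omega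
      _ ≤ 8 * v * (2 ^ v + t + 1) := Nat.mul_le_mul_right _ (by omega)
  have hQcard : 2 ^ v ≤ 8 * v * (Q.card + t + 1) := by
    rw [hQ]
    exact se_Q_card v t cls σ (hcls v hkv)
  obtain ⟨hQpos, _, hδ⟩ := hN1 k hk1 E hE1 hE2 r₁ t v s hr₁ ht hv hs P.card Q.card hPcard hQcard
  have hQne : Q.Nonempty := Finset.card_pos.1 hQpos
  obtain ⟨κ, hκ⟩ : ∃ κ, κ = ((2 : ℝ) ^ (1 - 59 / 10 * (2 ^ k / k) : ℝ)
        + (2 : ℝ) ^ (-(57 / 1000) * E : ℝ)) := ⟨_, rfl⟩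
  rw [← hκ] at hδ
  have hκ0 : 0 ≤ κ := by rw [hκ]; positivity
  have hws : 400 * k * s ≤ E - E / 200 := by
    rw [hs]
    exact Nat.mul_div_le _ _
  obtain ⟨L, H, hH0, hHle, hHp, hFam, hlen, hbound⟩ := scale_core p P Q (400 * k) s t v E
    (E - E / 200) κ hκ0
    (fun x hx => by
      rw [hP, Finset.mem_filter, Finset.mem_range] at hx
      exact ⟨hx.2.1, hx.1⟩) hPne hQne hws
    (fun x hx => by
      rw [hQ, Finset.mem_filter, Finset.mem_range] at hx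
      exact ⟨hx.2.1, hx.2.2.2, hx.1⟩)
    (fun q m => m ∣ q ∧ q ≤ m ^ 2 ∧ ∀ ℓ : ℕ, ℓ.Prime → cls ℓ = σ → ¬ ℓ ∣ m)
    (by
      intro q hq1 hq2 m hm
      obtain ⟨hmq, hqm, hmσ⟩ := hm
      have hq : 0 < q := lt_of_lt_of_le (by positivity) hq1
      have hmq' : m ≤ q := Nat.le_of_dvd hq hmq
      refine ⟨hmq, ?_, ?_⟩
      · intro x hx
        rw [hQ, Finset.mem_filter, Finset.mem_range] at hx
        exact (Nat.Prime.coprime_iff_not_dvd hx.2.1).2 (hmσ x hx.2.1 hx.2.2.1)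
      · apply se_kap k E t v r p cls σ hp hE2 κ hκ0 q m hq hq2 hmq hmσ
        rw [hκ]
        exact hN2 k hk2 E hE1 hE2 r₁ t v hr₁ ht hv m (hmq'.trans hq2) (hq1.trans hqm)) 400
  have h4tv : v * (4 * t) ≤ E := by
    have h1 : v * (10 * t) ≤ E := by rw [hv]; exact Nat.div_mul_le_self E (10 * t)
    nlinarith [h1, Nat.zero_le (v * t)]
  refine ⟨L, H, hH0, ?_, ?_, hFam, ?_, ?_⟩
  · refine le_trans hHle (Nat.pow_le_pow_right (by norm_num) ?_)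
    have h1 : E - E / 200 ≤ E := Nat.sub_le _ _
    have h2 : E - E / 200 + v * (4 * t) ≤ E + E := Nat.add_le_add h1 h4tv
    calc 400 * (E - E / 200 + v * (4 * t)) ≤ 400 * (E + E) := Nat.mul_le_mul_left _ h2
      _ ≤ 2000 * E := by omega
  · intro ℓ hℓ hd
    have hvk : v * k ≤ 65 * 2 ^ k := se_vk k E r₁ t v hr₁ ht hv
    rcases hHp ℓ hℓ hd with h | h
    · rw [hP, Finset.mem_filter, Finset.mem_range] at h
      calc ℓ ^ k ≤ (2 ^ (400 * k)) ^ k := Nat.pow_le_pow_left h.1.le _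
        _ = 2 ^ (400 * k * k) := by rw [← pow_mul]
        _ ≤ 2 ^ (2000 * 2 ^ k) := by
          apply Nat.pow_le_pow_right (by norm_num)
          have := se_sq_aux k hk3
          nlinarith
    · rw [hQ, Finset.mem_filter, Finset.mem_range] at h
      calc ℓ ^ k ≤ (2 ^ v) ^ k := Nat.pow_le_pow_left h.1.le _
        _ = 2 ^ (v * k) := by rw [← pow_mul]
        _ ≤ 2 ^ (2000 * 2 ^ k) := by
          apply Nat.pow_le_pow_right (by norm_num)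
          omega
  · rw [hlen]
    exact se_len k E r₁ t (by omega) hr₁ ht
  · intro q hq1 hq2 m hmq hqm hmσ h hcop
    have hb := hbound q hq1 hq2 m ⟨hmq, hqm, hmσ⟩ h hcop
    have hq : 0 < q := lt_of_lt_of_le (by positivity) hq1
    exact se_final E q hEpos hq hq2 _ _ (by positivity) hδ hb

end Vale.Agent.P012
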